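import Vale.Agent.P097E.B1A

/-!
# P097E: block B1 (levels, no Galilean window, Wiman-Valiron asymptotics)
-/

set_option linter.all false

noncomputable section

namespace Vale.Agent.P097E

open Filter Topology Set Metric Complex ComplexConjugate

namespace B1

variable {f q : ℂ → ℂ}

/-- the function is small on a disc where `q` is large -/
theorem small (E : Ent f q) {y : ℂ} {G μ : ℝ} (hG : 0 < G) (hμ : 0 < μ) (hy : ‖q y‖ = G ^ 2)
    (hb : ∀ z ∈ ball y μ, ‖f z‖ ≤ 8 * G ∧ ‖q z‖ ≤ 64 * G ^ 2) {z : ℂ} (hz : ‖z - y‖ ≤ μ / 260) :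
    ‖f z‖ ≤ 12 * G * Real.exp (-(G * (μ / 260) / 2)) := by
  have q0 : q y ≠ 0 := norm_pos_iff.1 (by rw [hy]; positivity)
  obtain ⟨e, he⟩ := IsAlgClosed.exists_pow_nat_eq (((G ^ 2 : ℝ) : ℂ) / q y) two_pos
  have e2 : ‖e‖ ^ 2 = 1 := by
    rw [← norm_pow, he, norm_div, hy, Complex.norm_real, Real.norm_of_nonneg (sq_nonneg G),
      div_self (by positivity)]
  have e1 : ‖e‖ = 1 := (pow_eq_one_iff_of_nonneg (norm_nonneg e) two_ne_zero).1 e2
  have near : ∀ t ∈ Icc (-(μ / 260)) (μ / 260), ‖z + t * e - y‖ ≤ μ / 130 := fun t ht => by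
    have h1 : ‖(t : ℂ) * e‖ ≤ μ / 260 := by
      rw [norm_mul, e1, mul_one, Complex.norm_real, Real.norm_eq_abs]
      exact abs_le.2 ht
    have h2 := norm_add_le (z - y) (t * e)
    rw [show z + t * e - y = z - y + t * e by ring]
    linarith
  have inb : ∀ t ∈ Icc (-(μ / 260)) (μ / 260), z + t * e ∈ ball y μ := fun t ht => by
    rw [mem_ball, dist_eq_norm]
    linarith [near t ht]
  have key := chord E.df E.ode (z := z) (e := e) (B := 8 * G) hG (show 0 < μ / 260 by positivity)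
    (fun t ht => by
      have h1 := dist_le_div_mul_dist_of_mapsTo_ball (R₂ := 65 * G ^ 2) E.dq.differentiableOn
        (fun w hw => by
          rw [mem_closedBall, dist_eq_norm]
          linarith [norm_sub_le (q w) (q y), (hb w hw).2]) (inb t ht)
      rw [dist_eq_norm, dist_eq_norm] at h1
      have h2 : 65 * G ^ 2 / μ * ‖z + t * e - y‖ ≤ 65 * G ^ 2 / μ * (μ / 130) :=
        mul_le_mul_of_nonneg_left (near t ht) (by positivity)
      have h3 : 65 * G ^ 2 / μ * (μ / 130) = G ^ 2 / 2 := by field_simp; ring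
      have h4 : q (z + t * e) * e ^ 2 = (G ^ 2 : ℝ) + (q (z + t * e) - q y) * e ^ 2 := by
        rw [he]
        field_simp
        ring
      have h5 := abs_re_le_norm ((q (z + t * e) - q y) * e ^ 2)
      rw [norm_mul, norm_pow, e2, mul_one] at h5
      rw [h4, add_re, ofReal_re]
      linarith [(abs_le.1 h5).1])
    (fun t ht => (hb _ (inb t ht)).1)
  refine (pow_le_pow_iff_left₀ (norm_nonneg _) (by positivity) two_ne_zero).1 (key.trans ?_)
  have e3 : Real.exp (-(G * (μ / 260) / 2)) ^ 2 = Real.exp (-(G * (μ / 260))) := by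
    rw [← Real.exp_nat_mul]
    congr 1
    push_cast
    ring
  rw [mul_pow (12 * G), e3]
  exact mul_le_mul_of_nonneg_right (by nlinarith [sq_nonneg G]) (Real.exp_pos _).le

/-- propagation of smallness to the real line -/
theorem spread (E : Ent f q) {y : ℂ} {A η ρ c : ℝ} {K : ℕ} (hK : 0 < K) (hρ : 1 ≤ K * ρ)
    (y0 : 0 ≤ y.im) (hA : 0 ≤ A) (hη : 0 ≤ η) (hc : 0 ≤ c) (h1 : ∀ z : ℂ, |z.im| ≤ y.im → ‖f z‖ ≤ A)
    (h2 : ∀ z : ℂ, ‖z - y‖ ≤ ρ → ‖f z‖ ≤ A * η) (h3 : ∀ x : ℝ, c ≤ ‖f x‖) : c ^ K ≤ A ^ K * η := by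
  have K0 : (0 : ℝ) < K := Nat.cast_pos.2 hK
  have K0' : (K : ℂ) ≠ 0 := Nat.cast_ne_zero.2 hK.ne'
  have cj : ∀ j : ℕ, (j : ℂ) / K = ((j / K : ℝ) : ℂ) := fun j => by push_cast; rfl
  have im1 : ∀ (z : ℂ) (j : ℕ), (z + j / K).im = z.im := fun z j => by
    rw [cj, add_im, ofReal_im, add_zero]
  have pf : Function.Periodic f 1 := E.perf
  have top : ∀ z : ℂ, z.im = y.im → ‖∏ j ∈ Finset.range K, f (z + j / K)‖ ≤ A ^ K * η := by
    intro z hz
    obtain ⟨n, hn⟩ : ∃ n : ℤ, n = ⌊K * (y.re - z.re)⌋ := ⟨_, rfl⟩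
    have n1 := Int.floor_le (K * (y.re - z.re))
    have n2 := Int.lt_floor_add_one (K * (y.re - z.re))
    rw [← hn] at n1 n2
    have Kz : (0 : ℤ) < K := by exact_mod_cast hK
    obtain ⟨k, hk⟩ := Int.eq_ofNat_of_zero_le (Int.emod_nonneg n Kz.ne')
    have k1 : k < K := by
      have := Int.emod_lt_of_pos n Kz
      omega
    have k2 : (n : ℂ) = K * ((n / K : ℤ) : ℂ) + k := by
      have := Int.mul_ediv_add_emod n K
      rw [hk] at this
      exact_mod_cast this.symm
    have k3 : ‖f (z + k / K)‖ ≤ A * η := by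
      rw [← pf.int_mul (n / K), show z + k / K + ((n / K : ℤ) : ℂ) * 1 = z + n / K by
        rw [k2]; field_simp; ring]
      refine h2 _ ?_
      have e : z + n / K - y = ((z.re + n / K - y.re : ℝ) : ℂ) := by
        apply Complex.ext
        · rw [show (n : ℂ) / K = ((n / K : ℝ) : ℂ) by push_cast; rfl]
          simp only [sub_re, add_re, ofReal_re]
        · rw [show (n : ℂ) / K = ((n / K : ℝ) : ℂ) by push_cast; rfl]
          simp only [sub_im, add_im, ofReal_im, hz, add_zero, sub_self]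
      rw [e, Complex.norm_real, Real.norm_eq_abs, show z.re + n / K - y.re =
        (n - K * (y.re - z.re)) / K by field_simp; ring, abs_div, abs_of_pos K0, div_le_iff₀ K0,
        abs_le]
      constructor <;> linarith
    rw [norm_prod]
    calc ∏ j ∈ Finset.range K, ‖f (z + j / K)‖
        ≤ ∏ j ∈ Finset.range K, A * if j = k then η else 1 :=
          Finset.prod_le_prod (fun _ _ => norm_nonneg _) fun j _ => by
            split_ifs with h
            · rw [h]
              exact k3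
            · rw [mul_one]
              exact h1 _ (by rw [im1, hz, abs_of_nonneg y0])
      _ = A ^ K * η := by
          rw [Finset.prod_mul_distrib, Finset.prod_const, Finset.card_range, Finset.prod_ite_eq',
            if_pos (Finset.mem_range.2 k1)]
  have key := pl (F := fun z => ∏ j ∈ Finset.range K, f (z + j / K)) (a := -y.im) (b := y.im)
    (B := A ^ K) (C := A ^ K * η) (z := 0)
    (Differentiable.fun_finset_prod fun j _ => E.df.comp (differentiable_id.add_const _))
    (fun z k1 k2 => by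
      rw [norm_prod]
      refine (Finset.prod_le_prod (fun _ _ => norm_nonneg _) fun j _ =>
        h1 _ (by rw [im1]; exact abs_le.2 ⟨k1.le, k2.le⟩)).trans_eq ?_
      rw [Finset.prod_const, Finset.card_range])
    (fun z hz => by
      have := top (conj z) (by rw [conj_im, hz, neg_neg])
      rw [norm_prod] at this ⊢
      refine (Finset.prod_congr rfl fun j _ => ?_).trans_le this
      rw [← Complex.norm_conj, ← E.cjf, map_add, cj, conj_ofReal])
    top (by simpa using y0) (by simpa using y0)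
  rw [norm_prod] at key
  refine le_trans ?_ key
  rw [← Finset.card_range K, ← Finset.prod_const, Finset.card_range]
  exact Finset.prod_le_prod (fun _ _ => hc) fun j _ => by rw [zero_add, cj]; exact h3 _

/-- no Galilean window -/
theorem gal (E : Ent f q) : ∃ P₁ : ℝ, ∀ (P m : ℝ) (y : ℂ), P₁ ≤ P → 1 ≤ m * P ^ 2 → 0 ≤ y.im →
    ‖q y‖ = Real.exp P ^ 2 →
    (∀ z : ℂ, |z.im| ≤ y.im + m → ‖f z‖ ≤ 8 * Real.exp P ∧ ‖q z‖ ≤ 64 * Real.exp P ^ 2) → False := by
  obtain ⟨x₀, k0, hx⟩ := min_strip (g := fun z => ‖f z‖) E.df.continuous.norm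
    (fun z => congrArg norm (E.perf z)) le_rfl
  have c0 : 0 < ‖f x₀‖ := by
    have e : x₀ = (x₀.re : ℂ) :=
      Complex.ext (by simp) (by rw [ofReal_im]; exact abs_nonpos_iff.1 k0)
    rw [e]
    exact (E.pos _).trans_le (re_le_norm _)
  refine ⟨max (2 * 10 ^ 8) (Real.log (12 / ‖f x₀‖)), fun P m y hP h1 y0 hy hb => ?_⟩
  have P1 := le_of_max_le_left hP
  have P2 := le_of_max_le_right hP
  have P0 : 0 < P := by linarith
  have G0 := Real.exp_pos P
  have μm : (P ^ 2)⁻¹ ≤ m := by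
    rw [← one_div, div_le_iff₀ (by positivity)]
    exact h1
  have m0 : 0 ≤ m := le_trans (by positivity) μm
  obtain ⟨K, hK⟩ : ∃ K : ℕ, K = ⌈260 * P ^ 2⌉₊ := ⟨_, rfl⟩
  have K1 : 260 * P ^ 2 ≤ K := hK ▸ Nat.le_ceil _
  have K2 : (K : ℝ) ≤ 261 * P ^ 2 := by
    have := Nat.ceil_lt_add_one (show 0 ≤ 260 * P ^ 2 by positivity)
    rw [← hK] at this
    nlinarith
  have K0 : 0 < K := by
    rw [hK]
    exact Nat.ceil_pos.2 (by positivity)
  have key := spread E (y := y) (A := 12 * Real.exp P) (ρ := (P ^ 2)⁻¹ / 260)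
    (η := Real.exp (-(Real.exp P * ((P ^ 2)⁻¹ / 260) / 2))) K0
    (by
      rw [← mul_div_assoc, le_div_iff₀ (by norm_num), ← div_eq_mul_inv, le_div_iff₀ (by positivity)]
      linarith)
    y0 (by positivity) (Real.exp_pos _).le c0.le
    (fun z hz => by linarith [(hb z (by linarith)).1])
    (fun z hz => small E G0 (by positivity) hy (fun w hw => hb w (by
      have k1 := abs_im_le_norm (w - y)
      rw [mem_ball, dist_eq_norm] at hw
      rw [sub_im] at k1
      have k2 := abs_add_le (w.im - y.im) y.im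
      rw [sub_add_cancel, abs_of_nonneg y0] at k2
      linarith)) hz)
    (fun x => hx x (by simp))
  have e1 : 12 * Real.exp P ≤ ‖f x₀‖ * Real.exp (2 * P) := by
    have k1 := Real.exp_le_exp.2 P2
    rw [Real.exp_log (by positivity), div_le_iff₀ c0] at k1
    rw [two_mul, Real.exp_add]
    nlinarith
  have e2 := key.trans (mul_le_mul_of_nonneg_right
    (pow_le_pow_left₀ (by positivity) e1 K) (Real.exp_pos _).le)
  rw [mul_pow, mul_assoc, le_mul_iff_one_le_right (by positivity), ← Real.exp_nat_mul,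
    ← Real.exp_add, Real.one_le_exp_iff] at e2
  have e3 : Real.exp P * ((P ^ 2)⁻¹ / 260) / 2 = Real.exp P / (520 * P ^ 2) := by field_simp; ring
  have e4 : Real.exp P / (520 * P ^ 2) ≤ 261 * P ^ 2 * (2 * P) := by
    have := mul_le_mul_of_nonneg_right K2 (show 0 ≤ 2 * P by positivity)
    linarith
  rw [div_le_iff₀ (by positivity)] at e4
  have e5 := Real.pow_div_factorial_le_exp P P0.le 6
  have e6 : P ^ 5 * (2 * 10 ^ 8) ≤ P ^ 5 * P := mul_le_mul_of_nonneg_left P1 (by positivity)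
  have e7 : 0 < P ^ 5 := by positivity
  norm_num [Nat.factorial] at e5
  nlinarith

/-- the level is high in the scale `m` -/
theorem high (df : Differentiable ℂ f) {P m c : ℝ} {y : ℂ} (m0 : 0 < m) (y0 : 0 ≤ y.im)
    (hc : 2 * c ≤ P) (P0 : 0 ≤ P) (h0 : ∀ z : ℂ, z.im = 0 → ‖f z‖ ≤ Real.exp c)
    (hy : ‖f y‖ = Real.exp P) (hb : ∀ z : ℂ, |z.im| ≤ y.im + m → ‖f z‖ ≤ Real.exp (P + 2)) :
    m * P ≤ 4 * y.im := by
  have T0 : 0 < y.im + m := by linarith
  obtain ⟨a, ha⟩ : ∃ a : ℝ, a = (P + 2 - c) / (y.im + m) := ⟨_, rfl⟩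
  have a0 : 0 ≤ a := by rw [ha]; exact div_nonneg (by linarith) T0.le
  have a1 : a * (y.im + m) = P + 2 - c := by rw [ha, div_mul_cancel₀ _ T0.ne']
  have n : ∀ z : ℂ, ‖f z * exp (a * z * I)‖ = ‖f z‖ * Real.exp (-(a * z.im)) := fun z => by
    rw [norm_mul, norm_exp]
    simp
  have key := pl (F := fun z => f z * exp (a * z * I)) (a := 0) (b := y.im + m)
    (B := Real.exp (P + 2)) (C := Real.exp c) (z := y) (by fun_prop)
    (fun z k1 k2 => by
      rw [n]
      refine (mul_le_of_le_one_right (norm_nonneg _) ?_).trans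
        (hb z (by rw [abs_of_pos k1]; exact k2.le))
      rw [Real.exp_le_one_iff]
      linarith [mul_nonneg a0 k1.le])
    (fun z hz => by
      rw [n, hz, mul_zero, neg_zero, Real.exp_zero, mul_one]
      exact h0 z hz)
    (fun z hz => by
      rw [n, hz, a1]
      refine (mul_le_mul_of_nonneg_right (hb z (by rw [hz, abs_of_pos T0]))
        (Real.exp_pos _).le).trans_eq ?_
      rw [← Real.exp_add]
      congr 1
      ring)
    y0 (by linarith)
  rw [n, hy, ← Real.exp_add, Real.exp_le_exp] at key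
  have k1 := mul_le_mul_of_nonneg_right key T0.le
  have k2 : a * y.im * (y.im + m) = (P + 2 - c) * y.im := by rw [← a1]; ring
  nlinarith [mul_le_mul_of_nonneg_left hc m0.le]

/-- the asymptotics near the maximum point -/
theorem wv (df : Differentiable ℂ f) {P m : ℝ} {y : ℂ} (hP : 16 ≤ P) (m0 : 0 < m)
    (PT : m * P ≤ 4 * y.im) (hy : ‖f y‖ = Real.exp P)
    (hb : ∀ (z : ℂ) (t : ℝ), |z.im| ≤ y.im + m * t → t < P → ‖f z‖ ≤ Real.exp (P ^ 2 / (P - t)))
    (s : ℂ) (r : ℝ) (hs : ‖s‖ ≤ r) (hr : 16 * r ^ 2 ≤ P) :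
    ‖f (y + m * s) * exp (s * I) / f y - 1‖ ≤ 64 * r ^ 2 / P := by
  have P0 : 0 < P := by linarith
  have f0 : f y ≠ 0 := norm_pos_iff.1 (by rw [hy]; exact Real.exp_pos _)
  rcases ((norm_nonneg s).trans hs).eq_or_lt with r0 | r0
  · have : s = 0 := norm_le_zero_iff.1 (r0 ▸ hs)
    rw [this]
    simp [f0]
    positivity
  have r1 : 8 * r ≤ P := by nlinarith
  have key := borelCaratheodory_zero (f := fun s => f (y + m * s) * exp (s * I) / f y - 1)
    (M := 16 * r ^ 2 / P) (R := 2 * r) (z := s) (by positivity) (by fun_prop)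
    (fun u hu => by
      have u1 : |u.im| ≤ 2 * r := (abs_im_le_norm u).trans (mem_ball_zero_iff.1 hu).le
      obtain ⟨u2, u3⟩ := abs_le.1 u1
      have e : (y + m * u).im = y.im + m * u.im := by simp
      have k1 := hb (y + m * u) u.im (by
        rw [e, abs_of_nonneg]
        nlinarith [mul_le_mul_of_nonneg_left u2 m0.le, mul_le_mul_of_nonneg_left r1 m0.le])
        (by linarith)
      have k2 := k1.trans (Real.exp_le_exp.2 (bd_up P0 (by linarith)))
      have k3 : ‖f (y + m * u) * exp (u * I) / f y‖ ≤ Real.exp (8 * r ^ 2 / P) := by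
        rw [norm_div, norm_mul, norm_exp, hy, div_le_iff₀ (Real.exp_pos _)]
        refine (mul_le_mul_of_nonneg_right k2 (Real.exp_pos _).le).trans ?_
        rw [← Real.exp_add, ← Real.exp_add, Real.exp_le_exp]
        have k4 : 2 * u.im ^ 2 / P ≤ 8 * r ^ 2 / P :=
          div_le_div_of_nonneg_right (by nlinarith [sq_le_sq' u2 u3]) P0.le
        simp only [mul_re, I_re, I_im, mul_zero, mul_one, zero_sub]
        linarith
      have x0 : 0 ≤ 8 * r ^ 2 / P := by positivity
      have x1 : 8 * r ^ 2 / P ≤ 1 / 2 := by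
        rw [div_le_iff₀ P0]
        linarith
      have k5 : Real.exp (8 * r ^ 2 / P) ≤ 1 + 2 * (8 * r ^ 2 / P) := by
        refine (Real.exp_bound_div_one_sub_of_interval x0 (by linarith)).trans ?_
        rw [div_le_iff₀ (by linarith)]
        nlinarith [mul_nonneg x0 (sub_nonneg.2 x1)]
      have k6 := re_le_norm (f (y + m * u) * exp (u * I) / f y)
      show (f (y + m * u) * exp (u * I) / f y - 1).re ≤ 16 * r ^ 2 / P
      rw [sub_re, one_re, show 16 * r ^ 2 / P = 2 * (8 * r ^ 2 / P) by ring]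
      linarith)
    (by linarith) (mem_ball_zero_iff.2 (by linarith)) (by simp [f0])
  refine key.trans ?_
  rw [div_le_iff₀ (by linarith), show 64 * r ^ 2 / P = 4 * (16 * r ^ 2 / P) by ring]
  have x0 : 0 ≤ 16 * r ^ 2 / P := by positivity
  nlinarith [mul_le_mul_of_nonneg_left hs x0, mul_nonneg x0 r0.le]

end B1

open B1 in
theorem b1 : Spec_B1 := by
  intro f q E hne P₀
  obtain ⟨P₁, hP₁⟩ := gal E
  obtain ⟨x₀, -, hx⟩ := min_strip (g := fun z => -‖f z‖) E.df.continuous.norm.neg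
    (fun z => congrArg (fun w => -‖w‖) (E.perf z)) le_rfl
  obtain ⟨L, hL⟩ : ∃ L : ℂ → ℝ, L = fun z => max (max ‖f z‖ √‖q z‖) (Real.exp 1) := ⟨_, rfl⟩
  have L1 : ∀ z, ‖f z‖ ≤ L z ∧ √‖q z‖ ≤ L z ∧ Real.exp 1 ≤ L z := fun z => by
    rw [hL]
    exact ⟨(le_max_left _ _).trans (le_max_left _ _), (le_max_right _ _).trans (le_max_left _ _),
      le_max_right _ _⟩
  have L0 : ∀ z, 0 < L z := fun z => (Real.exp_pos 1).trans_le (L1 z).2.2
  have Lc : Continuous L := by
    rw [hL]
    exact (E.df.continuous.norm.max E.dq.continuous.norm.sqrt).max continuous_const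
  obtain ⟨m, y, k1, m0, y0, mP, TP, hb⟩ := sel (l := fun z => Real.log (L z))
    (Lc.log fun z => (L0 z).ne') (fun z => (Real.le_log_iff_exp_le (L0 z)).2 (L1 z).2.2)
    (fun z => by simp only [hL, E.perf, E.perq])
    (fun z => by simp only [hL, E.cjf, E.cjq, Complex.norm_conj])
    (fun P => by
      by_contra h
      push Not at h
      obtain ⟨z, hz⟩ := hne
      refine hz (E.df.apply_eq_apply_of_bounded (isBounded_iff_forall_norm_le.2
        ⟨Real.exp P, ?_⟩) z 0)
      rintro _ ⟨w, rfl⟩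
      exact (L1 w).1.trans ((Real.log_le_iff_le_exp (L0 w)).1 (h w).le))
    (max (max P₀ P₁) (max 200 (2 * ‖f x₀‖)))
  have eL := Real.exp_log (L0 y)
  generalize Real.log (L y) = P at k1 mP TP hb eL
  have p0 : P₀ ≤ P := le_of_max_le_left (le_of_max_le_left k1)
  have p1 : P₁ ≤ P := le_of_max_le_right (le_of_max_le_left k1)
  have p2 : 200 ≤ P := le_of_max_le_left (le_of_max_le_right k1)
  have p3 : 2 * ‖f x₀‖ ≤ P := le_of_max_le_right (le_of_max_le_right k1)
  have bd : ∀ (z : ℂ) (t : ℝ), |z.im| ≤ y.im + m * t → t < P →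
      ‖f z‖ ≤ Real.exp (P ^ 2 / (P - t)) ∧ ‖q z‖ ≤ Real.exp (P ^ 2 / (P - t)) ^ 2 := fun z t a b => by
    have := (Real.log_le_iff_le_exp (L0 z)).1 (hb z t a b)
    exact ⟨(L1 z).1.trans this, (Real.sqrt_le_iff.1 ((L1 z).2.1.trans this)).2⟩
  have b2 : Real.exp (P ^ 2 / (P - 1)) ≤ Real.exp (P + 2) := by
    rw [Real.exp_le_exp, div_le_iff₀ (by linarith)]
    nlinarith
  have b8 : Real.exp (P + 2) ≤ 8 * Real.exp P := by
    have e : Real.exp 2 = Real.exp 1 * Real.exp 1 := by rw [← Real.exp_add]; norm_num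
    have := Real.exp_one_lt_d9
    rw [Real.exp_add, mul_comm]
    exact mul_le_mul_of_nonneg_right (by nlinarith [Real.exp_pos 1]) (Real.exp_pos _).le
  have val : ‖f y‖ = Real.exp P := by
    have e1 : Real.exp 1 < Real.exp P := Real.exp_lt_exp.2 (by linarith)
    replace eL : Real.exp P = max (max ‖f y‖ √‖q y‖) (Real.exp 1) := by rw [eL, hL]
    rcases max_choice (max ‖f y‖ √‖q y‖) (Real.exp 1) with a | a
    · rcases max_choice ‖f y‖ √‖q y‖ with b | b
      · rw [eL, a, b]
      · refine (hP₁ P m y p1 mP y0 ?_ fun z hz => ?_).elim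
        · rw [eL, a, b, Real.sq_sqrt (norm_nonneg _)]
        · obtain ⟨c1, c2⟩ := bd z 1 (by rwa [mul_one]) (by linarith)
          refine ⟨c1.trans (b2.trans b8), c2.trans ?_⟩
          have := pow_le_pow_left₀ (Real.exp_pos _).le (b2.trans b8) 2
          linarith
    · exact absurd (eL.trans a) e1.ne'
  have PT : m * P ≤ 4 * y.im := high E.df m0 y0 p3 (by linarith)
    (fun z hz => by
      have := hx z (by rw [hz, abs_zero])
      linarith [Real.add_one_le_exp ‖f x₀‖])
    val fun z hz => (bd z 1 (by rwa [mul_one]) (by linarith)).1.trans b2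
  have hw := wv E.df (by linarith) m0 PT val fun z t a b => (bd z t a b).1
  refine ⟨P, m, y, p0, by linarith, m0, ?_, mP, TP, PT, val, bd, hw⟩
  by_contra h
  push Not at h
  have x0 : 0 < m⁻¹ := inv_pos.2 m0
  have x1 : m⁻¹ ≤ 1 := inv_le_one_of_one_le₀ h.le
  have f0 : f y ≠ 0 := norm_pos_iff.1 (by rw [val]; exact Real.exp_pos _)
  have k2 := hw (m⁻¹ : ℝ) m⁻¹ (by rw [Complex.norm_real, Real.norm_of_nonneg x0.le]) (by nlinarith)
  rw [← ofReal_mul, mul_inv_cancel₀ m0.ne', ofReal_one, E.perf, mul_div_cancel_left₀ _ f0] at k2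
  have k3 := (le_abs_self _).trans ((abs_im_le_norm _).trans k2)
  rw [sub_im, one_im, sub_zero, exp_ofReal_mul_I_im, le_div_iff₀ (by linarith)] at k3
  have k4 := Real.sin_gt_sub_cube x0
  generalize m⁻¹ = x at x0 x1 k3 k4
  have k5 : x / 2 ≤ Real.sin x := by nlinarith [mul_nonneg x0.le (sub_nonneg.2 x1), mul_pos x0 x0]
  nlinarith [mul_le_mul k5 p2 (by norm_num) (by linarith), mul_nonneg x0.le (sub_nonneg.2 x1)]

end Vale.Agent.P097E
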