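import Vale.Agent.P097E.B1Defs

/-!
# P097E: block B1, tools (strip maximum principle, selection of levels, chords)
-/

set_option linter.all false

noncomputable section

namespace Vale.Agent.P097E.B1

open Filter Topology Set Metric Complex ComplexConjugate

/-- the maximum principle on a strip -/
theorem pl {F : ℂ → ℂ} (hF : Differentiable ℂ F) {a b B C : ℝ}
    (hB : ∀ z : ℂ, a < z.im → z.im < b → ‖F z‖ ≤ B) (ha : ∀ z : ℂ, z.im = a → ‖F z‖ ≤ C)
    (hb : ∀ z : ℂ, z.im = b → ‖F z‖ ≤ C) {z : ℂ} (h1 : a ≤ z.im) (h2 : z.im ≤ b) : ‖F z‖ ≤ C := by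
  rcases (h1.trans h2).eq_or_lt with e | e
  · exact ha z (le_antisymm (e ▸ h2) h1)
  refine PhragmenLindelof.horizontal_strip hF.diffContOnCl
    ⟨0, div_pos Real.pi_pos (sub_pos.2 e), 0, Asymptotics.IsBigO.of_bound B ?_⟩ ha hb h1 h2
  refine mem_inf_of_right (mem_principal.2 fun w hw => ?_)
  simpa using hB w hw.1 hw.2

/-- a periodic function has a minimum on a closed strip -/
theorem min_strip {g : ℂ → ℝ} (hc : Continuous g) (hp : Function.Periodic g 1) {S : ℝ}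
    (hS : 0 ≤ S) : ∃ y : ℂ, |y.im| ≤ S ∧ ∀ z : ℂ, |z.im| ≤ S → g y ≤ g z := by
  let K : Set ℂ := {z | |z.re| ≤ 1} ∩ {z | |z.im| ≤ S}
  have hK : IsCompact K := Metric.isCompact_of_isClosed_isBounded
    ((isClosed_le (by fun_prop) continuous_const).inter (isClosed_le (by fun_prop) continuous_const))
    (isBounded_iff_forall_norm_le.2 ⟨1 + S, fun z hz =>
      (Complex.norm_le_abs_re_add_abs_im z).trans (add_le_add hz.1 hz.2)⟩)
  obtain ⟨y, hy, hm⟩ := hK.exists_isMinOn ⟨0, by simp [K, hS]⟩ hc.continuousOn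
  refine ⟨y, hy.2, fun z hz => ?_⟩
  rw [← hp.sub_int_mul_eq ⌊z.re⌋ (x := z)]
  refine hm ⟨?_, by simpa using hz⟩
  have := Int.floor_le z.re
  have := Int.lt_floor_add_one z.re
  simp only [Set.mem_setOf_eq, mul_one, Complex.sub_re, Complex.intCast_re, abs_le]
  constructor <;> linarith

/-- selection of a level -/
theorem sel {l : ℂ → ℝ} (hc : Continuous l) (h1 : ∀ z, 1 ≤ l z) (hp : Function.Periodic l 1)
    (hj : ∀ z, l (conj z) = l z) (hu : ∀ P₀ : ℝ, ∃ z, P₀ ≤ l z) (P₀ : ℝ) :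
    ∃ (m : ℝ) (y : ℂ), P₀ ≤ l y ∧ 0 < m ∧ 0 ≤ y.im ∧ 1 ≤ m * l y ^ 2 ∧ y.im ≤ m * l y ^ 2 ∧
      ∀ (z : ℂ) (t : ℝ), |z.im| ≤ y.im + m * t → t < l y → l z ≤ l y ^ 2 / (l y - t) := by
  have l0 : ∀ z, 0 < l z := fun z => by linarith [h1 z]
  obtain ⟨P₁, p1, p2⟩ : ∃ P₁ : ℝ, 1 ≤ P₁ ∧ P₀ ≤ P₁ := ⟨max 1 P₀, le_max_left _ _, le_max_right _ _⟩
  obtain ⟨z₁, hz₁⟩ := hu (2 * P₁)
  obtain ⟨μ, hμ⟩ : ∃ μ : ℝ, μ = (2 * P₁ * (|z₁.im| + 1))⁻¹ := ⟨_, rfl⟩
  have d1 : 1 ≤ 2 * P₁ * (|z₁.im| + 1) := by nlinarith [abs_nonneg z₁.im]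
  have μ0 : 0 < μ := by rw [hμ]; positivity
  have μ1 : μ ≤ 1 := by rw [hμ]; exact inv_le_one_of_one_le₀ d1
  obtain ⟨y₀, -, hy₀⟩ := min_strip (g := fun z => (l z)⁻¹ + μ * |z.im|) (S := μ⁻¹)
    ((hc.inv₀ fun z => (l0 z).ne').add (by fun_prop)) (fun z => by simp [hp z]) (by positivity)
  have i1 : ∀ z, (l z)⁻¹ ≤ 1 := fun z => inv_le_one_of_one_le₀ (h1 z)
  have i0 : ∀ z, 0 < (l z)⁻¹ := fun z => inv_pos.2 (l0 z)
  have g0 : (l y₀)⁻¹ + μ * |y₀.im| ≤ 1 := by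
    have := hy₀ 0 (by simp [μ0.le])
    simp only [zero_im, abs_zero, mul_zero, add_zero] at this
    exact this.trans (i1 0)
  have all : ∀ z, (l y₀)⁻¹ + μ * |y₀.im| ≤ (l z)⁻¹ + μ * |z.im| := fun z => by
    rcases le_total |z.im| μ⁻¹ with k | k
    · exact hy₀ z k
    · have := mul_le_mul_of_nonneg_left k μ0.le
      rw [mul_inv_cancel₀ μ0.ne'] at this
      linarith [i0 z]
  obtain ⟨y, y0, e1, e2⟩ : ∃ y : ℂ, 0 ≤ y.im ∧ l y = l y₀ ∧ y.im = |y₀.im| := by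
    rcases le_total 0 y₀.im with k | k
    · exact ⟨y₀, k, rfl, (abs_of_nonneg k).symm⟩
    · exact ⟨conj y₀, by simpa using k, hj _, by rw [conj_im, abs_of_nonpos k]⟩
  rw [← e1, ← e2] at g0 all
  have P0 := l0 y
  have em : (μ * l y ^ 2)⁻¹ * l y ^ 2 = μ⁻¹ := by field_simp
  refine ⟨(μ * l y ^ 2)⁻¹, y, ?_, by positivity, y0, ?_, ?_, fun z t hz ht => ?_⟩
  · have k1 : (l z₁)⁻¹ ≤ (2 * P₁)⁻¹ := inv_anti₀ (by positivity) hz₁
    have k2 : μ * |z₁.im| ≤ (2 * P₁)⁻¹ := by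
      rw [hμ, mul_inv, mul_assoc]
      refine mul_le_of_le_one_right (by positivity) ?_
      rw [inv_mul_le_iff₀ (by positivity)]
      linarith
    have k3 : (l y)⁻¹ ≤ P₁⁻¹ := by
      have := all z₁
      have e : (2 * P₁)⁻¹ + (2 * P₁)⁻¹ = P₁⁻¹ := by field_simp; ring
      linarith [mul_nonneg μ0.le y0]
    exact p2.trans ((inv_le_inv₀ P0 (by linarith)).1 k3)
  · rw [em]
    exact one_le_inv_iff₀.2 ⟨μ0, μ1⟩
  · rw [em, ← one_div, le_div_iff₀ μ0]
    linarith [i0 y]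
  · have k1 := mul_le_mul_of_nonneg_left hz μ0.le
    have e : μ * (y.im + (μ * l y ^ 2)⁻¹ * t) = μ * y.im + t / l y ^ 2 := by field_simp
    have k2 : (l y - t) / l y ^ 2 ≤ (l z)⁻¹ := by
      have e' : (l y - t) / l y ^ 2 = (l y)⁻¹ - t / l y ^ 2 := by field_simp
      linarith [all z]
    rw [← inv_div] at k2
    exact (inv_le_inv₀ (div_pos (by positivity) (sub_pos.2 ht)) (l0 z)).1 k2

/-- the maximum principle in one variable -/
theorem maxp {v v₁ v₂ : ℝ → ℝ} {a b : ℝ} (h1 : ∀ t, HasDerivAt v (v₁ t) t)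
    (h2 : ∀ t, HasDerivAt v₁ (v₂ t) t) (h3 : ∀ t ∈ Icc a b, 0 < v t → 0 < v₂ t) (ha : v a ≤ 0)
    (hb : v b ≤ 0) : ∀ t ∈ Icc a b, v t ≤ 0 := by
  intro t ht
  by_contra hlt
  push Not at hlt
  have hc : Continuous v := continuous_iff_continuousAt.2 fun t => (h1 t).continuousAt
  obtain ⟨s, hs, hm⟩ := isCompact_Icc.exists_isMaxOn ⟨t, ht⟩ hc.continuousOn
  have s0 : 0 < v s := hlt.trans_le (hm ht)
  have k1 : a < s := hs.1.lt_of_ne fun e => by rw [← e] at s0; linarith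
  have k2 : s < b := hs.2.lt_of_ne fun e => by rw [e] at s0; linarith
  have lm : IsLocalMax v s := hm.isLocalMax (Icc_mem_nhds k1 k2)
  have e1 : deriv v = v₁ := funext fun t => (h1 t).deriv
  have e2 : deriv (deriv v) s = v₂ s := by rw [e1, (h2 s).deriv]
  have ln : IsLocalMin v s :=
    isLocalMin_of_deriv_deriv_pos (by rw [e2]; exact h3 s hs s0) lm.deriv_eq_zero hc.continuousAt
  have e3 : v =ᶠ[𝓝 s] fun _ => v s := by
    filter_upwards [lm, ln] with u u1 u2 using le_antisymm u1 u2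
  have e4 := e3.deriv.deriv_eq
  rw [e2] at e4
  have := h3 s hs s0
  simp [e4] at this

theorem line {g : ℂ → ℂ} (hg : Differentiable ℂ g) (z e : ℂ) (t : ℝ) :
    HasDerivAt (fun t : ℝ => g (z + t * e)) (deriv g (z + t * e) * e) t := by
  have h := (hg (z + t * e)).hasDerivAt.comp (t : ℂ)
    (((hasDerivAt_id (t : ℂ)).mul_const e).const_add z)
  rw [one_mul] at h
  exact h.comp_ofReal

/-- exponential decay in the middle of a chord -/
theorem chord {f q : ℂ → ℂ} (df : Differentiable ℂ f) (ode : ∀ z, deriv (deriv f) z = q z * f z)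
    {z e : ℂ} {k l B : ℝ} (hk : 0 < k) (hl : 0 < l)
    (hq : ∀ t ∈ Icc (-l) l, k ^ 2 ≤ 2 * (q (z + t * e) * e ^ 2).re)
    (h1 : ∀ t ∈ Icc (-l) l, ‖f (z + t * e)‖ ≤ B) : ‖f z‖ ^ 2 ≤ 2 * B ^ 2 * Real.exp (-(k * l)) := by
  have d1 := line df z e
  have d2 : ∀ t : ℝ, HasDerivAt (fun t : ℝ => deriv f (z + t * e) * e)
      (q (z + t * e) * e ^ 2 * f (z + t * e)) t := fun t =>
    ((line df.deriv z e t).mul_const e).congr_deriv (by rw [ode]; ring)
  have r1 := fun t => reCLM.hasFDerivAt.comp_hasDerivAt t (d1 t)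
  have r2 := fun t => reCLM.hasFDerivAt.comp_hasDerivAt t (d2 t)
  have i1 := fun t => imCLM.hasFDerivAt.comp_hasDerivAt t (d1 t)
  have i2 := fun t => imCLM.hasFDerivAt.comp_hasDerivAt t (d2 t)
  obtain ⟨D, hD⟩ : ∃ D : ℝ, D = B ^ 2 / Real.cosh (k * l) := ⟨_, rfl⟩
  have c0 := Real.cosh_pos (k * l)
  have c1 : ∀ t : ℝ, HasDerivAt (fun t => D * Real.cosh (k * t)) (D * (Real.sinh (k * t) * k)) t :=
    fun t => by simpa using ((hasDerivAt_id t).const_mul k).cosh.const_mul D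
  have c2 : ∀ t : ℝ, HasDerivAt (fun t => D * (Real.sinh (k * t) * k))
      (D * (Real.cosh (k * t) * k * k)) t :=
    fun t => by simpa using (((hasDerivAt_id t).const_mul k).sinh.mul_const k).const_mul D
  have n2 : ∀ w : ℂ, w.re * w.re + w.im * w.im = ‖w‖ ^ 2 := fun w => by
    rw [Complex.sq_norm, normSq_apply]
  have bd : ∀ t ∈ Icc (-l) l, Real.cosh (k * t) = Real.cosh (k * l) →
      (f (z + t * e)).re * (f (z + t * e)).re + (f (z + t * e)).im * (f (z + t * e)).im -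
        D * Real.cosh (k * t) ≤ 0 := fun t ht hc => by
    rw [n2, hc, hD, div_mul_cancel₀ _ c0.ne', sub_nonpos]
    exact pow_le_pow_left₀ (norm_nonneg _) (h1 t ht) 2
  have key := maxp (a := -l) (b := l)
    (fun t => (((r1 t).mul (r1 t)).add ((i1 t).mul (i1 t))).sub (c1 t))
    (fun t => ((((r2 t).mul (r1 t)).add ((r1 t).mul (r2 t))).add
      (((i2 t).mul (i1 t)).add ((i1 t).mul (i2 t)))).sub (c2 t))
    (fun t ht hv => by
      have k1 := hq t ht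
      simp only [Pi.sub_apply, Pi.add_apply, Pi.mul_apply, Function.comp_apply, reCLM_apply,
        imCLM_apply] at hv ⊢
      generalize q (z + t * e) * e ^ 2 = κ at k1 ⊢
      generalize deriv f (z + t * e) * e = w₁
      generalize f (z + t * e) = w at hv ⊢
      rw [mul_re, mul_im]
      have k2 := mul_le_mul_of_nonneg_right k1 (add_nonneg (mul_self_nonneg w.re) (mul_self_nonneg w.im))
      have k3 := mul_pos (pow_pos hk 2) hv
      nlinarith [mul_self_nonneg w₁.re, mul_self_nonneg w₁.im])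
    (bd (-l) ⟨le_rfl, by linarith⟩ (by rw [mul_neg, Real.cosh_neg]))
    (bd l ⟨by linarith, le_rfl⟩ rfl) 0 ⟨by linarith, hl.le⟩
  simp only [Pi.sub_apply, Pi.add_apply, Pi.mul_apply, Function.comp_apply, reCLM_apply,
    imCLM_apply, ofReal_zero, zero_mul, add_zero, mul_zero, Real.cosh_zero, mul_one] at key
  rw [n2, sub_nonpos, hD] at key
  refine key.trans ?_
  rw [div_le_iff₀ c0, Real.cosh_eq]
  have e1 : Real.exp (-(k * l)) * Real.exp (k * l) = 1 := by rw [← Real.exp_add]; simp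
  nlinarith [mul_nonneg (sq_nonneg B) (mul_self_nonneg (Real.exp (-(k * l))))]

end Vale.Agent.P097E.B1
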