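import Vale.Agent.P097E.B1Defs
import Vale.Agent.P097Top.Defs

/-!
# P097E: block B1, the bridge from the complexified table to the entire data
-/

set_option linter.all false

noncomputable section

namespace Vale.Agent.P097E

open Filter Topology Set Metric Complex ComplexConjugate Vale.Agent.P097T Vale.Agent.P097Top

namespace Br

theorem ident {F G : ℂ → ℂ} (hF : Differentiable ℂ F) (hG : Differentiable ℂ G)
    (h : ∀ x : ℝ, F x = G x) (z : ℂ) : F z = G z := by
  refine congrFun (AnalyticOnNhd.eq_of_frequently_eq (fun z _ => hF.analyticAt z)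
    (fun z _ => hG.analyticAt z) (z₀ := ((0 : ℝ) : ℂ)) ?_) z
  have t : Tendsto ofReal (𝓝[≠] 0) (𝓝[≠] ((0 : ℝ) : ℂ)) :=
    tendsto_nhdsWithin_iff.2 ⟨(continuous_ofReal.tendsto 0).mono_left nhdsWithin_le_nhds,
      eventually_mem_nhdsWithin.mono fun w hw => ofReal_injective.ne hw⟩
  exact t.frequently (Eventually.frequently (Eventually.of_forall h))

/-- an entire function which is real on the real line is symmetric -/
theorem cj {F : ℂ → ℂ} (hF : Differentiable ℂ F) (h : ∀ x : ℝ, (F x).im = 0) (z : ℂ) :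
    F (conj z) = conj (F z) := by
  have := ident (F := conj ∘ F ∘ conj) (fun z => differentiableAt_conj_conj_iff.2 (hF _)) hF
    (fun x => by simp only [Function.comp_apply, conj_ofReal]; exact conj_eq_iff_im.2 (h x)) z
  rw [← this]
  simp

theorem cj_deriv {F : ℂ → ℂ} (h : ∀ z, F (conj z) = conj (F z)) (z : ℂ) :
    deriv F (conj z) = conj (deriv F z) := by
  have e : conj ∘ F ∘ conj = F := funext fun w => by simp [h]
  have := congrFun (deriv_conj_conj (f := F)) z
  rw [e] at this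
  rw [this]
  simp

theorem mem (z : ℂ) : 0 < |z.im| + 1 ∧ z ∈ Strip (|z.im| + 1) :=
  ⟨by positivity, lt_add_one |z.im|⟩

theorem diff {F : ℂ → ℂ} (h : ∀ r, 0 < r → DifferentiableOn ℂ F (Strip r)) : Differentiable ℂ F :=
  fun z => (h _ (mem z).1).differentiableAt
    ((isOpen_lt (f := fun z : ℂ => |z.im|) (by fun_prop) continuous_const).mem_nhds (mem z).2)

end Br

open Br

variable {c : ℝ} {θ H Q : ℂ → ℂ}

theorem cur_dθ (C : ∀ r, 0 < r → Cur r c θ H Q) : Differentiable ℂ θ := diff fun r h => (C r h).dθ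

theorem cur_dH (C : ∀ r, 0 < r → Cur r c θ H Q) : Differentiable ℂ H := diff fun r h => (C r h).dH

theorem cur_perθ (C : ∀ r, 0 < r → Cur r c θ H Q) (z : ℂ) : θ (z + 1) = θ z + 2 * Real.pi :=
  (C _ (mem z).1).perθ z (mem z).2

/-- the bridge -/
theorem ent_of_cur (C : ∀ r, 0 < r → Cur r c θ H Q) : Ent (deriv θ) Q := by
  have dθ := cur_dθ C
  have dQ : Differentiable ℂ Q := diff fun r h => (C r h).dQ
  have C1 := C 1 one_pos
  have ode : ∀ z, deriv (deriv (deriv θ)) z = Q z * deriv θ z := fun z =>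
    (C _ (mem z).1).ode z (mem z).2
  have p1 : ∀ z, deriv θ (z + 1) = deriv θ z := fun z => by
    rw [← deriv_comp_add_const, funext (cur_perθ C), deriv_add_const]
  have p2 : ∀ z, deriv (deriv θ) (z + 1) = deriv (deriv θ) z := fun z => by
    rw [← deriv_comp_add_const, funext p1]
  have p3 : ∀ z, deriv (deriv (deriv θ)) (z + 1) = deriv (deriv (deriv θ)) z := fun z => by
    rw [← deriv_comp_add_const, funext p2]
  have j1 := cj_deriv (cj dθ C1.reθ)
  have j3 := cj_deriv (cj_deriv j1)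
  have n0 : ∀ x : ℝ, deriv θ x ≠ 0 := fun x e => by
    have := C1.pos x
    rw [e, zero_re] at this
    exact lt_irrefl _ this
  refine ⟨dθ.deriv, dQ, p1, ident (dQ.comp (differentiable_id.add_const 1)) dQ fun x => ?_, j1,
    cj dQ fun x => conj_eq_iff_im.1 ?_, ode, C1.pos⟩
  · refine mul_right_cancel₀ (n0 x) ?_
    show Q (x + 1) * deriv θ x = Q x * deriv θ x
    rw [← ode, ← p3, ode, p1]
  · refine mul_right_cancel₀ (n0 x) ?_
    have k1 := j1 x
    have k3 := j3 x
    rw [conj_ofReal] at k1 k3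
    rw [← ode, k3, ode, map_mul, ← k1]

/-- the constant case -/
theorem const_of_cur (C : ∀ r, 0 < r → Cur r c θ H Q) (h : ∀ z, deriv θ z = deriv θ 0) (y : ℂ) :
    deriv θ y = 2 * Real.pi := by
  have dθ := cur_dθ C
  have hd : ∀ z, HasDerivAt (fun z => θ z - deriv θ 0 * z) 0 z := fun z => by
    have h1 := ((dθ z).hasDerivAt).sub ((hasDerivAt_id z).const_mul (deriv θ 0))
    rw [h z, mul_one, sub_self] at h1
    exact h1
  have h2 := is_const_of_deriv_eq_zero (fun z => (hd z).differentiableAt)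
    (fun z => (hd z).deriv) 1 0
  have h3 := cur_perθ C 0
  rw [zero_add] at h3
  rw [h y]
  simp only [mul_one, mul_zero, sub_zero] at h2
  linear_combination h3 - h2

/-- the entire case reduces to the absence of high levels -/
theorem n1_of (hB : Spec_B1)
    (h : ∀ (c κ : ℝ) (θ H Q : ℂ → ℂ) (Y : ℂ × ℂ → ℂ), (∀ r, 0 < r → Cur r c θ H Q) →
      Sol0 θ H κ Y → ∃ P₀ : ℝ, ∀ (P m : ℝ) (y : ℂ), P₀ ≤ P → Lvl (deriv θ) Q P m y → False) :
    Spec_N1 := by
  intro c κ θ H Q Y C S
  refine const_of_cur C fun z => ?_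
  by_contra hz
  obtain ⟨P₀, hP⟩ := h c κ θ H Q Y C S
  obtain ⟨P, m, y, k, L⟩ := hB _ _ (ent_of_cur C) ⟨z, hz⟩ P₀
  exact hP P m y k L

end Vale.Agent.P097E
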