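import Mathlib

/-!
# P097E: the entire case, block B1 (definitions and statements)
-/

set_option linter.all false

noncomputable section

namespace Vale.Agent.P097E

open Complex ComplexConjugate

/-- The entire data: `f` is the derivative of the normal angle, `q = f'' / f`. -/
structure Ent (f q : ℂ → ℂ) : Prop where
  df : Differentiable ℂ f
  dq : Differentiable ℂ q
  perf : ∀ z, f (z + 1) = f z
  perq : ∀ z, q (z + 1) = q z
  cjf : ∀ z, f (conj z) = conj (f z)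
  cjq : ∀ z, q (conj z) = conj (q z)
  ode : ∀ z, deriv (deriv f) z = q z * f z
  pos : ∀ x : ℝ, 0 < (f x).re

/-- A level: height `y.im`, size `G = exp P`, scale `m`. -/
structure Lvl (f q : ℂ → ℂ) (P m : ℝ) (y : ℂ) : Prop where
  P16 : 16 ≤ P
  m0 : 0 < m
  m1 : m ≤ 1
  mP : 1 ≤ m * P ^ 2
  TP : y.im ≤ m * P ^ 2
  PT : m * P ≤ 4 * y.im
  val : ‖f y‖ = Real.exp P
  bd : ∀ (z : ℂ) (t : ℝ), |z.im| ≤ y.im + m * t → t < P →
    ‖f z‖ ≤ Real.exp (P ^ 2 / (P - t)) ∧ ‖q z‖ ≤ Real.exp (P ^ 2 / (P - t)) ^ 2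
  wv : ∀ (s : ℂ) (r : ℝ), ‖s‖ ≤ r → 16 * r ^ 2 ≤ P →
    ‖f (y + m * s) * exp (s * I) / f y - 1‖ ≤ 64 * r ^ 2 / P

/-- there are arbitrarily high levels -/
def Spec_B1 : Prop := ∀ f q : ℂ → ℂ, Ent f q → (∃ z, f z ≠ f 0) →
  ∀ P₀ : ℝ, ∃ (P m : ℝ) (y : ℂ), P₀ ≤ P ∧ Lvl f q P m y

theorem bd_up {P t : ℝ} (hP : 0 < P) (ht : t ≤ P / 2) : P ^ 2 / (P - t) ≤ P + t + 2 * t ^ 2 / P := by
  have h1 : 0 < P - t := by linarith
  have h2 : P ^ 2 / (P - t) = P + t + t ^ 2 / (P - t) := by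
    field_simp
    ring
  have h3 : t ^ 2 / (P - t) ≤ 2 * t ^ 2 / P := by
    rw [div_le_div_iff₀ h1 hP]
    nlinarith [mul_nonneg (sq_nonneg t) (show 0 ≤ P - 2 * t by linarith)]
  linarith

theorem bd_low {P t : ℝ} (hP : 0 < P) (h0 : 0 ≤ t) (ht : t ≤ P) : P ^ 2 / (P - -t) ≤ P - t / 2 := by
  rw [div_le_iff₀ (by linarith)]
  nlinarith [mul_nonneg h0 (show 0 ≤ P - t by linarith)]

namespace Lvl

variable {f q : ℂ → ℂ} {P m : ℝ} {y : ℂ} (L : Lvl f q P m y)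
include L

/-- the tangent line bound -/
theorem up (z : ℂ) (t : ℝ) (hz : |z.im| ≤ y.im + m * t) (ht : t ≤ P / 2) :
    ‖f z‖ ≤ Real.exp (P + t + 2 * t ^ 2 / P) ∧ ‖q z‖ ≤ Real.exp (P + t + 2 * t ^ 2 / P) ^ 2 := by
  have hP : 0 < P := by linarith [L.P16]
  obtain ⟨h1, h2⟩ := L.bd z t hz (by linarith)
  have h3 := Real.exp_le_exp.2 (bd_up hP ht)
  exact ⟨h1.trans h3, h2.trans (pow_le_pow_left₀ (Real.exp_pos _).le h3 2)⟩

/-- the decay below the level -/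
theorem low (z : ℂ) (t : ℝ) (hz : |z.im| ≤ y.im - m * t) (h0 : 0 ≤ t) (ht : t ≤ P) :
    ‖f z‖ ≤ Real.exp (P - t / 2) ∧ ‖q z‖ ≤ Real.exp (P - t / 2) ^ 2 := by
  have hP : 0 < P := by linarith [L.P16]
  obtain ⟨h1, h2⟩ := L.bd z (-t) (by linarith) (by linarith)
  have h3 := Real.exp_le_exp.2 (bd_low hP h0 ht)
  exact ⟨h1.trans h3, h2.trans (pow_le_pow_left₀ (Real.exp_pos _).le h3 2)⟩

end Lvl

end Vale.Agent.P097E
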