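import Vale.Agent.P097E.B2Defs
import Vale.Agent.P097N.Up
import Vale.Agent.P097N.Root
import Vale.Agent.P097N.Even

/-!
# P097E: chains from the real axis up to the top line, with the sharp even part
-/

set_option linter.all false

noncomputable section

namespace Vale.Agent.P097E

open Filter Topology Set Metric Vale.Agent.P097N Vale.Agent.P097N.Up

namespace B2

/-- one step of the chain, at one point -/
theorem loc2 {Φ : ℂ × ℂ → ℂ} {r₀ c₁ E η D : ℝ} {w a b p : ℂ} (hΦ : Crit2 Φ r₀ c₁ E)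
    (hc : 0 < c₁) (E0 : 0 ≤ E) (hη : 4 * η ≤ r₀) (hw : 0 < ‖w‖) (hD : D = r₀ - p.im)
    (hp : -η < p.im) (hb : ‖b - p‖ ≤ D / 16) (hr : 12 * ‖w‖ ≤ c₁ * D)
    (ha : ‖b - a - w‖ ≤ ‖w‖ / 16) :
    AnalyticAt ℂ Φ (b, a) ∧ (∀ c ∈ ball (2 * b - a) (‖w‖ / 4), AnalyticAt ℂ Φ (b, c) ∧
      ‖Φ (b, c) + Φ (b, a) - (c - (2 * b - a))‖ ≤ ‖w‖ / 4 / 8) ∧
      2 * ‖Φ (b, 2 * b - a) + Φ (b, a)‖ ≤ 81 * E * ‖w‖ ^ 4 / D ^ 3 := by
  obtain ⟨k1, k2, -⟩ := loc seven hΦ.1 hc hη hw hD hp hb hr ha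
  refine ⟨k1, k2, ?_⟩
  have D0 : 0 < D := (mul_pos_iff_of_pos_left hc).1 (by linarith)
  have i1 := abs_le.1 ((Complex.abs_im_le_norm _).trans hb)
  rw [Complex.sub_im] at i1
  have i2 : |b.im| ≤ r₀ - D / 2 := abs_le.2 ⟨by linarith, by linarith⟩
  have n2 : ‖b - a‖ ≤ 3 / 2 * ‖w‖ := by
    have := abs_le.1 ((abs_norm_sub_norm_le (b - a) w).trans ha)
    linarith
  have r1 : c₁ * D / 2 ≤ c₁ * (r₀ - |b.im|) := by nlinarith
  have := hΦ.2 b (show |b.im| < r₀ by linarith) (b - a) (by linarith)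
  rw [show b + (b - a) = 2 * b - a by ring, show b - (b - a) = a by ring] at this
  calc _ ≤ 2 * (E * ‖b - a‖ ^ 4 / (r₀ - |b.im|) ^ 3) := by linarith
    _ ≤ 2 * (E * (3 / 2 * ‖w‖) ^ 4 / (D / 2) ^ 3) := by
        gcongr
        linarith
    _ = _ := by field_simp; ring

theorem numB2 {o v D K B : ℝ} (ho : 0 < o) (hv : o ≤ 2 * v) (hD : 0 < D) (B0 : 0 ≤ B)
    (hB : K ≤ B) : K * o ^ 4 / (D + v) ^ 3 + B * o ^ 3 / (D + v) ^ 2 ≤ B * o ^ 3 / D ^ 2 := by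
  have v0 : 0 < v := by linarith
  have h1 := numB ho hv hD one_pos (B := 64) (by norm_num)
  have h2 : K * o ^ 4 / (D + v) ^ 3 ≤ B * o ^ 4 / (D + v) ^ 3 := by gcongr
  have h3 := mul_le_mul_of_nonneg_left h1 (show 0 ≤ B / 64 by positivity)
  rw [one_mul] at h3
  calc _ ≤ B / 64 * (64 * o ^ 4 / (D + v) ^ 3 + 64 * o ^ 3 / (D + v) ^ 2) := by
        rw [show B / 64 * (64 * o ^ 4 / (D + v) ^ 3 + 64 * o ^ 3 / (D + v) ^ 2) =
          B * o ^ 4 / (D + v) ^ 3 + B * o ^ 3 / (D + v) ^ 2 by ring]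
        linarith
    _ ≤ _ := h3
    _ = _ := by ring

theorem step2 {Φ : ℂ × ℂ → ℂ} {r₀ c₁ c₂ η A B E T T' : ℝ} {w : ℂ}
    {y z : ℂ → ℂ} (hΦ : Crit2 Φ r₀ c₁ E) (hc : 0 < c₁) (hη : 4 * η ≤ r₀) (c0 : 0 < c₂)
    (c1 : c₂ ≤ 1 / 2) (c2 : c₂ ≤ c₁ / 12) (c3 : A * c₂ ^ 2 ≤ 1 / 16) (E0 : 0 < E)
    (hB : 81 * E ≤ B)
    (hA : 4 * B ≤ A) (w0 : 0 < w.im) (w1 : ‖w‖ ≤ 2 * w.im) (w4 : 2 * ‖w‖ ≤ η) (T0 : η ≤ T)
    (T1 : T' ≤ T + w.im) (T2 : T' ≤ r₀ - ‖w‖ / c₂) (H : Inv Φ w y r₀ η A B T z) :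
    ∃ z', Inv Φ w y r₀ η A B T' z' := by
  have w3 : w.im ≤ ‖w‖ := (le_abs_self _).trans (Complex.abs_im_le_norm w)
  have o0 : 0 < ‖w‖ := by linarith
  have η0 : 0 < η := by linarith
  have B0 : 0 < B := by linarith
  have dep : ∀ x : ℂ, x.im < T' → ‖w‖ ≤ c₂ * (r₀ - x.im) := fun x hx => by
    have : ‖w‖ / c₂ ≤ r₀ - x.im := by linarith
    rwa [div_le_iff₀' c0] at this
  have dp0 : ∀ x : ℂ, x.im < T' → 2 * ‖w‖ ≤ r₀ - x.im := fun x hx => by
    have h1 := dep x hx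
    have h2 : 0 < r₀ - x.im := (mul_pos_iff_of_pos_left c0).1 (by linarith)
    nlinarith
  have sA : ∀ x : ℂ, x.im < T' → A * ‖w‖ ^ 2 / (r₀ - x.im) ≤ (r₀ - x.im) / 16 := fun x hx => by
    have h1 := dep x hx
    have h2 : 0 < r₀ - x.im := by linarith [dp0 x hx]
    calc _ ≤ A * (c₂ * (r₀ - x.im)) ^ 2 / (r₀ - x.im) := by
          gcongr
          linarith
      _ = A * c₂ ^ 2 * (r₀ - x.im) := by field_simp
      _ ≤ _ := by nlinarith
  have sB : ∀ x : ℂ, x.im < T' → B * ‖w‖ ^ 3 / (r₀ - x.im) ^ 2 ≤ ‖w‖ / 64 := fun x hx => by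
    have h1 := dep x hx
    have h2 : 0 < r₀ - x.im := by linarith [dp0 x hx]
    calc _ = B * ‖w‖ ^ 2 * ‖w‖ / (r₀ - x.im) ^ 2 := by ring
      _ ≤ B * (c₂ * (r₀ - x.im)) ^ 2 * ‖w‖ / (r₀ - x.im) ^ 2 := by gcongr
      _ = B * c₂ ^ 2 * ‖w‖ := by field_simp
      _ ≤ _ := by nlinarith [mul_le_mul_of_nonneg_right hA (sq_nonneg c₂)]
  set X := DT (-η + 2 * w.im) T' with hX
  have m1 : ∀ x ∈ X, x - w ∈ DT (-η) T := fun x hx =>
    ⟨by simp only [Complex.sub_im]; linarith [hx.1], by simp only [Complex.sub_im]; linarith [hx.2]⟩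
  have m2 : ∀ x ∈ X, x - w - w ∈ DT (-η) T := fun x hx =>
    ⟨by simp only [Complex.sub_im]; linarith [hx.1], by simp only [Complex.sub_im]; linarith [hx.2]⟩
  have m3 : ∀ x ∈ X, (x - w).im < T' := fun x hx => by
    simp only [Complex.sub_im]; linarith [hx.2]
  have b1 : ∀ x ∈ X, ‖z (x - w) - z (x - w - w) - w‖ ≤ ‖w‖ / 64 := fun x hx =>
    (H.b _ (m1 x hx) (m2 x hx)).trans (sB _ (m3 x hx))
  have L := fun x (hx : x ∈ X) => loc2 (a := z (x - w - w)) (b := z (x - w)) hΦ hc E0.le hη o0 rfl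
    (m1 x hx).1 ((H.a _ (m1 x hx)).trans (sA _ (m3 x hx)))
    (by nlinarith [dep _ (m3 x hx), dp0 _ (m3 x hx)]) (by linarith [b1 x hx])
  obtain ⟨c, hcd, hc'⟩ := sroot Φ X (fun x => z (x - w - w)) (fun x => z (x - w)) (‖w‖ / 4)
    (isOpen_DT _ _) (by linarith) (H.d.comp (by fun_prop) m2) (H.d.comp (by fun_prop) m1)
    (fun x hx => (L x hx).1) fun x hx => (L x hx).2.1
  have ov : ∀ x ∈ X, x ∈ DT (-η) T → z x = c x := fun x hx hx' => by
    refine (hc' x hx).2.2.2 _ ?_ (by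
      simpa only [sub_add_cancel] using H.l (x - w) (m2 x hx) (by rwa [sub_add_cancel]))
    have := norm_sub_le (z x - z (x - w) - w) (z (x - w) - z (x - w - w) - w)
    rw [show z x - z (x - w) - w - (z (x - w) - z (x - w - w) - w) =
      z x - (2 * z (x - w) - z (x - w - w)) by ring] at this
    linarith [b1 x hx, (H.b x hx' (m1 x hx)).trans (sB x hx.2)]
  have cov : ∀ x ∈ DT (-η) T', x ∉ DT (-η) T → x ∈ X := fun x hx hx' =>
    ⟨by linarith [not_lt.1 fun h => hx' ⟨hx.1, h⟩], hx.2⟩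
  have nB : ∀ x ∈ X, ‖c x - z (x - w) - w‖ ≤ B * ‖w‖ ^ 3 / (r₀ - x.im) ^ 2 := fun x hx => by
    have h1 := (hc' x hx).2.2.1.trans (L x hx).2.2
    have h2 := H.b _ (m1 x hx) (m2 x hx)
    have := norm_add_le (c x - (2 * z (x - w) - z (x - w - w))) (z (x - w) - z (x - w - w) - w)
    rw [show c x - (2 * z (x - w) - z (x - w - w)) + (z (x - w) - z (x - w - w) - w) =
      c x - z (x - w) - w by ring] at this
    rw [show r₀ - (x - w).im = r₀ - x.im + w.im by simp only [Complex.sub_im]; ring] at h1 h2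
    linarith [numB2 o0 w1 (show 0 < r₀ - x.im by linarith [dp0 x hx.2]) B0.le hB]
  classical
  let z' : ℂ → ℂ := fun x => if x ∈ DT (-η) T then z x else c x
  have e1 : ∀ x ∈ DT (-η) T, z' x = z x := fun x hx => if_pos hx
  have e2 : ∀ x ∈ X, z' x = c x := fun x hx => by
    by_cases h : x ∈ DT (-η) T
    exacts [(e1 x h).trans (ov x hx h), if_neg h]
  refine ⟨z', fun x hx => ?_, fun x hx => ?_, fun x hx => ?_, fun x hx hx' => ?_,
    fun x hx hx' => ?_⟩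
  · by_cases h : x ∈ DT (-η) T
    · exact ((H.d.differentiableAt ((isOpen_DT _ _).mem_nhds h)).congr_of_eventuallyEq
        (eventually_of_mem ((isOpen_DT _ _).mem_nhds h) e1)).differentiableWithinAt
    · have m := (isOpen_DT _ _).mem_nhds (cov x hx h)
      exact ((hcd.differentiableAt m).congr_of_eventuallyEq
        (eventually_of_mem m e2)).differentiableWithinAt
  · have := abs_lt.1 (show |x.im| < η from hx)
    exact (e1 x ⟨this.1, by linarith⟩).trans (H.e hx)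
  · by_cases h : x ∈ DT (-η) T
    · rw [e1 x h]
      exact H.a x h
    · have m := cov x hx h
      have h2 := H.a _ (m1 x m)
      have := norm_add_le (c x - z (x - w) - w) (z (x - w) - (x - w))
      rw [show c x - z (x - w) - w + (z (x - w) - (x - w)) = c x - x by ring] at this
      rw [show r₀ - (x - w).im = r₀ - x.im + w.im by simp only [Complex.sub_im]; ring] at h2
      rw [e2 x m]
      linarith [nB x m, numA o0 w1 (show w.im ≤ r₀ - x.im by linarith [dp0 x hx.2]) B0.le hA]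
  · by_cases h : x ∈ DT (-η) T
    · have h' : x - w ∈ DT (-η) T := ⟨hx'.1, by simp only [Complex.sub_im]; linarith [h.2]⟩
      rw [e1 x h, e1 _ h']
      exact H.b x h h'
    · have m := cov x hx h
      rw [e2 x m, e1 _ (m1 x m)]
      exact nB x m
  · have k1 := hx.1
    have k2 := hx'.2
    simp only [Complex.sub_im, Complex.add_im] at k1 k2
    have h1 : x ∈ DT (-η) T := ⟨by linarith, by linarith⟩
    have h2 : x - w ∈ DT (-η) T := ⟨hx.1, by simp only [Complex.sub_im]; linarith⟩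
    rw [e1 _ h1, e1 _ h2]
    by_cases h : x + w ∈ DT (-η) T
    · rw [e1 _ h]
      exact H.l x h2 h
    · have m := cov _ hx' h
      rw [e2 _ m]
      simpa only [add_sub_cancel_right] using (hc' _ m).1

/-- the chain up to the top -/
theorem up2 {Φ : ℂ × ℂ → ℂ} {r₀ c₁ c₂ η A B E : ℝ} {w : ℂ} {y : ℂ → ℂ} (hΦ : Crit2 Φ r₀ c₁ E)
    (hc : 0 < c₁) (hη : 4 * η ≤ r₀) (c0 : 0 < c₂) (c1 : c₂ ≤ 1 / 2) (c2 : c₂ ≤ c₁ / 12)
    (c3 : A * c₂ ^ 2 ≤ 1 / 16) (E0 : 0 < E) (hB : 81 * E ≤ B) (hA : 4 * B ≤ A) (w0 : 0 < w.im)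
    (w1 : ‖w‖ ≤ 2 * w.im) (w4 : 2 * ‖w‖ ≤ η) (w5 : η ≤ r₀ - ‖w‖ / c₂)
    (hy : DifferentiableOn ℂ y (St η)) (h1 : ∀ x ∈ St η, ‖y x - x‖ ≤ A * ‖w‖ ^ 2 / (2 * r₀))
    (h2 : ∀ x ∈ St η, x - w ∈ St η → ‖y x - y (x - w) - w‖ ≤ B * ‖w‖ ^ 3 / (2 * r₀) ^ 2)
    (h3 : ∀ x, x - w ∈ St η → x + w ∈ St η → Φ (y x, y (x + w)) + Φ (y x, y (x - w)) = 0) :
    ∃ z, Inv Φ w y r₀ η A B (r₀ - ‖w‖ / c₂) z := by
  have η0 : 0 < η := by linarith [norm_nonneg w, Complex.im_le_norm w]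
  have e : DT (-η) η = St η := by
    ext x
    exact abs_lt.symm
  have key : ∀ n : ℕ, ∃ z, Inv Φ w y r₀ η A B (min (η + n * w.im) (r₀ - ‖w‖ / c₂)) z := by
    intro n
    induction n with
    | zero =>
      rw [Nat.cast_zero, zero_mul, add_zero, min_eq_left w5]
      refine ⟨y, e ▸ hy, fun _ _ => rfl, fun x hx => (h1 x (e ▸ hx)).trans ?_,
        fun x hx hx' => (h2 x (e ▸ hx) (e ▸ hx')).trans ?_, fun x hx hx' => h3 x (e ▸ hx) (e ▸ hx')⟩
      · have k1 : 0 < r₀ - x.im := by linarith [hx.2]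
        have k2 : r₀ - x.im ≤ 2 * r₀ := by linarith [hx.1]
        gcongr
        nlinarith [sq_nonneg ‖w‖]
      · have k1 : 0 < r₀ - x.im := by linarith [hx.2]
        have k2 : r₀ - x.im ≤ 2 * r₀ := by linarith [hx.1]
        gcongr
        nlinarith [pow_nonneg (norm_nonneg w) 3]
    | succ n ih =>
      obtain ⟨z, hz⟩ := ih
      have : 0 ≤ n * w.im := by positivity
      refine step2 hΦ hc hη c0 c1 c2 c3 E0 hB hA w0 w1 w4
        (le_min (by linarith) w5) ?_ (min_le_right ..) hz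
      rw [← min_add_add_right]
      push_cast
      exact min_le_min (by linarith) (by linarith)
  obtain ⟨n, hn⟩ := exists_nat_ge (r₀ / w.im)
  rw [div_le_iff₀ w0] at hn
  obtain ⟨z, hz⟩ := key n
  have o0 : 0 ≤ ‖w‖ / c₂ := by positivity
  rw [min_eq_right (by linarith)] at hz
  exact ⟨z, hz⟩

end B2

end Vale.Agent.P097E
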