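import Vale.Agent.P097E.B2Ev
import Vale.Agent.P097E.B2Up
import Vale.Agent.P097N.Chain

/-!
# P097E: the lifting in a window (`Spec_B2`)
-/

set_option linter.all false

noncomputable section

namespace Vale.Agent.P097E

open Filter Topology Set Metric Vale.Agent.P097N Vale.Agent.P097N.Up

namespace B2

theorem crit2_neg {Φ : ℂ × ℂ → ℂ} {r₀ c₁ E : ℝ} (h : Crit2 Φ r₀ c₁ E) :
    Crit2 (fun q : ℂ × ℂ => -Φ (-q.1, -q.2)) r₀ c₁ E := by
  refine ⟨ch_crit_neg h.1, fun b hb s hs => ?_⟩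
  have := h.2 (-b) (ch_neg_mem hb) s (by rwa [Complex.neg_im, abs_neg])
  rw [Complex.neg_im, abs_neg] at this
  show ‖-Φ (-b, -(b + s)) + -Φ (-b, -(b - s))‖ ≤ _
  rw [show -(b + s) = -b - s by ring, show -(b - s) = -b + s by ring, ← neg_add, norm_neg,
    add_comm]
  exact this

theorem glue2 {η R : ℝ} {M : ℝ → ℝ} (hη : 0 < η) {y z₁ z₂ : ℂ → ℂ}
    (d₁ : DifferentiableOn ℂ z₁ (DT (-η) R)) (e₁ : EqOn z₁ y (St η))
    (b₁ : ∀ x ∈ DT (-η) R, ‖z₁ x - x‖ ≤ M x.im)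
    (d₂ : DifferentiableOn ℂ z₂ (DT (-η) R)) (e₂ : EqOn z₂ (fun x => -y (-x)) (St η))
    (b₂ : ∀ x ∈ DT (-η) R, ‖z₂ x - x‖ ≤ M x.im) :
    ∃ z : ℂ → ℂ, DifferentiableOn ℂ z (St R) ∧ EqOn z y (St η) ∧
      ∀ x ∈ St R, ‖z x - x‖ ≤ M |x.im| := by
  have hy : ∀ x ∈ St η, -z₂ (-x) = y x := fun x hx => by
    have := e₂ (ch_neg_mem hx)
    simp only [neg_neg] at this
    rw [this, neg_neg]
  have m1 : ∀ x ∈ St R, 0 ≤ x.im → x ∈ DT (-η) R := fun x hx h0 =>
    ⟨by linarith, (abs_lt.1 (show |x.im| < R from hx)).2⟩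
  have m2 : ∀ x ∈ St R, x.im < 0 → -x ∈ DT (-η) R := fun x hx h0 =>
    ⟨by rw [Complex.neg_im]; linarith,
      by rw [Complex.neg_im]; linarith [(abs_lt.1 (show |x.im| < R from hx)).1]⟩
  refine ⟨fun x => if 0 ≤ x.im then z₁ x else -z₂ (-x), fun x hx => ?_, fun x hx => ?_,
    fun x hx => ?_⟩
  · apply DifferentiableAt.differentiableWithinAt
    rcases le_or_gt 0 x.im with h0 | h0
    · have hm := (isOpen_DT _ _).mem_nhds (m1 x hx h0)
      refine (d₁.differentiableAt hm).congr_of_eventuallyEq ?_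
      filter_upwards [hm] with u hu
      split_ifs with hu0
      · rfl
      · have hs : u ∈ St η := abs_lt.2 ⟨hu.1, by linarith [not_le.1 hu0]⟩
        rw [hy u hs, e₁ hs]
    · have hd := d₂.differentiableAt ((isOpen_DT _ _).mem_nhds (m2 x hx h0))
      refine (DifferentiableAt.comp (g := z₂) (f := fun u : ℂ => -u) x hd
        differentiableAt_id.neg).neg.congr_of_eventuallyEq ?_
      filter_upwards [(isOpen_lt Complex.continuous_im continuous_const).mem_nhds h0] with u hu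
      exact if_neg (not_le.2 hu)
  · show (if 0 ≤ x.im then z₁ x else -z₂ (-x)) = y x
    split_ifs
    exacts [e₁ hx, hy x hx]
  · show ‖(if 0 ≤ x.im then z₁ x else -z₂ (-x)) - x‖ ≤ _
    split_ifs with h0
    · rw [abs_of_nonneg h0]
      exact b₁ x (m1 x hx h0)
    · have := b₂ (-x) (m2 x hx (not_le.1 h0))
      rw [show -z₂ (-x) - x = -(z₂ (-x) - -x) by ring, norm_neg, abs_of_neg (not_le.1 h0)]
      exact this

/-- both sides, both signs -/
theorem chain2 {Φ : ℂ × ℂ → ℂ} {r₀ c₁ c₂ η A B E : ℝ} {w : ℂ} {y : ℂ → ℂ}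
    (hΦ : Crit2 Φ r₀ c₁ E) (hc : 0 < c₁) (hη : 4 * η ≤ r₀) (c0 : 0 < c₂) (c1 : c₂ ≤ 1 / 2)
    (c2 : c₂ ≤ c₁ / 12) (c3 : A * c₂ ^ 2 ≤ 1 / 16) (E0 : 0 < E) (hB : 81 * E ≤ B)
    (hA : 4 * B ≤ A) (w0 : w ≠ 0) (w1 : ‖w‖ ≤ 2 * |w.im|) (w4 : 2 * ‖w‖ ≤ η)
    (w5 : η ≤ r₀ - ‖w‖ / c₂) (hy : DifferentiableOn ℂ y (St η))
    (h1 : ∀ x ∈ St η, ‖y x - x‖ ≤ A * ‖w‖ ^ 2 / (2 * r₀))
    (h2 : ∀ x ∈ St η, x - w ∈ St η → ‖y x - y (x - w) - w‖ ≤ B * ‖w‖ ^ 3 / (2 * r₀) ^ 2)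
    (h3 : ∀ x, x - w ∈ St η → x + w ∈ St η → Φ (y x, y (x + w)) + Φ (y x, y (x - w)) = 0) :
    ∃ z : ℂ → ℂ, DifferentiableOn ℂ z (St (r₀ - ‖w‖ / c₂)) ∧ EqOn z y (St η) ∧
      ∀ x ∈ St (r₀ - ‖w‖ / c₂), ‖z x - x‖ ≤ A * ‖w‖ ^ 2 / (r₀ - |x.im|) := by
  have hn : 0 < ‖w‖ := norm_pos_iff.2 w0
  wlog hw : 0 < w.im generalizing w
  · have hw' : w.im < 0 := lt_of_le_of_ne (not_lt.1 hw) fun e => by
      rw [e, abs_zero] at w1
      linarith
    have := this (w := -w) (neg_ne_zero.2 w0) (by rwa [norm_neg, Complex.neg_im, abs_neg])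
      (by rwa [norm_neg]) (by rwa [norm_neg]) (by rwa [norm_neg])
      (fun x hx hxw => by
        have e : x - -w - w = x := by ring
        have := h2 (x - -w) hxw (by rw [e]; exact hx)
        rw [e] at this
        rw [norm_neg, show y x - y (x - -w) - -w = -(y (x - -w) - y x - w) by ring, norm_neg]
        exact this)
      (fun x hx1 hx2 => by
        rw [sub_neg_eq_add] at hx1 ⊢
        rw [← sub_eq_add_neg] at hx2 ⊢
        rw [add_comm]
        exact h3 x hx2 hx1) (by rwa [norm_neg]) (by rw [Complex.neg_im]; linarith)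
    rwa [norm_neg] at this
  rw [abs_of_pos hw] at w1
  obtain ⟨z₁, H₁⟩ := up2 hΦ hc hη c0 c1 c2 c3 E0 hB hA hw w1 w4 w5 hy h1 h2 h3
  obtain ⟨z₂, H₂⟩ := up2 (y := fun x => -y (-x)) (crit2_neg hΦ) hc hη c0 c1 c2 c3 E0 hB hA hw w1
    w4 w5 ((DifferentiableOn.comp (g := y) (f := fun u : ℂ => -u) hy
      differentiable_id.neg.differentiableOn (fun u hu => ch_neg_mem hu)).neg)
    (fun x hx => by
      have := h1 (-x) (ch_neg_mem hx)
      rw [show -y (-x) - x = -(y (-x) - -x) by ring, norm_neg]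
      exact this)
    (fun x hx hxw => by
      have e : -(x - w) - w = -x := by ring
      have := h2 (-(x - w)) (ch_neg_mem hxw) (by rw [e]; exact ch_neg_mem hx)
      rw [e] at this
      rw [show -y (-x) - -y (-(x - w)) - w = y (-(x - w)) - y (-x) - w by ring]
      exact this)
    (fun x hx1 hx2 => by
      have e1 : -x - w = -(x + w) := by ring
      have e2 : -x + w = -(x - w) := by ring
      have := h3 (-x) (by rw [e1]; exact ch_neg_mem hx2) (by rw [e2]; exact ch_neg_mem hx1)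
      rw [e1, e2] at this
      simp only [neg_neg]
      linear_combination -this)
  exact glue2 (M := fun t => A * ‖w‖ ^ 2 / (r₀ - t)) (by linarith) H₁.d H₁.e H₁.a H₂.d H₂.e H₂.a

end B2

open B2

theorem b2 : Spec_B2 := by
  refine ⟨1 / 4000, 648000, by norm_num, by norm_num, by norm_num, by norm_num, ?_⟩
  intro θ h Q c₀ r₀ A η C₀ w y V G hA η0 hη hC1 hC2 w0 w1 w4 hy h1 h2 h3
  have A0 : 0 < A := by linarith
  have r0 : 0 < r₀ := by linarith
  have hn : 0 < ‖w‖ := norm_pos_iff.2 w0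
  have C0 : 0 ≤ C₀ := nonneg_of_mul_nonneg_left
    ((norm_nonneg _).trans (h1 0 (by simpa [St] using η0))) (by positivity)
  have A2 : 0 < A ^ 2 := by positivity
  rcases lt_or_ge (r₀ - A * ‖w‖ / (1 / 4000)) η with w5 | w5
  · have sub : St (r₀ - A * ‖w‖ / (1 / 4000)) ⊆ St η := fun x hx => lt_trans hx w5
    refine ⟨y, hy.mono sub, fun _ _ => rfl, fun x hx => (h1 x (sub hx)).trans ?_⟩
    have k : |x.im| < η := sub hx
    rw [le_div_iff₀ (by linarith)]
    calc C₀ * ‖w‖ ^ 2 * (r₀ - |x.im|) ≤ C₀ * ‖w‖ ^ 2 * r₀ := by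
          gcongr
          linarith [abs_nonneg x.im]
      _ = C₀ * r₀ * ‖w‖ ^ 2 := by ring
      _ ≤ _ := mul_le_mul_of_nonneg_right (by linarith) (sq_nonneg _)
  obtain ⟨S1, S2⟩ := step θ h Q c₀ r₀ A V G hA
  have e : A * ‖w‖ / (1 / 4000) = ‖w‖ / (1 / (4000 * A)) := by field_simp
  have w6 : 4000 * (A * ‖w‖) ≤ r₀ := by linarith
  have w7 : (4000 * (A * ‖w‖)) ^ 2 ≤ r₀ ^ 2 := pow_le_pow_left₀ (by positivity) w6 2
  have s1 : C₀ * ‖w‖ ^ 2 ≤ 1 / 2 := by
    refine le_of_mul_le_mul_right ?_ A2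
    nlinarith [mul_le_mul_of_nonneg_left w7 C0]
  have s2 : C₀ * ‖w‖ ^ 2 ≤ r₀ / 4 := by
    refine le_of_mul_le_mul_right ?_ A2
    nlinarith [mul_le_mul_of_nonneg_left w7 C0, mul_le_mul_of_nonneg_left hC1 r0.le]
  rw [e] at w5 ⊢
  refine chain2 (B := 162000 * A ^ 2) S1 (by positivity) hη (by positivity) ?_ ?_ ?_
    (by positivity) (by linarith) (by linarith) w0 w1 w4 w5 hy (fun x hx => (h1 x hx).trans ?_)
    (fun x hx hx' => (h2 x hx hx').trans ?_) fun x hx hx' => ?_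
  · exact one_div_le_one_div_of_le (by norm_num) (by linarith)
  · rw [div_div]
    exact one_div_le_one_div_of_le (by positivity) (by linarith)
  · rw [show 648000 * A ^ 2 * (1 / (4000 * A)) ^ 2 = 648000 / 4000 ^ 2 by field_simp]
    norm_num
  · rw [le_div_iff₀ (by positivity)]
    nlinarith [mul_le_mul_of_nonneg_right hC1 (sq_nonneg ‖w‖), mul_pos A2 (pow_pos hn 2)]
  · rw [le_div_iff₀ (by positivity)]
    nlinarith [mul_le_mul_of_nonneg_right hC2 (pow_pos hn 3).le, mul_pos A2 (pow_pos hn 3)]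
  · have m : x ∈ St η := by
      have a1 := abs_lt.1 (show |(x - w).im| < η from hx)
      have a2 := abs_lt.1 (show |(x + w).im| < η from hx')
      rw [Complex.sub_im] at a1
      rw [Complex.add_im] at a2
      show |x.im| < η
      rw [abs_lt]
      constructor <;> linarith [a1.1, a2.1, a1.2, a2.2]
    have d1 : |(y x).im| ≤ r₀ / 2 := by
      have a1 := (Complex.abs_im_le_norm _).trans (h1 x m)
      have a2 := abs_sub_abs_le_abs_sub (y x).im x.im
      have a3 : |x.im| < η := m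
      rw [Complex.sub_im] at a1
      linarith
    have kk0 : ∀ b' u : ℂ, (u = b' - y x ∨ u = y x - b') → ‖u - w‖ ≤ C₀ * ‖w‖ ^ 3 →
        k1 θ h (y x) b' ≠ 0 := by
      intro b' u hu hb
      have a1 := abs_le.1 ((abs_norm_sub_norm_le u w).trans hb)
      have a2 : C₀ * ‖w‖ ^ 3 ≤ ‖w‖ / 2 := by nlinarith
      have a3 : ‖b' - y x‖ = ‖u‖ := by
        rcases hu with rfl | rfl
        exacts [rfl, norm_sub_rev _ _]
      refine S2 _ (show |(y x).im| < r₀ by linarith) b'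
        (sub_ne_zero.1 (norm_pos_iff.1 (by linarith [a1.1]))) ?_
      rw [a3, one_div_mul_eq_div, lt_div_iff₀ (by positivity)]
      nlinarith [mul_le_mul_of_nonneg_left (show ‖u‖ ≤ 3 / 2 * ‖w‖ by linarith [a1.2]) A0.le,
        mul_pos A0 hn]
    have n1 := kk0 (y (x + w)) _ (Or.inl rfl) (by
      simpa only [add_sub_cancel_right] using h2 (x + w) hx' (by rwa [add_sub_cancel_right]))
    have n2 := kk0 (y (x - w)) _ (Or.inr rfl) (h2 x m hx)
    have := h3 x hx hx'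
    rw [EE] at this
    simp only [Ph]
    rw [div_add_div _ _ n1 n2, div_eq_zero_iff]
    left
    linear_combination (-2) * this

end Vale.Agent.P097E
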