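import Vale.Agent.P097N.Defs

/-!
# P097E: block B2 (step lemma and lifting in a window), definitions and statements

The window is the critical growth bound with a large constant `A`; all other constants are
absolute.
-/

set_option linter.all false

noncomputable section

namespace Vale.Agent.P097E

open Filter Topology Set Metric Vale.Agent.P097N

/-- the window bound -/
def GrA (θ Q : ℂ → ℂ) (r₀ A : ℝ) : Prop := ∀ y ∈ St r₀,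
  ‖deriv θ y‖ * (r₀ - |y.im|) ≤ A ∧ ‖Q y‖ * (r₀ - |y.im|) ^ 2 ≤ A ^ 2

/-- the local estimate together with the sharp bound of the even part -/
def Crit2 (Φ : ℂ × ℂ → ℂ) (r₀ c₁ E : ℝ) : Prop := Crit Φ r₀ c₁ ∧ ∀ b ∈ St r₀, ∀ s : ℂ,
  ‖s‖ < c₁ * (r₀ - |b.im|) → ‖Φ (b, b + s) + Φ (b, b - s)‖ ≤ E * ‖s‖ ^ 4 / (r₀ - |b.im|) ^ 3

/-- the step lemma -/
def Spec_STEP : Prop := ∀ (θ h Q : ℂ → ℂ) (c : ℂ) (r₀ A : ℝ), Cv θ h Q c (St r₀) →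
  GrA θ Q r₀ A → 1 ≤ A → Crit2 (Ph θ h) r₀ (1 / (30 * A)) (2000 * A ^ 2) ∧
    ∀ b ∈ St r₀, ∀ b' : ℂ, b' ≠ b → ‖b' - b‖ < 1 / (30 * A) * (r₀ - |b.im|) → k1 θ h b b' ≠ 0

/-- the lifting, for one value of `w` outside the real sectors -/
def Spec_B2 : Prop := ∃ c C : ℝ, 0 < c ∧ c ≤ 1 / 100 ∧ 1 ≤ C ∧ C * c ^ 2 ≤ 1 / 16 ∧
  ∀ (θ h Q : ℂ → ℂ) (c₀ : ℂ) (r₀ A η C₀ : ℝ) (w : ℂ) (y : ℂ → ℂ), Cv θ h Q c₀ (St r₀) →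
    GrA θ Q r₀ A → 1 ≤ A → 0 < η → 4 * η ≤ r₀ → C₀ * r₀ ≤ A ^ 2 → C₀ * r₀ ^ 2 ≤ A ^ 2 →
    w ≠ 0 → ‖w‖ ≤ 2 * |w.im| → 2 * ‖w‖ ≤ η → DifferentiableOn ℂ y (St η) →
    (∀ x ∈ St η, ‖y x - x‖ ≤ C₀ * ‖w‖ ^ 2) →
    (∀ x ∈ St η, x - w ∈ St η → ‖y x - y (x - w) - w‖ ≤ C₀ * ‖w‖ ^ 3) →
    (∀ x, x - w ∈ St η → x + w ∈ St η → EE θ h (y (x - w)) (y x) (y (x + w)) = 0) →
    ∃ z : ℂ → ℂ, DifferentiableOn ℂ z (St (r₀ - A * ‖w‖ / c)) ∧ EqOn z y (St η) ∧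
      ∀ x ∈ St (r₀ - A * ‖w‖ / c), ‖z x - x‖ ≤ C * A ^ 2 * ‖w‖ ^ 2 / (r₀ - |x.im|)

end Vale.Agent.P097E
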