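import Vale.Agent.P097E.B2Defs
import Vale.Agent.P097N.K

/-!
# P097E: the step lemma with the sharp bound of the even part
-/

set_option linter.all false

noncomputable section

namespace Vale.Agent.P097E

open Filter Topology Set Metric Vale.Agent.P097N

namespace B2

/-- a third order equation with small coefficients and a forcing term -/
theorem frc {v v1 v2 P R F : ℂ → ℂ} {a b : ℂ} {A₂ A₃ ε e φ : ℝ}
    (d0 : ∀ z ∈ segment ℝ b a, HasDerivAt v (v1 z) z)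
    (d1 : ∀ z ∈ segment ℝ b a, HasDerivAt v1 (v2 z) z)
    (d2 : ∀ z ∈ segment ℝ b a, HasDerivAt v2 (P z * v1 z - R z * v z + F z) z)
    (bd : ∀ z ∈ segment ℝ b a, ‖P z‖ ≤ A₂ ∧ ‖R z‖ ≤ A₃) (bF : ∀ z ∈ segment ℝ b a, ‖F z‖ ≤ φ)
    (e0 : v b = 0) (e1 : v1 b = 0) (e2 : ‖v2 b‖ ≤ e) (h2 : A₂ * ‖a - b‖ ^ 2 ≤ ε)
    (h3 : A₃ * ‖a - b‖ ^ 3 ≤ ε) (hε : ε ≤ 1 / 12) : ∀ z ∈ segment ℝ b a,
      ‖v1 z‖ ≤ 6 / 5 * (e + φ * ‖a - b‖) * ‖a - b‖ ∧
      ‖v z‖ ≤ 6 / 5 * (e + φ * ‖a - b‖) * ‖a - b‖ * ‖a - b‖ := by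
  have hb := left_mem_segment ℝ b a
  have L0 := norm_nonneg (a - b)
  have mv : ∀ {f f' : ℂ → ℂ} {C : ℝ}, (∀ z ∈ segment ℝ b a, HasDerivAt f (f' z) z) →
      (∀ z ∈ segment ℝ b a, ‖f' z‖ ≤ C) → ∀ z ∈ segment ℝ b a, ‖f z - f b‖ ≤ C * ‖a - b‖ :=
    fun d c z hz => ((convex_segment b a).norm_image_sub_le_of_norm_hasDerivWithin_le
      (fun x hx => (d x hx).hasDerivWithinAt) c hb hz).trans (mul_le_mul_of_nonneg_left
        (norm_sub_le_of_mem_segment hz) ((norm_nonneg _).trans (c b hb)))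
  have cp : IsCompact (segment ℝ b a) := by
    rw [segment_eq_image]; exact isCompact_Icc.image (by fun_prop)
  obtain ⟨z₀, hz₀, mx⟩ := cp.exists_isMaxOn ⟨b, hb⟩ (f := fun z => ‖v2 z‖)
    fun z hz => (d2 z hz).continuousAt.norm.continuousWithinAt
  set m := ‖v2 z₀‖
  have m0 : 0 ≤ m := norm_nonneg _
  have k1 := mv d1 mx
  simp only [e1, sub_zero] at k1
  have k0 := mv d0 k1
  simp only [e0, sub_zero] at k0
  have k2 : ‖v2 z₀ - v2 b‖ ≤ 2 * m * ε + φ * ‖a - b‖ := by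
    have := mv d2 (C := A₂ * (m * ‖a - b‖) + A₃ * (m * ‖a - b‖ * ‖a - b‖) + φ) (fun x hx =>
      (norm_add_le _ _).trans (add_le_add ((norm_sub_le _ _).trans (by
        rw [norm_mul, norm_mul]
        exact add_le_add (mul_le_mul (bd x hx).1 (k1 x hx) (norm_nonneg _)
          ((norm_nonneg _).trans (bd x hx).1)) (mul_le_mul (bd x hx).2 (k0 x hx) (norm_nonneg _)
          ((norm_nonneg _).trans (bd x hx).2)))) (bF x hx))) z₀ hz₀
    nlinarith [mul_le_mul_of_nonneg_left h2 m0, mul_le_mul_of_nonneg_left h3 m0]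
  have m1 : m ≤ 6 / 5 * (e + φ * ‖a - b‖) := by
    have := norm_sub_norm_le (v2 z₀) (v2 b)
    nlinarith
  intro z hz
  exact ⟨(k1 z hz).trans (by gcongr), (k0 z hz).trans (by gcongr)⟩

/-- comparison of two equations -/
theorem cmp {v v1 v2 P R u u1 u2 P' R' : ℂ → ℂ} {a b : ℂ} {A₂ A₃ B₂ B₃ ε : ℝ}
    (d0 : ∀ z ∈ segment ℝ b a, HasDerivAt v (v1 z) z)
    (d1 : ∀ z ∈ segment ℝ b a, HasDerivAt v1 (v2 z) z)
    (d2 : ∀ z ∈ segment ℝ b a, HasDerivAt v2 (P z * v1 z - R z * v z) z)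
    (f0 : ∀ z ∈ segment ℝ b a, HasDerivAt u (u1 z) z)
    (f1 : ∀ z ∈ segment ℝ b a, HasDerivAt u1 (u2 z) z)
    (f2 : ∀ z ∈ segment ℝ b a, HasDerivAt u2 (P' z * u1 z - R' z * u z) z)
    (bd : ∀ z ∈ segment ℝ b a, ‖P z‖ ≤ A₂ ∧ ‖R z‖ ≤ A₃)
    (bd' : ∀ z ∈ segment ℝ b a, ‖P' z‖ ≤ A₂ ∧ ‖R' z‖ ≤ A₃)
    (df : ∀ z ∈ segment ℝ b a, ‖P z - P' z‖ ≤ B₂ ∧ ‖R z - R' z‖ ≤ B₃)
    (e0 : v b = 0) (e1 : v1 b = 0) (e2 : v2 b = 1) (g0 : u b = 0) (g1 : u1 b = 0) (g2 : u2 b = 1)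
    (h2 : A₂ * ‖a - b‖ ^ 2 ≤ ε) (h3 : A₃ * ‖a - b‖ ^ 3 ≤ ε) (hε : ε ≤ 1 / 12) :
    ‖-2 * v a / v1 a - -2 * u a / u1 a‖ ≤ 12 * (B₂ + B₃ * ‖a - b‖) * ‖a - b‖ ^ 3 := by
  have hb := left_mem_segment ℝ b a
  have ha := right_mem_segment ℝ b a
  have B2 : 0 ≤ B₂ := (norm_nonneg _).trans (df b hb).1
  have B3 : 0 ≤ B₃ := (norm_nonneg _).trans (df b hb).2
  have A2 : 0 ≤ A₂ := (norm_nonneg _).trans (bd b hb).1
  have A3 : 0 ≤ A₃ := (norm_nonneg _).trans (bd b hb).2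
  rcases eq_or_ne a b with rfl | ne
  · simp [e1, g1]
  have L1 : 0 < ‖a - b‖ := norm_pos_iff.2 (sub_ne_zero.2 ne)
  set L := ‖a - b‖ with hL
  have one : ∀ {v v1 v2 P R : ℂ → ℂ}, (∀ z ∈ segment ℝ b a, HasDerivAt v (v1 z) z) →
      (∀ z ∈ segment ℝ b a, HasDerivAt v1 (v2 z) z) →
      (∀ z ∈ segment ℝ b a, HasDerivAt v2 (P z * v1 z - R z * v z) z) →
      (∀ z ∈ segment ℝ b a, ‖P z‖ ≤ A₂ ∧ ‖R z‖ ≤ A₃) → v b = 0 → v1 b = 0 → v2 b = 1 →
      (∀ z ∈ segment ℝ b a, ‖v1 z‖ ≤ 6 / 5 * L ∧ ‖v z‖ ≤ 6 / 5 * L * L) ∧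
        19 / 25 * L ≤ ‖v1 a‖ := by
    intro v v1 v2 P R d0 d1 d2 bd e0 e1 e2
    have k := frc (F := fun _ => 0) (e := 1) (φ := 0) d0 d1 (fun z hz => by simpa using d2 z hz)
      bd (fun z hz => by simp) e0 e1 (by simp [e2]) h2 h3 hε
    simp only [zero_mul, add_zero, mul_one] at k
    refine ⟨k, ?_⟩
    have k' := (frc (v := fun z => v z - (z - b) ^ 2 / 2) (v1 := fun z => v1 z - (z - b))
      (v2 := fun z => v2 z - 1) (P := fun _ => 0) (R := fun _ => 0)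
      (F := fun z => P z * v1 z - R z * v z) (A₂ := 0) (A₃ := 0) (ε := 0) (e := 0)
      (φ := A₂ * (6 / 5 * L) + A₃ * (6 / 5 * L * L))
      (fun z hz => ((d0 z hz).sub ((((hasDerivAt_id' z).sub_const b).pow 2).div_const
        2)).congr_deriv (by simp))
      (fun z hz => (d1 z hz).sub ((hasDerivAt_id' z).sub_const b))
      (fun z hz => by simpa using (d2 z hz).sub_const 1) (fun z hz => by simp)
      (fun z hz => (norm_sub_le _ _).trans (by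
        rw [norm_mul, norm_mul]
        exact add_le_add (mul_le_mul (bd z hz).1 (k z hz).1 (norm_nonneg _) A2)
          (mul_le_mul (bd z hz).2 (k z hz).2 (norm_nonneg _) A3)))
      (by simp [e0]) (by simp [e1]) (by simp [e2]) (by simp) (by simp) (by norm_num) a ha).1
    have k2 := norm_sub_norm_le (a - b) (v1 a)
    rw [norm_sub_rev (a - b)] at k2
    have k3 : (A₂ * (6 / 5 * L) + A₃ * (6 / 5 * L * L)) * L ≤ 1 / 5 := by nlinarith
    nlinarith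
  obtain ⟨p1, p2⟩ := one d0 d1 d2 bd e0 e1 e2
  obtain ⟨q1, q2⟩ := one f0 f1 f2 bd' g0 g1 g2
  obtain ⟨D1, D0⟩ := frc (v := fun z => v z - u z) (v1 := fun z => v1 z - u1 z)
    (v2 := fun z => v2 z - u2 z) (P := P) (R := R)
    (F := fun z => (P z - P' z) * u1 z - (R z - R' z) * u z) (e := 0)
    (φ := B₂ * (6 / 5 * L) + B₃ * (6 / 5 * L * L))
    (fun z hz => (d0 z hz).sub (f0 z hz)) (fun z hz => (d1 z hz).sub (f1 z hz))
    (fun z hz => ((d2 z hz).sub (f2 z hz)).congr_deriv (by ring)) bd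
    (fun z hz => (norm_sub_le _ _).trans (by
      rw [norm_mul, norm_mul]
      exact add_le_add (mul_le_mul (df z hz).1 (q1 z hz).1 (norm_nonneg _) B2)
        (mul_le_mul (df z hz).2 (q1 z hz).2 (norm_nonneg _) B3)))
    (by simp [e0, g0]) (by simp [e1, g1]) (by simp [e2, g2]) h2 h3 hε a ha
  rw [← hL] at D1 D0
  set β := (B₂ + B₃ * L) * L ^ 2 with hβ
  have β0 : 0 ≤ β := by positivity
  have eβ : 6 / 5 * (0 + (B₂ * (6 / 5 * L) + B₃ * (6 / 5 * L * L)) * L) = 36 / 25 * β := by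
    rw [hβ]; ring
  rw [eβ] at D1 D0
  have n1 : v1 a ≠ 0 := norm_pos_iff.1 (by linarith)
  have n2 : u1 a ≠ 0 := norm_pos_iff.1 (by linarith)
  rw [show -2 * v a / v1 a - -2 * u a / u1 a =
    -2 * ((v a - u a) * u1 a - u a * (v1 a - u1 a)) / (v1 a * u1 a) by field_simp; ring,
    norm_div, norm_mul, norm_mul, norm_neg, Complex.norm_two,
    div_le_iff₀ (mul_pos (by linarith) (by linarith))]
  have t1 : ‖(v a - u a) * u1 a - u a * (v1 a - u1 a)‖ ≤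
      36 / 25 * β * L * L * (6 / 5 * L) + 6 / 5 * L * L * (36 / 25 * β * L) := by
    refine (norm_sub_le _ _).trans ?_
    rw [norm_mul, norm_mul]
    exact add_le_add (mul_le_mul D0 (q1 a ha).1 (norm_nonneg _) (by positivity))
      (mul_le_mul (q1 a ha).2 D1 (norm_nonneg _) (by positivity))
  have t2 : 19 / 25 * L * (19 / 25 * L) ≤ ‖v1 a‖ * ‖u1 a‖ :=
    mul_le_mul p2 q2 (by positivity) (norm_nonneg _)
  have t3 : 12 * (B₂ + B₃ * L) * L ^ 3 = 12 * β * L := by rw [hβ]; ring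
  rw [t3]
  have t4 := mul_le_mul_of_nonneg_left t2 (show 0 ≤ 12 * β * L by positivity)
  have t5 : 0 ≤ β * L ^ 3 := by positivity
  nlinarith

open K Complex

/-- the second derivative of the kernel -/
def k2 (θ h : ℂ → ℂ) (z b : ℂ) : ℂ :=
  deriv θ b * deriv (deriv h) z + deriv θ b * h b *
    (deriv (deriv θ) z * sin (θ z - θ b) + deriv θ z ^ 2 * cos (θ z - θ b)) - deriv h b *
    (deriv (deriv θ) z * cos (θ z - θ b) - deriv θ z ^ 2 * sin (θ z - θ b))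

/-- the equation of the kernel -/
theorem ode {θ h Q : ℂ → ℂ} {c : ℂ} {U : Set ℂ} (C : Cv θ h Q c U) (b : ℂ) {z : ℂ} (hz : z ∈ U) :
    HasDerivAt (fun z => kk θ h z b / c) (k1 θ h z b / c) z ∧
    HasDerivAt (fun z => k1 θ h z b / c) (k2 θ h z b / c) z ∧
    HasDerivAt (fun z => k2 θ h z b / c) ((Q z - deriv θ z ^ 2) * (k1 θ h z b / c) -
      3 * deriv θ z * deriv (deriv θ) z * (kk θ h z b / c)) z := by
  have t0 := (aθ C hz).differentiableAt.hasDerivAt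
  have t1 := (aθ C hz).deriv.differentiableAt.hasDerivAt
  have t2 := (aθ C hz).deriv.deriv.differentiableAt.hasDerivAt
  have co := (t0.sub_const (θ b)).ccos
  have si := (t0.sub_const (θ b)).csin
  refine ⟨(((((ah C hz).differentiableAt.hasDerivAt.const_mul (deriv θ b)).sub
      (co.const_mul (deriv θ b * h b))).sub (si.const_mul (deriv h b))).div_const
        c).congr_deriv (by rw [k1]; ring),
    (((((ah C hz).deriv.differentiableAt.hasDerivAt.const_mul (deriv θ b)).add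
      ((t1.const_mul (deriv θ b * h b)).mul si)).sub
        ((t1.const_mul (deriv h b)).mul co)).div_const c).congr_deriv (by rw [k2]; ring), ?_⟩
  refine (((((ah C hz).deriv.deriv.differentiableAt.hasDerivAt.const_mul (deriv θ b)).add
    (((t2.mul si).add ((t1.pow 2).mul co)).const_mul
      (deriv θ b * h b))).sub (((t2.mul co).sub ((t1.pow 2).mul
        si)).const_mul (deriv h b))).div_const c).congr_deriv ?_
  rw [third C hz, C.hq z hz, kk, k1]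
  simp only [Pi.pow_apply, Nat.cast_ofNat, Nat.add_one_sub_one]
  ring

theorem ini {θ h Q : ℂ → ℂ} {c : ℂ} {U : Set ℂ} (C : Cv θ h Q c U) {b : ℂ} (hb : b ∈ U) :
    kk θ h b b / c = 0 ∧ k1 θ h b b / c = 0 ∧ k2 θ h b b / c = 1 :=
  ⟨by simp [kk], by simp [k1, mul_comm], by
    rw [div_eq_one_iff_eq C.c0, ← C.ode b hb, k2]; simp; ring⟩

/-- the even part of the chord function -/
theorem even {θ h Q : ℂ → ℂ} {c : ℂ} {U : Set ℂ} (C : Cv θ h Q c U) {b s : ℂ} {ρ A₂ A₃ B₂ ε : ℝ}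
    (hU : ball b ρ ⊆ U) (hs : ‖s‖ < ρ)
    (bd : ∀ z ∈ ball b ρ, ‖Q z - deriv θ z ^ 2‖ ≤ A₂ ∧ ‖3 * deriv θ z * deriv (deriv θ) z‖ ≤ A₃)
    (lp : ∀ z ∈ ball b ρ, ∀ z' ∈ ball b ρ,
      ‖Q z - deriv θ z ^ 2 - (Q z' - deriv θ z' ^ 2)‖ ≤ B₂ * ‖z - z'‖) (B0 : 0 ≤ B₂)
    (h2 : A₂ * ‖s‖ ^ 2 ≤ ε) (h3 : A₃ * ‖s‖ ^ 3 ≤ ε) (hε : ε ≤ 1 / 12) :
    ‖Ph θ h (b, b + s) + Ph θ h (b, b - s)‖ ≤ 24 * (B₂ + A₃) * ‖s‖ ^ 4 := by
  have ρ0 : 0 < ρ := (norm_nonneg _).trans_lt hs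
  have eL : ‖b - (b + s)‖ = ‖s‖ := by simp
  have m1 : ∀ z ∈ segment ℝ (b + s) b, ‖z - b‖ ≤ ‖s‖ := fun z hz => by
    rw [segment_symm] at hz
    simpa using norm_sub_le_of_mem_segment hz
  have m2 : ∀ z ∈ segment ℝ (b + s) b, z ∈ ball b ρ := fun z hz => by
    rw [mem_ball, dist_eq_norm]
    exact (m1 z hz).trans_lt hs
  have m3 : ∀ z ∈ segment ℝ (b + s) b, 2 * b - z ∈ ball b ρ := fun z hz => by
    rw [mem_ball, dist_eq_norm, show 2 * b - z - b = -(z - b) by ring, norm_neg]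
    exact (m1 z hz).trans_lt hs
  have rf : ∀ z : ℂ, HasDerivAt (fun z : ℂ => 2 * b - z) (-1) z := fun z =>
    (hasDerivAt_id' z).const_sub _
  have i1 := ini C (hU (m2 _ (left_mem_segment ℝ _ _)))
  have i2 := ini C (hU (m3 _ (left_mem_segment ℝ _ _)))
  have e : 2 * b - (b + s) = b - s := by ring
  rw [e] at i2
  have := cmp (a := b) (b := b + s) (v := fun z => kk θ h z (b + s) / c)
    (v1 := fun z => k1 θ h z (b + s) / c) (v2 := fun z => k2 θ h z (b + s) / c)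
    (u := fun z => kk θ h (2 * b - z) (b - s) / c)
    (u1 := fun z => -(k1 θ h (2 * b - z) (b - s) / c))
    (u2 := fun z => k2 θ h (2 * b - z) (b - s) / c)
    (P := fun z => Q z - deriv θ z ^ 2) (R := fun z => 3 * deriv θ z * deriv (deriv θ) z)
    (P' := fun z => Q (2 * b - z) - deriv θ (2 * b - z) ^ 2)
    (R' := fun z => -(3 * deriv θ (2 * b - z) * deriv (deriv θ) (2 * b - z)))
    (A₂ := A₂) (A₃ := A₃) (B₂ := B₂ * (2 * ‖s‖)) (B₃ := 2 * A₃) (ε := ε)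
    (fun z hz => (ode C _ (hU (m2 z hz))).1) (fun z hz => (ode C _ (hU (m2 z hz))).2.1)
    (fun z hz => (ode C _ (hU (m2 z hz))).2.2)
    (fun z hz => ((ode C (b - s) (hU (m3 z hz))).1.comp z (rf z)).congr_deriv (by ring))
    (fun z hz => ((ode C (b - s) (hU (m3 z hz))).2.1.comp z (rf z)).neg.congr_deriv (by ring))
    (fun z hz => ((ode C (b - s) (hU (m3 z hz))).2.2.comp z (rf z)).congr_deriv (by ring))
    (fun z hz => bd z (m2 z hz))
    (fun z hz => ⟨(bd _ (m3 z hz)).1, by rw [norm_neg]; exact (bd _ (m3 z hz)).2⟩)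
    (fun z hz => ⟨(lp _ (m2 z hz) _ (m3 z hz)).trans (by
        rw [show z - (2 * b - z) = 2 * (z - b) by ring, norm_mul, Complex.norm_two]
        gcongr
        exact m1 z hz),
      (norm_sub_le _ _).trans (by
        rw [norm_neg]
        linarith [(bd _ (m2 z hz)).2, (bd _ (m3 z hz)).2])⟩)
    i1.1 i1.2.1 i1.2.2 (by simp only [e, i2.1]) (by simp only [e, i2.2.1, neg_zero])
    (by simp only [e, i2.2.2]) (by rwa [eL]) (by rwa [eL]) hε
  rw [eL, show 2 * b - b = b by ring] at this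
  have c0 := C.c0
  rw [← mul_div_assoc, ← mul_div_assoc, div_div_div_cancel_right₀ c0, div_neg,
    div_div_div_cancel_right₀ c0, sub_neg_eq_add] at this
  exact this.trans_eq (by ring)

end B2

open B2

theorem step : Spec_STEP := by
  intro θ h Q c r₀ A V G hA
  obtain ⟨K1, K2⟩ := sk θ h Q c _ V
  have A0 : 0 < A := by linarith
  have bd : ∀ b ∈ St r₀, ∀ D, D = r₀ - |b.im| → ball b (D / 4) ⊆ St r₀ ∧
      (∀ z ∈ ball b (D / 4), ‖Q z - deriv θ z ^ 2‖ ≤ 8 * A ^ 2 / D ^ 2 ∧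
        ‖3 * deriv θ z * deriv (deriv θ) z‖ ≤ 48 * A ^ 2 / D ^ 3) ∧
      ∀ z ∈ ball b (D / 4), ∀ z' ∈ ball b (D / 4), ‖Q z - deriv θ z ^ 2 -
        (Q z' - deriv θ z' ^ 2)‖ ≤ 32 * A ^ 2 / D ^ 3 * ‖z - z'‖ := by
    intro b hb D hD
    have D0 : 0 < D := by rw [hD]; exact sub_pos.2 hb
    have k : ∀ y ∈ ball b (D / 2), y ∈ St r₀ ∧ ‖deriv θ y‖ ≤ 2 * A / D ∧
        ‖Q y - deriv θ y ^ 2‖ ≤ 8 * A ^ 2 / D ^ 2 := by
      intro y hy
      have h1 := Complex.abs_im_le_norm (y - b)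
      rw [mem_ball, dist_eq_norm] at hy
      have h2 := abs_sub_abs_le_abs_sub y.im b.im
      rw [Complex.sub_im] at h1
      have h3 : D / 2 ≤ r₀ - |y.im| := by linarith
      have ys : y ∈ St r₀ := by show |y.im| < r₀; linarith
      obtain ⟨g1, g2⟩ := G y ys
      have g3 : ‖deriv θ y‖ ≤ 2 * A / D := by
        rw [le_div_iff₀ D0]
        nlinarith [mul_le_mul_of_nonneg_left h3 (norm_nonneg (deriv θ y))]
      have g4 : ‖Q y‖ ≤ 4 * A ^ 2 / D ^ 2 := by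
        rw [le_div_iff₀ (by positivity)]
        have := mul_le_mul_of_nonneg_left (pow_le_pow_left₀ (by positivity) h3 2)
          (norm_nonneg (Q y))
        nlinarith
      refine ⟨ys, g3, (norm_sub_le _ _).trans ?_⟩
      rw [norm_pow]
      have a := pow_le_pow_left₀ (norm_nonneg _) g3 2
      have e : 8 * A ^ 2 / D ^ 2 = 4 * A ^ 2 / D ^ 2 + (2 * A / D) ^ 2 := by field_simp; ring
      linarith
    have sb : ∀ z ∈ ball b (D / 4), closedBall z (D / 4) ⊆ ball b (D / 2) := by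
      intro z hz y hy
      rw [mem_closedBall] at hy
      rw [mem_ball] at hz ⊢
      linarith [dist_triangle y z b]
    have s0 : ∀ z ∈ ball b (D / 4), z ∈ ball b (D / 2) := fun z hz =>
      sb z hz (mem_closedBall_self (by positivity))
    have cau : ∀ {f : ℂ → ℂ} {M : ℝ}, DifferentiableOn ℂ f (St r₀) →
        (∀ y ∈ ball b (D / 2), ‖f y‖ ≤ M) → ∀ z ∈ ball b (D / 4), ‖deriv f z‖ ≤ M / (D / 4) := by
      intro f M hf hM z hz
      refine Complex.norm_deriv_le_of_forall_mem_sphere_norm_le (by positivity) ?_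
        fun y hy => hM y (sb z hz (sphere_subset_closedBall hy))
      refine DifferentiableOn.diffContOnCl ?_
      rw [closure_ball _ (by positivity)]
      exact hf.mono fun y hy => (k y (sb z hz hy)).1
    have dg := V.dθ.deriv V.op
    have dP : DifferentiableOn ℂ (fun y => Q y - deriv θ y ^ 2) (St r₀) := V.dQ.sub (dg.pow 2)
    refine ⟨fun z hz => (k z (s0 z hz)).1, fun z hz => ⟨(k z (s0 z hz)).2.2, ?_⟩,
      fun z hz z' hz' => ?_⟩
    · have z1 := (k z (s0 z hz)).2.1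
      have z3 := cau dg (fun y hy => (k y hy).2.1) z hz
      rw [norm_mul, norm_mul]
      have e : 48 * A ^ 2 / D ^ 3 = 3 * (2 * A / D) * (2 * A / D / (D / 4)) := by
        field_simp; ring
      rw [e]
      simp only [Complex.norm_ofNat]
      gcongr
    · have e : 32 * A ^ 2 / D ^ 3 = 8 * A ^ 2 / D ^ 2 / (D / 4) := by field_simp; ring
      rw [e]
      exact (convex_ball b (D / 4)).norm_image_sub_le_of_norm_deriv_le
        (f := fun y => Q y - deriv θ y ^ 2)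
        (fun y hy => dP.differentiableAt (V.op.mem_nhds (k y (s0 y hy)).1))
        (cau dP fun y hy => (k y hy).2.2) hz' hz
  have num : ∀ D L : ℝ, 0 < D → 0 ≤ L → L < 1 / (30 * A) * D → L < D / 4 ∧
      8 * A ^ 2 / D ^ 2 * L ^ 2 ≤ 8 * (A * L / D) ^ 2 ∧
      48 * A ^ 2 / D ^ 3 * L ^ 3 ≤ 8 * (A * L / D) ^ 2 ∧ 8 * (A * L / D) ^ 2 ≤ 1 / 12 := by
    intro D L D0 L0 hL
    obtain ⟨t, ht⟩ : ∃ t, t = L / D := ⟨_, rfl⟩
    have st : L = t * D := by rw [ht]; field_simp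
    have t0 : 0 ≤ t := by rw [ht]; positivity
    have t1 : A * t ≤ 1 / 30 := by
      have : t ≤ 1 / (30 * A) := by rw [ht, div_le_iff₀ D0]; exact hL.le
      rw [le_div_iff₀ (by positivity)] at this
      linarith
    have t2 : t ≤ 1 / 30 := by nlinarith
    have e1 : A * L / D = A * t := by rw [st]; field_simp
    have e2 : 8 * A ^ 2 / D ^ 2 * L ^ 2 = 8 * (A * t) ^ 2 := by rw [st]; field_simp
    have e3 : 48 * A ^ 2 / D ^ 3 * L ^ 3 = 48 * t * (A * t) ^ 2 := by rw [st]; field_simp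
    rw [e1, e2, e3]
    have a0 : 0 ≤ A * t := by positivity
    refine ⟨by nlinarith, le_rfl, by nlinarith [sq_nonneg (A * t)], by nlinarith⟩
  have key : ∀ b ∈ St r₀, ∀ b' : ℂ, ‖b' - b‖ < 1 / (30 * A) * (r₀ - |b.im|) → b' ∈ St r₀ ∧
      ‖Ph θ h (b, b') - (b' - b)‖ ≤ ‖b' - b‖ ^ 3 / (8 * (1 / (30 * A) * (r₀ - |b.im|)) ^ 2) ∧
      (b ≠ b' → k1 θ h b b' ≠ 0) := by
    intro b hb b' hs
    obtain ⟨D, hD⟩ : ∃ D, D = r₀ - |b.im| := ⟨_, rfl⟩
    have D0 : 0 < D := by rw [hD]; exact sub_pos.2 hb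
    rw [← hD] at hs ⊢
    obtain ⟨b1, b2, -⟩ := bd b hb D hD
    obtain ⟨n1, n2, n3, n4⟩ := num D _ D0 (norm_nonneg _) hs
    have m : b' ∈ ball b (D / 4) := by rwa [mem_ball, dist_eq_norm]
    have sb : segment ℝ b' b ⊆ ball b (D / 4) :=
      (convex_ball b _).segment_subset m (mem_ball_self (by positivity))
    obtain ⟨a1, a2⟩ := K2 b b' _ _ _ (sb.trans b1) (fun z hz => b2 z (sb hz))
      (by rw [norm_sub_rev]; exact n2) (by rw [norm_sub_rev]; exact n3) n4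
    refine ⟨b1 m, a1.trans ?_, a2⟩
    rw [le_div_iff₀ (by positivity)]
    have : 12 * (8 * (A * ‖b' - b‖ / D) ^ 2) * ‖b' - b‖ * (8 * (1 / (30 * A) * D) ^ 2) =
        768 / 900 * ‖b' - b‖ ^ 3 := by field_simp; ring
    rw [this]
    nlinarith [pow_nonneg (norm_nonneg (b' - b)) 3]
  refine ⟨⟨fun b hb => ⟨fun b' ne hs => ?_, fun b' hs => (key b hb b' hs).2.1⟩,
    fun b hb s hs => ?_⟩, fun b hb b' ne hs => (key b hb b' hs).2.2 ne.symm⟩
  · obtain ⟨a, -, k⟩ := key b hb b' hs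
    exact (K1 b hb b' a).2.2 (k ne.symm)
  · obtain ⟨D, hD⟩ : ∃ D, D = r₀ - |b.im| := ⟨_, rfl⟩
    have D0 : 0 < D := by rw [hD]; exact sub_pos.2 hb
    rw [← hD] at hs ⊢
    obtain ⟨b1, b2, b3⟩ := bd b hb D hD
    obtain ⟨n1, n2, n3, n4⟩ := num D _ D0 (norm_nonneg _) hs
    refine (even V b1 n1 b2 b3 (by positivity) n2 n3 n4).trans ?_
    rw [show 24 * (32 * A ^ 2 / D ^ 3 + 48 * A ^ 2 / D ^ 3) * ‖s‖ ^ 4 =
      1920 * A ^ 2 * ‖s‖ ^ 4 / D ^ 3 by ring]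
    gcongr
    norm_num

end Vale.Agent.P097E
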