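import Vale.Agent.P097Top.Two
import Vale.Agent.P097N.Slant
import Vale.Agent.P097N.Base

/-!
# P097E: from extensions in the non-real sectors to a cone, with absolute constants
-/

set_option linter.all false

noncomputable section

namespace Vale.Agent.P097E

open Filter Topology Set Metric Complex Vale.Agent.P097N Vale.Agent.P097T.Out.RF2
open Vale.Agent.P097Top.Two

namespace Hull

/-- the maximum principle on a triangle -/
theorem triMax {f : ℂ → ℂ} {e C : ℝ}
    (hd : ∀ w : ℂ, |w.im| ≤ w.re → w.re ≤ e → DifferentiableAt ℂ f w)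
    (hb : ∀ w : ℂ, |w.im| ≤ w.re → w.re ≤ e → (|w.im| = w.re ∨ w.re = e) → ‖f w‖ ≤ C)
    {w : ℂ} (h1 : |w.im| ≤ w.re) (h2 : w.re ≤ e) : ‖f w‖ ≤ C := by
  let U : Set ℂ := {w | |w.im| < w.re ∧ w.re < e}
  have oU : IsOpen U := (isOpen_lt (continuous_abs.comp continuous_im) continuous_re).inter
    (isOpen_lt continuous_re continuous_const)
  have cl : closure U ⊆ {w : ℂ | |w.im| ≤ w.re ∧ w.re ≤ e} :=
    closure_minimal (fun w hw => ⟨hw.1.le, hw.2.le⟩)
      ((isClosed_le (continuous_abs.comp continuous_im) continuous_re).inter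
        (isClosed_le continuous_re continuous_const))
  have out : ∀ w : ℂ, |w.im| ≤ w.re → w.re ≤ e → w ∉ U → ‖f w‖ ≤ C := fun w a b k =>
    hb w a b (by
      by_contra h
      rw [not_or] at h
      exact k ⟨lt_of_le_of_ne a h.1, lt_of_le_of_ne b h.2⟩)
  by_cases hw : w ∈ U
  · refine norm_le_of_forall_mem_frontier_norm_le (U := U) ?_ ?_ (fun z hz => ?_)
      (subset_closure hw)
    · refine (isBounded_closedBall (x := (0 : ℂ)) (r := 2 * e)).subset fun z hz => ?_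
      rw [mem_closedBall_zero_iff]
      linarith [Slant.norm_le_tri hz.1.le, hz.2, (abs_nonneg _).trans_lt hz.1]
    · exact DifferentiableOn.diffContOnCl fun z hz =>
        (hd z (cl hz).1 (cl hz).2).differentiableWithinAt
    · rw [oU.frontier_eq] at hz
      exact out z (cl hz.1).1 (cl hz.1).2 hz.2
  · exact out w h1 h2 hw

/-- a bound on a strip gives a bound of the coefficients -/
theorem co_le {G : ℂ → ℂ} {T s M : ℝ} (s0 : 0 ≤ s) (hs : s < T) (d : DifferentiableOn ℂ G (St T))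
    (p : ∀ z ∈ St T, G (z + 1) = G z) (b : ∀ z ∈ St T, ‖G z‖ ≤ M) (k : ℤ) :
    ‖co G k‖ ≤ M * Real.exp (-(2 * Real.pi * s * |(k : ℝ)|)) := by
  obtain ⟨t, ht, e⟩ : ∃ t : ℝ, |t| = s ∧ -(2 * Real.pi * t * k) = 2 * Real.pi * s * |(k : ℝ)| := by
    rcases le_total 0 (k : ℝ) with h | h
    · exact ⟨-s, by rw [abs_neg, abs_of_nonneg s0], by rw [abs_of_nonneg h]; ring⟩
    · exact ⟨s, abs_of_nonneg s0, by rw [abs_of_nonpos h]; ring⟩
  have h1 := co_shift (G := G) (T := T) (s := t) (ht ▸ hs) d p k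
  have h2 : ‖∫ x in (0 : ℝ)..1, E (-k) x * G (x + t * I)‖ ≤ M * |1 - 0| :=
    intervalIntegral.norm_integral_le_of_norm_le_const fun x _ => by
      rw [norm_mul, E_norm, ofReal_im]
      simp only [mul_zero, neg_zero, Real.exp_zero, one_mul]
      exact b _ (show |(x + t * I : ℂ).im| < T by simpa [ht] using hs)
  rw [h1, norm_mul, norm_real, Real.norm_eq_abs, abs_of_pos (Real.exp_pos _), e] at h2
  rw [Real.exp_neg, ← div_eq_mul_inv, le_div_iff₀ (Real.exp_pos _)]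
  simpa [mul_comm] using h2

end Hull

open Hull

/-- the data: a periodic even function on the collar, with extensions in the sectors -/
structure HD (F : ℂ × ℂ → ℂ) (r₀ K η B : ℝ) : Prop where
  r0 : 0 < r₀
  K0 : 0 < K
  η0 : 0 < η
  B0 : 0 ≤ B
  d : DifferentiableOn ℂ F (St η ×ˢ ball 0 (r₀ / K))
  per : ∀ x ∈ St η, ∀ w ∈ ball (0 : ℂ) (r₀ / K), F (x + 1, w) = F (x, w)
  ev : ∀ x ∈ St η, ∀ w ∈ ball (0 : ℂ) (r₀ / K), F (x, -w) = F (x, w)
  bd : ∀ x ∈ St η, ∀ w ∈ ball (0 : ℂ) (r₀ / K), ‖F (x, w)‖ ≤ B * ‖w‖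
  sec : ∀ w ∈ ball (0 : ℂ) (r₀ / K), ‖w‖ ≤ 2 * |w.im| → ∃ G : ℂ → ℂ,
    DifferentiableOn ℂ G (St (r₀ - K * ‖w‖)) ∧ (∀ x ∈ St η, G x = F (x, w)) ∧
      ∀ x ∈ St (r₀ - K * ‖w‖), ‖G x‖ ≤ B * ‖w‖

namespace HD

variable {F : ℂ × ℂ → ℂ} {r₀ K η B : ℝ} (H : HD F r₀ K η B)
include H

theorem real (x : ℝ) : (x : ℂ) ∈ St η := by simpa [St] using H.η0

theorem mem {w : ℂ} (h : K * ‖w‖ < r₀) : w ∈ ball (0 : ℂ) (r₀ / K) := by
  rwa [mem_ball_zero_iff, lt_div_iff₀' H.K0]

theorem slice {w : ℂ} (hw : w ∈ ball (0 : ℂ) (r₀ / K)) :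
    DifferentiableOn ℂ (fun x => F (x, w)) (St η) := Base.slice H.d fun x hx => ⟨hx, hw⟩

theorem cdiff (n : ℤ) {w : ℂ} (hw : w ∈ ball (0 : ℂ) (r₀ / K)) :
    DifferentiableAt ℂ (fun w => co (fun x => F (x, w)) n) w :=
  par (H := fun q => E (-n) q.1 * F q) fun x _ =>
    ((E_diff _).analyticAt _ |>.comp_of_eq analyticAt_fst rfl).mul
      (P097.Hol.analyticAt_of_differentiableOn ((Base.op η).prod isOpen_ball) H.d ⟨H.real x, hw⟩)

theorem csec (n : ℤ) {w : ℂ} (hw : w ∈ ball (0 : ℂ) (r₀ / K)) (h : ‖w‖ ≤ 2 * |w.im|) {s : ℝ}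
    (s0 : 0 ≤ s) (hs : s < r₀ - K * ‖w‖) :
    ‖co (fun x => F (x, w)) n‖ ≤ B * ‖w‖ * Real.exp (-(2 * Real.pi * s * |(n : ℝ)|)) := by
  obtain ⟨G, d, e, b⟩ := H.sec w hw h
  have : co (fun x => F (x, w)) n = co G n :=
    intervalIntegral.integral_congr fun x _ => by simp only [e x (H.real x)]
  rw [this]
  refine co_le s0 hs d (Base.ident (f := fun z => G (z + 1)) H.η0
    (d.comp (differentiableOn_id.add_const 1) fun z hz => by simpa [St] using hz) d
    fun x _ hx => ?_) b n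
  show G (x + 1) = G x
  rw [e x hx, e _ (by simpa [St] using hx), H.per x hx w hw]

theorem ctri (n : ℤ) {w : ℂ} (h1 : |w.im| ≤ w.re) (h2 : w.re ≤ r₀ / (2 * K)) :
    ‖co (fun x => F (x, w)) n‖ ≤
      B * (r₀ / K) * Real.exp (-(2 * Real.pi * (r₀ - 2 * K * w.re) * |(n : ℝ)|)) := by
  have K0 := H.K0
  have r0 := H.r0
  have m : ∀ w : ℂ, |w.im| ≤ w.re → w.re ≤ r₀ / (2 * K) → 2 * K * w.re ≤ r₀ ∧
      K * ‖w‖ ≤ 3 / 2 * (K * w.re) ∧ w ∈ ball (0 : ℂ) (r₀ / K) := fun w a b => by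
    have a1 : 2 * K * w.re ≤ r₀ := by rwa [le_div_iff₀' (by positivity)] at b
    have a2 : K * ‖w‖ ≤ 3 / 2 * (K * w.re) := by nlinarith [Slant.norm_le_tri a]
    exact ⟨a1, a2, H.mem (by linarith)⟩
  have nx : ∀ w : ℂ, ‖cexp (2 * Real.pi * (r₀ - 2 * K * w) * (|(n : ℝ)| : ℝ))‖ =
      Real.exp (2 * Real.pi * (r₀ - 2 * K * w.re) * |(n : ℝ)|) := fun w => by
    rw [norm_exp]
    congr 1
    simp
  have := triMax (f := fun w => co (fun x => F (x, w)) n *
      cexp (2 * Real.pi * (r₀ - 2 * K * w) * (|(n : ℝ)| : ℝ))) (C := B * (r₀ / K))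
    (fun w a b => (H.cdiff n (m w a b).2.2).mul (by fun_prop)) (fun w a b k => by
      obtain ⟨a1, a2, a3⟩ := m w a b
      have a4 : B * ‖w‖ ≤ B * (r₀ / K) :=
        mul_le_mul_of_nonneg_left (mem_ball_zero_iff.1 a3).le H.B0
      have key : ‖co (fun x => F (x, w)) n‖ ≤
          B * ‖w‖ * Real.exp (-(2 * Real.pi * (r₀ - 2 * K * w.re) * |(n : ℝ)|)) := by
        rcases k with k | k
        · rcases ((abs_nonneg _).trans a).eq_or_lt with z | z
          · have w0 : ‖w‖ = 0 := le_antisymm (by linarith [Slant.norm_le_tri a]) (norm_nonneg _)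
            have := co_le le_rfl H.η0 (H.slice a3) (fun z hz => H.per z hz w a3)
              (fun z hz => H.bd z hz w a3) n
            simpa [w0] using this
          · exact H.csec n a3 (by linarith [Slant.norm_le_tri a]) (by linarith)
              (by nlinarith)
        · rw [show r₀ - 2 * K * w.re = 0 by rw [k]; field_simp; ring]
          exact co_le le_rfl H.η0 (H.slice a3) (fun z hz => H.per z hz w a3)
            (fun z hz => H.bd z hz w a3) n
      rw [norm_mul, nx, ← le_div_iff₀ (Real.exp_pos _), div_eq_mul_inv, ← Real.exp_neg]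
      exact key.trans (mul_le_mul_of_nonneg_right a4 (Real.exp_pos _).le)) h1 h2
  rwa [norm_mul, nx, ← le_div_iff₀ (Real.exp_pos _), div_eq_mul_inv, ← Real.exp_neg] at this

theorem call (n : ℤ) {w : ℂ} {s : ℝ} (s0 : 0 ≤ s) (hs : s < r₀ - 2 * K * ‖w‖) :
    ‖co (fun x => F (x, w)) n‖ ≤ B * (r₀ / K) * Real.exp (-(2 * Real.pi * s * |(n : ℝ)|)) := by
  have K0 := H.K0
  have k0 : 0 ≤ K * ‖w‖ := by positivity
  have hw := H.mem (w := w) (by linarith)
  have tri : ∀ w : ℂ, s < r₀ - 2 * K * ‖w‖ → |w.im| ≤ w.re → ‖co (fun x => F (x, w)) n‖ ≤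
      B * (r₀ / K) * Real.exp (-(2 * Real.pi * s * |(n : ℝ)|)) := fun w hs a => by
    have a1 : K * w.re ≤ K * ‖w‖ := mul_le_mul_of_nonneg_left (re_le_norm w) K0.le
    refine (H.ctri n a (by rw [le_div_iff₀' (by positivity)]; linarith)).trans ?_
    have := H.B0
    have := H.r0
    gcongr
    linarith
  by_cases a : |w.im| ≤ w.re
  · exact tri w hs a
  by_cases b : |w.im| ≤ -w.re
  · have := tri (-w) (by rwa [norm_neg]) (by rwa [neg_im, abs_neg, neg_re])
    rwa [show co (fun x => F (x, -w)) n = co (fun x => F (x, w)) n from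
      intervalIntegral.integral_congr fun x _ => by simp only [H.ev x (H.real x) w hw]] at this
  · refine (H.csec n hw ?_ s0 (by linarith)).trans (mul_le_mul_of_nonneg_right
      (mul_le_mul_of_nonneg_left (mem_ball_zero_iff.1 hw).le H.B0) (Real.exp_pos _).le)
    have := norm_le_abs_re_add_abs_im w
    have : |w.re| ≤ |w.im| := abs_le.2 ⟨by linarith [not_le.1 b], (not_le.1 a).le⟩
    linarith

/-- the extension -/
theorem ext : ∃ G : ℂ × ℂ → ℂ,
    (∀ p : ℂ × ℂ, |p.1.im| < r₀ - 2 * K * ‖p.2‖ → DifferentiableAt ℂ G p) ∧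
    (∀ p : ℂ × ℂ, G (p.1 + 1, p.2) = G p) ∧
    ∀ p : ℂ × ℂ, |p.1.im| < r₀ - 2 * K * ‖p.2‖ → |p.1.im| < η → G p = F p := by
  have K0 := H.K0
  have mm : ∀ {w : ℂ} {t : ℝ}, 0 ≤ t → t < r₀ - 2 * K * ‖w‖ → w ∈ ball (0 : ℂ) (r₀ / K) :=
    fun {w t} a b => H.mem (by linarith [mul_nonneg K0.le (norm_nonneg w)])
  let G : ℂ × ℂ → ℂ := fun q => ∑' n : ℤ, co (fun x => F (x, q.2)) n * E n q.1
  have dG : ∀ p : ℂ × ℂ, |p.1.im| < r₀ - 2 * K * ‖p.2‖ → DifferentiableAt ℂ G p := by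
    intro p hp
    obtain ⟨γ, γ0, hγ⟩ : ∃ γ, 0 < γ ∧ |p.1.im| + γ < r₀ - 2 * K * ‖p.2‖ :=
      ⟨(r₀ - 2 * K * ‖p.2‖ - |p.1.im|) / 2, by linarith, by linarith⟩
    have oU : IsOpen {q : ℂ × ℂ | |q.1.im| + γ < r₀ - 2 * K * ‖q.2‖} :=
      isOpen_lt (by fun_prop) (by fun_prop)
    refine (diff_tsum (f := fun n q => co (fun x => F (x, q.2)) n * E n q.1) oU
      (sumz (κ := 2 * Real.pi * γ) (by positivity) (B * (r₀ / K)))
      (fun n q k => (((H.cdiff n (mm (by positivity) k)).comp q differentiableAt_snd).mul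
        ((E_diff n _).comp q differentiableAt_fst)).differentiableWithinAt)
      fun n q k => ?_).differentiableAt (oU.mem_nhds hγ)
    rw [norm_mul, E_norm]
    refine (mul_le_mul_of_nonneg_right (H.call n (by positivity) k) (Real.exp_pos _).le).trans ?_
    rw [mul_assoc, ← Real.exp_add]
    have := H.B0
    have := H.r0
    gcongr
    have a := neg_abs_le ((n : ℝ) * q.1.im)
    rw [abs_mul] at a
    nlinarith [mul_le_mul_of_nonneg_left a Real.pi_pos.le]
  refine ⟨G, dG, fun p => by simp only [G, E_per], fun p hp hp' => ?_⟩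
  have hw := mm (abs_nonneg _) hp
  have ρ0 : 0 < r₀ - 2 * K * ‖p.2‖ := (abs_nonneg _).trans_lt hp
  refine P097.H500.strip_eq (lt_min ρ0 H.η0) (f := fun x => G (x, p.2)) (g := fun x => F (x, p.2))
    (fun x hx => (DifferentiableAt.comp (g := G) (f := fun x : ℂ => (x, p.2)) x
      (dG (x, p.2) (lt_of_lt_of_le hx (min_le_left _ _))) (by fun_prop)).differentiableWithinAt)
    ((H.slice hw).mono (Base.mono (min_le_right _ _))) (fun x => ?_) p.1 (lt_min hp hp')
  refine inversion (H := fun x => F (x, p.2))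
    ((H.slice hw).continuousOn.comp_continuous continuous_ofReal H.real)
    (fun x => H.per x (H.real x) _ hw) ?_ x
  exact .of_norm_bounded (sumz (κ := 2 * Real.pi * ((r₀ - 2 * K * ‖p.2‖) / 2)) (by positivity)
    (B * (r₀ / K))) fun n => H.call n (by positivity) (by linarith)

end HD

/-- the extension to the cone, with the quadratic bound -/
theorem hull {F : ℂ × ℂ → ℂ} {r₀ K η B : ℝ} (H : HD F r₀ K η B) : ∃ G : ℂ × ℂ → ℂ,
    DifferentiableOn ℂ G (Om r₀ (1 / (8 * K))) ∧ (∀ p : ℂ × ℂ, G (p.1 + 1, p.2) = G p) ∧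
    ∀ p ∈ Om r₀ (1 / (8 * K)), G (p.1, -p.2) = G p ∧ (|p.1.im| < η → G p = F p) ∧
      ‖G p‖ ≤ 16 * B * K * ‖p.2‖ ^ 2 / (r₀ - |p.1.im|) := by
  obtain ⟨G, dG, pG, eG⟩ := H.ext
  have K0 := H.K0
  have B0 := H.B0
  have om : ∀ p : ℂ × ℂ, p ∈ Om r₀ (1 / (8 * K)) ↔ 8 * K * ‖p.2‖ < r₀ - |p.1.im| := fun p => by
    show ‖p.2‖ < 1 / (8 * K) * _ ↔ _
    rw [one_div_mul_eq_div, lt_div_iff₀' (by positivity)]
  have mm : ∀ {x w : ℂ}, |x.im| < r₀ - 2 * K * ‖w‖ → w ∈ ball (0 : ℂ) (r₀ / K) :=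
    fun {x w} b => H.mem (by linarith [mul_nonneg K0.le (norm_nonneg w), abs_nonneg x.im])
  have sl : ∀ w : ℂ, DifferentiableOn ℂ (fun x => G (x, w)) (St (r₀ - 2 * K * ‖w‖)) :=
    fun w x hx => ((dG (x, w) hx).comp x (by fun_prop)).differentiableWithinAt
  have ev : ∀ x w : ℂ, |x.im| < r₀ - 2 * K * ‖w‖ → G (x, -w) = G (x, w) := fun x w hx =>
    Base.ident (f := fun x => G (x, -w)) (g := fun x => G (x, w)) H.η0
      (by simpa only [norm_neg] using sl (-w)) (sl w) (fun y a b => by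
        show G (y, -w) = G (y, w)
        rw [eG (y, -w) (by rw [norm_neg]; exact a) b, eG (y, w) a b, H.ev y b w (mm a)]) hx
  have sec : ∀ x w : ℂ, |x.im| < r₀ - 2 * K * ‖w‖ → ‖w‖ ≤ 2 * |w.im| → ‖G (x, w)‖ ≤ B * ‖w‖ := by
    intro x w hx h
    obtain ⟨g, d, e, b⟩ := H.sec w (mm hx) h
    have sb : St (r₀ - 2 * K * ‖w‖) ⊆ St (r₀ - K * ‖w‖) :=
      Base.mono (by linarith [mul_nonneg K0.le (norm_nonneg w)])
    rw [show G (x, w) = g x from Base.ident (f := fun x => G (x, w)) H.η0 (sl w) (d.mono sb)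
      (fun y a b => (eG (y, w) a b).trans (e y b).symm) hx]
    exact b x (sb hx)
  have tri : ∀ x w : ℂ, 8 * K * ‖w‖ < r₀ - |x.im| → |w.im| ≤ w.re → w ≠ 0 →
      ‖G (x, w)‖ ≤ 2 * B * ‖w‖ := by
    intro x w hx a w0
    have n0 : 0 < ‖w‖ := norm_pos_iff.2 w0
    obtain ⟨σ, hσ, e⟩ : ∃ σ : ℝ, |σ| = 1 ∧ x.im = σ * |x.im| := by
      rcases le_total 0 x.im with h | h
      · exact ⟨1, abs_one, by rw [abs_of_nonneg h, one_mul]⟩
      · exact ⟨-1, by simp, by rw [abs_of_nonpos h]; ring⟩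
    have a1 : K * w.re ≤ K * ‖w‖ := mul_le_mul_of_nonneg_left (re_le_norm w) K0.le
    have im : ∀ u : ℂ, u.re ≤ w.re + |x.im| / (4 * K) →
        |(x - I * (σ * (4 * K)) * (u - w)).im| = |x.im| - 4 * K * (u.re - w.re) := fun u b => by
      have b1 : 4 * K * (u.re - w.re) ≤ |x.im| := by
        rw [← le_div_iff₀' (by positivity)]
        linarith
      rw [show (x - I * (σ * (4 * K)) * (u - w)).im = σ * (|x.im| - 4 * K * (u.re - w.re)) by
        rw [mul_sub σ, ← e]; simp; ring, abs_mul, hσ, one_mul, abs_of_nonneg (by linarith)]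
    have dm : ∀ u : ℂ, |u.im| ≤ u.re → u.re ≤ w.re + |x.im| / (4 * K) →
        |(x - I * (σ * (4 * K)) * (u - w)).im| < r₀ - 2 * K * ‖u‖ := fun u a b => by
      rw [im u b]
      have u0 : 0 ≤ K * u.re := mul_nonneg K0.le ((abs_nonneg _).trans a)
      nlinarith [mul_le_mul_of_nonneg_left (Slant.norm_le_tri a) K0.le, mul_pos K0 n0]
    have ne : ∀ u : ℂ, |u.im| ≤ u.re → u + (‖w‖ : ℝ) ≠ 0 := fun u a h => by
      have := congrArg re h
      simp only [add_re, ofReal_re, zero_re] at this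
      linarith [abs_nonneg u.im]
    have := triMax (f := fun u => G (x - I * (σ * (4 * K)) * (u - w), u) / (u + (‖w‖ : ℝ)))
      (e := w.re + |x.im| / (4 * K)) (C := B)
      (fun u a b => (DifferentiableAt.comp (g := G)
        (f := fun u : ℂ => (x - I * (σ * (4 * K)) * (u - w), u)) u (dG (_, u) (dm u a b))
          (by fun_prop)).div (by fun_prop) (ne u a))
      (fun u a b k => by
        rw [norm_div, div_le_iff₀ (norm_pos_iff.2 (ne u a))]
        refine le_trans ?_ (mul_le_mul_of_nonneg_left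
          (Slant.norm_le_add ((abs_nonneg _).trans a) n0.le) B0)
        rcases k with k | k
        · exact sec _ u (dm u a b) (by linarith [Slant.norm_le_tri a, abs_nonneg u.im])
        · have z : |(x - I * (σ * (4 * K)) * (u - w)).im| < η := by
            rw [im u b, k, add_sub_cancel_left, mul_div_cancel₀ _ (by positivity), sub_self]
            exact H.η0
          rw [eG (_, u) (dm u a b) z]
          exact H.bd _ z u (mm (dm u a b))) a (le_add_of_nonneg_right (by positivity))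
    rw [sub_self, mul_zero, sub_zero, norm_div, div_le_iff₀ (norm_pos_iff.2 (ne w a))] at this
    have b := norm_add_le w (‖w‖ : ℝ)
    rw [norm_real, norm_norm] at b
    nlinarith
  have all : ∀ x w : ℂ, 8 * K * ‖w‖ < r₀ - |x.im| → ‖G (x, w)‖ ≤ 2 * B * ‖w‖ := by
    intro x w hx
    have k0 : 0 ≤ K * ‖w‖ := by positivity
    by_cases s : ‖w‖ ≤ 2 * |w.im|
    · exact (sec x w (by linarith) s).trans (by nlinarith [norm_nonneg w])
    have w0 : w ≠ 0 := fun e => s (by simp [e])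
    have := norm_le_abs_re_add_abs_im w
    rcases le_total 0 w.re with h | h
    · rw [abs_of_nonneg h] at this
      exact tri x w hx (by linarith [not_le.1 s]) w0
    · rw [abs_of_nonpos h] at this
      have := tri x (-w) (by rwa [norm_neg])
        (by rw [neg_im, abs_neg, neg_re]; linarith [not_le.1 s]) (neg_ne_zero.2 w0)
      rwa [ev x w (by linarith), norm_neg] at this
  have in1 : ∀ p : ℂ × ℂ, 8 * K * ‖p.2‖ < r₀ - |p.1.im| → |p.1.im| < r₀ - 2 * K * ‖p.2‖ :=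
    fun p h => by linarith [mul_nonneg K0.le (norm_nonneg p.2)]
  refine ⟨G, fun p hp => (dG p (in1 p ((om p).1 hp))).differentiableWithinAt, pG, fun p hp => ?_⟩
  have h1 := (om p).1 hp
  refine ⟨ev p.1 p.2 (in1 p h1), eG p (in1 p h1), ?_⟩
  set D := r₀ - |p.1.im| with hD
  have D0 : 0 < D := lt_of_le_of_lt (by positivity) h1
  have mb : ∀ u : ℂ, u ∈ ball (0 : ℂ) (D / (8 * K)) ↔ 8 * K * ‖u‖ < D := fun u => by
    rw [mem_ball_zero_iff, lt_div_iff₀' (by positivity)]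
  have := Slant.even_sq (g := fun u => G (p.1, u)) (R := D / (8 * K)) (A := 2 * B * (D / (8 * K)))
    (fun u hu => ((dG (p.1, u) (in1 (p.1, u) ((mb u).1 hu))).comp u
      (by fun_prop)).differentiableWithinAt)
    (by simpa using all p.1 0 (by rw [norm_zero, mul_zero]; exact D0))
    (fun u hu => ev p.1 u (in1 (p.1, u) ((mb u).1 hu)))
    (fun u hu => (all p.1 u ((mb u).1 hu)).trans
      (mul_le_mul_of_nonneg_left (mem_ball_zero_iff.1 hu).le (by positivity))) ((mb _).2 h1)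
  exact this.trans_eq (by field_simp; ring)

end Vale.Agent.P097E
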