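import Vale.Agent.P097E.B2
import Vale.Agent.P097E.Hull
import Vale.Agent.P097N.Bl
import Vale.Agent.P097N.Col

/-!
# P097E: the baseline in a window, with absolute constants
-/

set_option linter.all false

noncomputable section

namespace Vale.Agent.P097E

open Filter Topology Set Metric Vale.Agent.P097N Vale.Agent.P097N.BlR

/-- the uniform baseline -/
def Spec_UB : Prop := ∃ c C : ℝ, 0 < c ∧ c ≤ 1 / 100 ∧ 1 ≤ C ∧
  ∀ (θ h : ℂ → ℂ) (Y : ℂ × ℂ → ℂ) (η ε M : ℝ), Col Y η ε M →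
    (∀ x ∈ St η, ∀ w ∈ ball (0 : ℂ) ε, Y (x + 1, w) = Y (x, w) + 1) →
    (∀ x ∈ St η, ∀ w ∈ ball (0 : ℂ) ε, x - w ∈ St η → x + w ∈ St η →
      EE θ h (Y (x - w, w)) (Y (x, w)) (Y (x + w, w)) = 0) →
    ∃ A₀ : ℝ, 1 ≤ A₀ ∧ ∀ (Q : ℂ → ℂ) (c₀ : ℂ) (r₀ A : ℝ), 1 ≤ r₀ → 2 * η ≤ r₀ → A₀ * r₀ ≤ A →
      Cv θ h Q c₀ (St r₀) → GrA θ Q r₀ A → ∃ Z : ℂ × ℂ → ℂ, Bl Z r₀ (c / A) (C * A ^ 2) ∧
        (∀ p : ℂ × ℂ, Z (p.1 + 1, p.2) = Z p + 1) ∧
        (∀ p ∈ Om r₀ (c / A), |p.1.im| < η / 2 → Z p = Y p) ∧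
        ∀ x w : ℂ, (x - w, w) ∈ Om r₀ (c / A) → (x, w) ∈ Om r₀ (c / A) →
          (x + w, w) ∈ Om r₀ (c / A) → EE θ h (Z (x - w, w)) (Z (x, w)) (Z (x + w, w)) = 0

/-- the law passes from the collar to the cone -/
theorem law_cone {θ h Q : ℂ → ℂ} {c₀ : ℂ} {Y Z : ℂ × ℂ → ℂ} {r₀ c C η ε : ℝ}
    (cv : Cv θ h Q c₀ (St r₀)) (B : Bl Z r₀ c C) (η0 : 0 < η) (h1 : c * r₀ ≤ η / 4)
    (h2 : c * r₀ ≤ ε) (zy : ∀ p ∈ Om r₀ c, |p.1.im| < η / 2 → Z p = Y p)
    (law : ∀ x ∈ St η, ∀ w ∈ ball (0 : ℂ) ε, x - w ∈ St η → x + w ∈ St η →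
      EE θ h (Y (x - w, w)) (Y (x, w)) (Y (x + w, w)) = 0) {x w : ℂ}
    (hm : (x - w, w) ∈ Om r₀ c) (hx : (x, w) ∈ Om r₀ c) (hp : (x + w, w) ∈ Om r₀ c) :
    EE θ h (Z (x - w, w)) (Z (x, w)) (Z (x + w, w)) = 0 := by
  have c2 := B.hc
  have om : ∀ y : ℂ, (y, w) ∈ Om r₀ c ↔ |y.im| < r₀ - ‖w‖ / c := fun y => by
    show ‖w‖ < c * (r₀ - |y.im|) ↔ _
    rw [← div_lt_iff₀' c2]
    constructor <;> intro k <;> linarith
  set ρ := r₀ - ‖w‖ / c - |w.im| with hρ
  have xS : x ∈ St ρ := by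
    have h1 := (om _).1 hm
    have h2 := (om _).1 hp
    show |x.im| < ρ
    rw [Complex.sub_im, abs_lt] at h1
    rw [Complex.add_im, abs_lt] at h2
    rw [hρ]
    rcases abs_cases x.im with k | k <;> rcases abs_cases w.im with l | l <;> linarith
  have inS : ∀ y ∈ St ρ, (y - w, w) ∈ Om r₀ c ∧ (y, w) ∈ Om r₀ c ∧ (y + w, w) ∈ Om r₀ c :=
    fun y hy => by
      have h1 : |y.im| < ρ := hy
      have h2 := abs_nonneg w.im
      have h3 := abs_sub y.im w.im
      have h4 := abs_add_le y.im w.im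
      rw [om, om, om, Complex.sub_im, Complex.add_im]
      exact ⟨by linarith, by linarith, by linarith⟩
  have D : DifferentiableOn ℂ (fun y => EE θ h (Z (y - w, w)) (Z (y, w)) (Z (y + w, w))) (St ρ) :=
    ee_diff sk cv
      (B.d.comp (f := fun y : ℂ => (y - w, w)) (by fun_prop) fun y hy => (inS y hy).1)
      (B.d.comp (f := fun y : ℂ => (y, w)) (by fun_prop) fun y hy => (inS y hy).2.1)
      (B.d.comp (f := fun y : ℂ => (y + w, w)) (by fun_prop) fun y hy => (inS y hy).2.2)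
      fun y hy => ⟨bl_mem B (inS y hy).1, bl_mem B (inS y hy).2.1, bl_mem B (inS y hy).2.2⟩
  have ρ0 : 0 < ρ := (abs_nonneg _).trans_lt xS
  have zS : (0 : ℂ) ∈ St ρ := by simpa [St] using ρ0
  have hw : ‖w‖ < c * r₀ := by
    have h1 : ‖w‖ < c * (r₀ - |x.im|) := hx
    have h2 := mul_nonneg c2.le (abs_nonneg x.im)
    linarith
  refine (D.analyticOnNhd (st_open ρ)).eqOn_zero_of_preconnected_of_eventuallyEq_zero
    (st_convex ρ).isPreconnected zS ?_ xS
  have z2 : (0 : ℂ) ∈ St (η / 4) := by simpa [St] using η0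
  filter_upwards [(st_open ρ).mem_nhds zS, (st_open _).mem_nhds z2] with y hy hy'
  obtain ⟨o1, o2, o3⟩ := inS y hy
  have k1 : |y.im| < η / 4 := hy'
  have k2 := Complex.abs_im_le_norm w
  have k3 : |(y - w).im| < η / 2 := by
    have := abs_sub y.im w.im
    rw [Complex.sub_im]
    linarith
  have k4 : |(y + w).im| < η / 2 := by
    have := abs_add_le y.im w.im
    rw [Complex.add_im]
    linarith
  have k5 : |y.im| < η / 2 := by linarith
  show EE θ h (Z (y - w, w)) (Z (y, w)) (Z (y + w, w)) = 0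
  rw [zy _ o1 k3, zy _ o2 k5, zy _ o3 k4]
  exact law y (show |y.im| < η by linarith) w (by simpa using hw.trans_le h2)
    (show |(y - w).im| < η by linarith) (show |(y + w).im| < η by linarith)

theorem ub : Spec_UB := by
  obtain ⟨c, C, c0, c1, C1, cC, hb⟩ := b2
  refine ⟨c / 8, 16 * C, by positivity, by linarith, by linarith, ?_⟩
  intro θ h Y η ε M col per law
  have η0 := col.hη
  have ε0 := col.hε
  obtain ⟨C₀, C0, hC⟩ := scol Y η ε M col
  have p1 : 0 < 1 / ε := by positivity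
  have p2 : 0 < 4 / η := by positivity
  refine ⟨1 + 1 / ε + 4 / η + C₀, by linarith, fun Q c₀ r₀ A r1 hη hA cv G => ?_⟩
  have a0 : r₀ ≤ A := by nlinarith
  have A0 : 0 < A := by linarith
  have a1 : C₀ * r₀ ≤ A := by nlinarith
  have a2 : C₀ * r₀ ≤ A ^ 2 := by nlinarith
  have a3 : C₀ * r₀ ^ 2 ≤ A ^ 2 := by nlinarith
  have e0 : r₀ / (A / c) = c * (r₀ / A) := by field_simp
  have q0 : 0 < r₀ / A := by positivity
  have q1 : r₀ / A ≤ ε := by
    rw [div_le_iff₀ A0]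
    have : 1 / ε * r₀ ≤ A := by nlinarith
    rwa [one_div_mul_eq_div, div_le_iff₀' ε0] at this
  have q2 : r₀ / A ≤ η / 4 := by
    rw [div_le_iff₀ A0]
    have : 4 / η * r₀ ≤ A := by nlinarith
    rw [div_mul_eq_mul_div, div_le_iff₀' η0] at this
    linarith
  have b1 : ∀ w ∈ ball (0 : ℂ) (r₀ / (A / c)), ‖w‖ < c * (r₀ / A) ∧ w ∈ ball (0 : ℂ) ε :=
    fun w hw => by
      rw [mem_ball_zero_iff, e0] at hw
      exact ⟨hw, mem_ball_zero_iff.2 (by nlinarith)⟩
  have sb : St (η / 2) ⊆ St η := st_mono (by linarith)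
  have H : HD (fun p => Y p - p.1) r₀ (A / c) (η / 2) (C * c * A) := by
    refine ⟨by linarith, by positivity, by positivity, by positivity,
      (col.d.mono (prod_mono sb fun w hw => (b1 w hw).2)).sub differentiableOn_fst,
      fun x hx w hw => ?_, fun x hx w hw => ?_, fun x hx w hw => ?_, fun w hw s => ?_⟩
    · simp only [per x (sb hx) w (b1 w hw).2]
      ring
    · simp only [col.ev x (sb hx) w (b1 w hw).2]
    · refine ((hC w (b1 w hw).2).1 x (sb hx)).trans ?_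
      rw [sq, ← mul_assoc]
      refine mul_le_mul_of_nonneg_right ?_ (norm_nonneg _)
      have k1 : C₀ * (r₀ / A) ≤ 1 := by rw [← mul_div_assoc, div_le_one A0]; exact a1
      have k2 := mul_le_mul_of_nonneg_left (b1 w hw).1.le C0
      have k3 : 1 ≤ C * A := by nlinarith
      nlinarith
    · by_cases w0 : w = 0
      · subst w0
        exact ⟨fun _ => 0, differentiableOn_const _,
          fun x hx => by simp [col.zero x (sb hx)], fun x _ => by simp⟩
      obtain ⟨k1, k2⟩ := b1 w hw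
      obtain ⟨z, dz, ez, bz⟩ := hb θ h Q c₀ r₀ A (η / 2) C₀ w (fun x => Y (x, w)) cv G
        (by linarith) (by linarith) (by linarith) a2 a3 w0 s (by nlinarith)
        (Base.slice col.d fun x hx => ⟨sb hx, k2⟩) (fun x hx => (hC w k2).1 x (sb hx)) (hC w k2).2
        fun x a b => law x (by
          have a1 := abs_lt.1 (show |(x - w).im| < η / 2 from a)
          have a2 := abs_lt.1 (show |(x + w).im| < η / 2 from b)
          rw [Complex.sub_im] at a1
          rw [Complex.add_im] at a2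
          show |x.im| < η
          rw [abs_lt]
          constructor <;> linarith [a1.1, a2.1, a1.2, a2.2]) w k2 (sb a) (sb b)
      rw [show A * ‖w‖ / c = A / c * ‖w‖ by ring] at dz bz
      refine ⟨fun x => z x - x, dz.sub differentiableOn_id, fun x hx => by simp only [ez hx],
        fun x hx => (bz x hx).trans ?_⟩
      have k3 : A / c * ‖w‖ < r₀ - |x.im| := by linarith [show |x.im| < _ from hx]
      rw [div_le_iff₀ (lt_of_le_of_lt (by positivity) k3)]
      calc C * A ^ 2 * ‖w‖ ^ 2 = C * c * A * ‖w‖ * (A / c * ‖w‖) := by field_simp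
        _ ≤ _ := by gcongr
  obtain ⟨G', dG, pG, hG⟩ := hull H
  rw [show 1 / (8 * (A / c)) = c / 8 / A by field_simp] at dG hG
  have B : Bl (fun p => G' p + p.1) r₀ (c / 8 / A) (16 * C * A ^ 2) := by
    refine ⟨by positivity, by positivity, dG.add differentiableOn_fst,
      fun p hp => by simp only [(hG p hp).1], fun p hp => ?_, ?_⟩
    · rw [add_sub_cancel_right]
      exact (hG p hp).2.2.trans_eq (by field_simp)
    · rw [show 16 * C * A ^ 2 * (c / 8 / A) ^ 2 = C * c ^ 2 / 4 by field_simp; ring]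
      linarith
  have zy : ∀ p ∈ Om r₀ (c / 8 / A), |p.1.im| < η / 2 → G' p + p.1 = Y p := fun p hp k => by
    rw [(hG p hp).2.1 k, sub_add_cancel]
  have e1 : c / 8 / A * r₀ = c / 8 * (r₀ / A) := by ring
  exact ⟨_, B, fun p => by simp only [pG]; ring, zy, fun x w => law_cone cv B η0
    (by rw [e1]; nlinarith) (by rw [e1]; nlinarith) zy law⟩

end Vale.Agent.P097E
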