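import Mathlib

/-!
# P097E: blocks B4, B5, B6 in a normalised window (definitions and statements)

Window coordinate `X`, step `ε W`, `ζ = W exp (-i X)`. A state is a pair (vertex, half angle).
-/

set_option linter.all false

noncomputable section

namespace Vale.Agent.P097E

open Filter Topology Set Metric Complex

/-- the chord relation between the states `z` and `z'` -/
def Stp (θ H : ℂ → ℂ) (z z' : ℂ × ℂ) : Prop :=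
  θ z.1 + z.2 = θ z'.1 - z'.2 ∧
    H z.1 * cos z.2 + deriv H z.1 / deriv θ z.1 * sin z.2 =
      H z'.1 * cos z'.2 - deriv H z'.1 / deriv θ z'.1 * sin z'.2

/-- the normalised window -/
structure Win (θ H : ℂ → ℂ) (ε R η : ℝ) : Prop where
  e0 : 0 < ε
  dθ : DifferentiableOn ℂ θ (ball 0 R)
  dH : DifferentiableOn ℂ H (ball 0 R)
  laz : ∃ c : ℂ, c ≠ 0 ∧ ∀ y ∈ ball (0 : ℂ) R, deriv (deriv H) y * deriv θ y -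
    deriv H y * deriv (deriv θ) y + H y * deriv θ y ^ 3 = c
  wv : ∀ y ∈ ball (0 : ℂ) R, ‖ε * deriv θ y * exp (y * I) - 1‖ ≤ η

/-- the model variable -/
def ze (q : ℂ × ℂ) : ℂ := q.2 * exp (-(q.1 * I))

/-- the low part of the window -/
def Low (R L : ℝ) : Set (ℂ × ℂ) := {q | ‖q.1‖ < R ∧ q.1.im < -L ∧ ‖q.2‖ < 2}

/-- the baseline in the window -/
structure Bas (θ H : ℂ → ℂ) (ε R L M : ℝ) (Z : ℂ × ℂ → ℂ × ℂ) : Prop where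
  L3 : 3 ≤ L
  M0 : 0 ≤ M
  ML : M ≤ L
  an : ∀ q ∈ Low R L, AnalyticAt ℂ Z q
  bY : ∀ q ∈ Low R L, ‖(Z q).1 - q.1‖ ≤ M / (-q.1.im)
  bD : ∀ q ∈ Low R L, ‖2 * (Z q).2 - ε * q.2 * deriv θ (Z q).1‖ ≤
    M / (-q.1.im) * ‖ε * q.2 * deriv θ (Z q).1‖
  sm : ∀ q ∈ Low R L, ‖(Z q).2‖ ≤ 1
  ev : ∀ q ∈ Low R L, Z (q.1, -q.2) = ((Z q).1, -(Z q).2)
  stp : ∀ q ∈ Low R L, (q.1 + ε * q.2, q.2) ∈ Low R L → Stp θ H (Z q) (Z (q.1 + ε * q.2, q.2))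

/-- what the last blocks use of the limit model -/
structure Mdl (sg Zm : ℂ → ℂ) (zs : ℝ) : Prop where
  pos : 0 < zs
  an : ∀ d : ℂ, |d.re| ≤ Real.pi → AnalyticAt ℂ sg d ∧ AnalyticAt ℂ Zm d
  odd : ∀ d : ℂ, |d.re| ≤ Real.pi → sg (-d) = -sg d ∧ Zm (-d) = -Zm d
  cube : sg Real.pi ^ 3 = 24 * Real.pi
  fold : ∀ e : ℝ, 0 < e → ∃ b : ℝ, 0 < b ∧ ∀ d : ℂ, |d.re| ≤ Real.pi → ‖Zm d - zs‖ < b →
    ‖d - Real.pi‖ < e ∧ ‖1 + cos d - sg Real.pi ^ 2 / (4 * zs) * (zs - Zm d)‖ ≤ e * ‖zs - Zm d‖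

/-- admissible values of `ζ`: below the level of the sources, or in a gap next to a source -/
def Adm (zs β : ℝ) : Set ℂ := {ζ | ∃ l : ℂ, (ζ = zs * exp l ∨ ζ = -(zs * exp l)) ∧
  (l.re ≤ -β ∨ (l.re ≤ 11 * β ∧ 40 * β ≤ |l.im| ∧ |l.im| ≤ 1))}

/-- the state `z` at `q` is close to the model -/
def Cls (sg Zm : ℂ → ℂ) (η B : ℝ) (q z : ℂ × ℂ) : Prop :=
  |z.2.re| ≤ Real.pi ∧ ‖z.1 - q.1‖ ≤ B ∧ ‖Zm z.2 - ze q‖ ≤ η ∧ ‖sg z.2 - ze (z.1, q.2)‖ ≤ η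

/-- shadowing along non-real directions -/
def SH (sg Zm : ℂ → ℂ) (zs : ℝ) : Prop := ∀ β κ η R₀ L M : ℝ, 0 < β → β ≤ 1 / 300 → 0 < κ →
  0 < η → ∃ B R ε₀ η₀ : ℝ, 0 < ε₀ ∧ 0 < η₀ ∧ ∀ (θ H : ℂ → ℂ) (ε : ℝ) (Z : ℂ × ℂ → ℂ × ℂ),
    Win θ H ε R η₀ → ε < ε₀ → Bas θ H ε R L M Z → ∃ Zp : ℂ × ℂ → ℂ × ℂ, ∀ q : ℂ × ℂ,
      ‖q.1‖ ≤ R₀ → κ ≤ q.2.im → ‖q.2‖ ≤ 3 / 2 →
      (∀ t : ℝ, 0 ≤ t → ze (q.1 - t * q.2, q.2) ∈ Adm zs β) →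
      AnalyticAt ℂ Zp q ∧ Cls sg Zm η B q (Zp q) ∧ (q.1.im < -L → Zp =ᶠ[𝓝 q] Z)

/-- the output of block B4 -/
def Spec_B4 : Prop := ∃ (sg Zm : ℂ → ℂ) (zs : ℝ), Mdl sg Zm zs ∧ SH sg Zm zs

/-- the step near the half angle `π` -/
def Spec_CS : Prop := ∃ C : ℝ, 0 ≤ C ∧ ∀ τ : ℝ, 0 < τ → ∃ ρ r : ℝ, 0 < ρ ∧ ρ ≤ 1 ∧ 0 < r ∧ r ≤ 1 ∧
  ∃ ε₀ η₀ : ℝ, 0 < ε₀ ∧ 0 < η₀ ∧ ∀ (θ H : ℂ → ℂ) (ε R : ℝ) (y₀ : ℂ), Win θ H ε R η₀ → ε < ε₀ →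
    ‖y₀‖ + 3 ≤ R → |y₀.im| ≤ 2 → ∀ y ∈ ball y₀ ρ, ∀ y' ∈ ball y₀ ρ,
      ∀ d ∈ ball (Real.pi : ℂ) r, ∀ d' ∈ ball (Real.pi : ℂ) r, Stp θ H (y, d) (y', d') →
        ‖cos d' - cos d - 6 * Real.pi * I * exp (y₀ * I) * ε‖ ≤
          τ * ‖6 * Real.pi * I * exp (y₀ * I)‖ * ε ∧ ‖y' - y‖ ≤ C * ε

/-- the U-shaped region round the source -/
def Ush (L D h b : ℝ) : Set ℂ :=
  {x | |x.re| < L ∧ -D < x.im ∧ (x.im < -h ∨ (L / 2 < |x.re| ∧ x.im < b))}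

/-- the real leaf `W = 1` continues into the gaps next to the source `i log zs` -/
def Spec_GAP : Prop := ∀ (sg Zm : ℂ → ℂ) (zs : ℝ), Mdl sg Zm zs → SH sg Zm zs →
  ∀ β η L M : ℝ, 0 < β → β ≤ 1 / 300 → 0 < η → ∃ B R ε₀ η₀ : ℝ, 0 < ε₀ ∧ 0 < η₀ ∧
    ∀ (θ H : ℂ → ℂ) (ε : ℝ) (Z : ℂ × ℂ → ℂ × ℂ), Win θ H ε R η₀ → ε < ε₀ → Bas θ H ε R L M Z →
      ∃ Y D : ℂ → ℂ, DifferentiableOn ℂ Y (Ush (200 * β) (20 * β) (10 * β) (2 * β)) ∧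
        DifferentiableOn ℂ D (Ush (200 * β) (20 * β) (10 * β) (2 * β)) ∧
        ∀ x ∈ Ush (200 * β) (20 * β) (10 * β) (2 * β),
          Cls sg Zm η B (x + Real.log zs * I, 1) (Y x, D x) ∧
          (x.im < -(10 * β) → |(x + ε).re| < 200 * β → Stp θ H (Y x, D x) (Y (x + ε), D (x + ε)))

/-- no window carries a baseline -/
def Spec_B56 : Prop := ∀ L M : ℝ, ∃ R ε₀ η₀ : ℝ, 0 < ε₀ ∧ 0 < η₀ ∧
  ∀ (θ H : ℂ → ℂ) (ε : ℝ) (Z : ℂ × ℂ → ℂ × ℂ), Win θ H ε R η₀ → ε < ε₀ → Bas θ H ε R L M Z → False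

theorem Win.mono {θ H : ℂ → ℂ} {ε R η R' η' : ℝ} (h : Win θ H ε R η) (hR : R' ≤ R) (hη : η ≤ η') :
    Win θ H ε R' η' := by
  have s := ball_subset_ball (x := (0 : ℂ)) hR
  obtain ⟨c, c0, hc⟩ := h.laz
  exact ⟨h.e0, h.dθ.mono s, h.dH.mono s, ⟨c, c0, fun y hy => hc y (s hy)⟩,
    fun y hy => (h.wv y (s hy)).trans hη⟩

theorem Bas.mono {θ H : ℂ → ℂ} {ε R L M R' : ℝ} {Z : ℂ × ℂ → ℂ × ℂ} (h : Bas θ H ε R L M Z)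
    (hR : R' ≤ R) : Bas θ H ε R' L M Z := by
  have s : Low R' L ⊆ Low R L := fun q hq => ⟨hq.1.trans_le hR, hq.2⟩
  exact ⟨h.L3, h.M0, h.ML, fun q hq => h.an q (s hq), fun q hq => h.bY q (s hq),
    fun q hq => h.bD q (s hq), fun q hq => h.sm q (s hq), fun q hq => h.ev q (s hq),
    fun q hq k => h.stp q (s hq) (s k)⟩

end Vale.Agent.P097E
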