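import Mathlib

/-!
# P097E: the circle step, local expansion at the scale of one step
-/

set_option linter.all false

noncomputable section

namespace Vale.Agent.P097E.Cs

open Filter Topology Set Metric Complex

/-- offset of the line through the vertex `y` with normal angle `θ y + d` -/
def pp (θ H : ℂ → ℂ) (y d : ℂ) : ℂ := H y * cos d + deriv H y / deriv θ y * sin d

def SS (d : ℂ) : ℂ := sin d - d * cos d

/-- the normalised window -/
structure Wn (θ H : ℂ → ℂ) (c : ℂ) (ε R η : ℝ) : Prop where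
  dθ : DifferentiableOn ℂ θ (ball 0 R)
  dH : DifferentiableOn ℂ H (ball 0 R)
  c0 : c ≠ 0
  laz : ∀ y ∈ ball (0 : ℂ) R, deriv (deriv H) y * deriv θ y - deriv H y * deriv (deriv θ) y +
    H y * deriv θ y ^ 3 = c
  wv : ∀ y ∈ ball (0 : ℂ) R, ‖ε * deriv θ y * exp (y * I) - 1‖ ≤ η

theorem ncos (z : ℂ) : ‖cos z‖ ≤ Real.exp ‖z‖ := by
  have h1 := norm_exp_le_exp_norm (z * I)
  have h2 := norm_exp_le_exp_norm (-z * I)
  simp only [norm_mul, norm_I, mul_one, norm_neg] at h1 h2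
  rw [Complex.cos, norm_div]
  have := norm_add_le (exp (z * I)) (exp (-z * I))
  simp only [Complex.norm_ofNat]
  linarith

theorem nsin (z : ℂ) : ‖sin z‖ ≤ Real.exp ‖z‖ := by
  have h1 := norm_exp_le_exp_norm (z * I)
  have h2 := norm_exp_le_exp_norm (-z * I)
  simp only [norm_mul, norm_I, mul_one, norm_neg] at h1 h2
  rw [Complex.sin, norm_div, norm_mul, norm_I]
  have := norm_sub_le (exp (-z * I)) (exp (z * I))
  simp only [Complex.norm_ofNat]
  linarith

theorem ncos' {z : ℂ} {M : ℝ} (h : ‖z‖ ≤ M) : ‖cos z‖ ≤ Real.exp M :=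
  (ncos z).trans (Real.exp_le_exp.2 h)

theorem nsin' {z : ℂ} {M : ℝ} (h : ‖z‖ ≤ M) : ‖sin z‖ ≤ Real.exp M :=
  (nsin z).trans (Real.exp_le_exp.2 h)

theorem nSS {z : ℂ} {M : ℝ} (h : ‖z‖ ≤ M) : ‖SS z‖ ≤ (1 + M) * Real.exp M := by
  have h1 := nsin' h
  have h2 := ncos' h
  have := norm_sub_le (sin z) (z * cos z)
  rw [norm_mul] at this
  have h3 : ‖z‖ * ‖cos z‖ ≤ M * Real.exp M :=
    mul_le_mul h h2 (norm_nonneg _) ((norm_nonneg _).trans h)
  unfold SS
  linarith

/-- mean value inequality on a closed ball -/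
theorem mvt {f f' : ℂ → ℂ} {a : ℂ} {r C : ℝ} (h : ∀ z ∈ closedBall a r, HasDerivAt f (f' z) z)
    (hb : ∀ z ∈ closedBall a r, ‖f' z‖ ≤ C) {x y : ℂ} (hx : x ∈ closedBall a r)
    (hy : y ∈ closedBall a r) : ‖f y - f x‖ ≤ C * ‖y - x‖ :=
  (convex_closedBall a r).norm_image_sub_le_of_norm_hasDerivWithin_le
    (fun z hz => (h z hz).hasDerivWithinAt) hb hx hy

theorem lcos {x y : ℂ} {M : ℝ} (hx : ‖x‖ ≤ M) (hy : ‖y‖ ≤ M) :
    ‖cos y - cos x‖ ≤ Real.exp M * ‖y - x‖ :=
  mvt (a := 0) (r := M) (fun z _ => Complex.hasDerivAt_cos z)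
    (fun z hz => by rw [norm_neg]; exact nsin' (by simpa using hz)) (by simpa using hx)
    (by simpa using hy)

theorem lsin {x y : ℂ} {M : ℝ} (hx : ‖x‖ ≤ M) (hy : ‖y‖ ≤ M) :
    ‖sin y - sin x‖ ≤ Real.exp M * ‖y - x‖ :=
  mvt (a := 0) (r := M) (fun z _ => Complex.hasDerivAt_sin z)
    (fun z hz => ncos' (by simpa using hz)) (by simpa using hx) (by simpa using hy)

theorem dSS (z : ℂ) : HasDerivAt SS (z * sin z) z := by
  have := (Complex.hasDerivAt_sin z).sub ((hasDerivAt_id z).mul (Complex.hasDerivAt_cos z))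
  refine HasDerivAt.congr_deriv this ?_
  simp

theorem lSS {x y : ℂ} {M : ℝ} (hx : ‖x‖ ≤ M) (hy : ‖y‖ ≤ M) :
    ‖SS y - SS x‖ ≤ M * Real.exp M * ‖y - x‖ :=
  mvt (a := 0) (r := M) (fun z _ => dSS z)
    (fun z hz => by
      have hz : ‖z‖ ≤ M := by simpa using hz
      rw [norm_mul]
      exact mul_le_mul hz (nsin' hz) (norm_nonneg _) ((norm_nonneg _).trans hz))
    (by simpa using hx) (by simpa using hy)

/-- second order Taylor bound of the cosine -/
theorem tcos {x y : ℂ} {M : ℝ} (hx : ‖x‖ + ‖y - x‖ ≤ M) :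
    ‖cos y - cos x + sin x * (y - x)‖ ≤ Real.exp M * ‖y - x‖ ^ 2 := by
  have n := norm_nonneg (y - x)
  have k := mvt (f := fun z => cos z + sin x * z) (f' := fun z => -sin z + sin x * 1) (a := x)
    (r := ‖y - x‖) (C := Real.exp M * ‖y - x‖)
    (fun z _ => (Complex.hasDerivAt_cos z).add ((hasDerivAt_id z).const_mul _))
    (fun z hz => by
      rw [mem_closedBall, dist_eq_norm] at hz
      have h1 : ‖z‖ ≤ M := by
        have := norm_add_le x (z - x)
        rw [add_sub_cancel] at this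
        linarith
      have := lsin h1 (show ‖x‖ ≤ M by linarith)
      rw [norm_sub_rev x z] at this
      calc ‖-sin z + sin x * 1‖ = ‖sin x - sin z‖ := by congr 1; ring
        _ ≤ _ := this.trans (mul_le_mul_of_nonneg_left hz (Real.exp_pos _).le))
    (mem_closedBall_self n) (by rw [mem_closedBall, dist_eq_norm])
  calc _ = ‖cos y + sin x * y - (cos x + sin x * x)‖ := by congr 1; ring
    _ ≤ _ := k
    _ = _ := by ring

variable {θ H : ℂ → ℂ} {c : ℂ} {ε R η : ℝ}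

theorem Wn.an (w : Wn θ H c ε R η) {y : ℂ} (hy : y ∈ ball (0 : ℂ) R) :
    AnalyticAt ℂ θ y ∧ AnalyticAt ℂ H y :=
  ⟨w.dθ.analyticAt (isOpen_ball.mem_nhds hy), w.dH.analyticAt (isOpen_ball.mem_nhds hy)⟩

theorem Wn.ne (w : Wn θ H c ε R η) (hη : η < 1) {y : ℂ} (hy : y ∈ ball (0 : ℂ) R) :
    deriv θ y ≠ 0 := fun h => by
  have := w.wv y hy
  rw [h] at this
  simp at this
  linarith

theorem Wn.dG (w : Wn θ H c ε R η) (hη : η < 1) (φ : ℂ) {y : ℂ} (hy : y ∈ ball (0 : ℂ) R) :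
    HasDerivAt (fun y => pp θ H y (φ - θ y)) (-c * sin (θ y - φ) / deriv θ y ^ 2) y := by
  have t := (w.an hy).1.differentiableAt.hasDerivAt
  have h := (w.an hy).2.differentiableAt.hasDerivAt
  have g := (w.an hy).1.deriv.differentiableAt.hasDerivAt
  have k := (w.an hy).2.deriv.differentiableAt.hasDerivAt
  have n := w.ne hη hy
  have := (h.mul (t.const_sub φ).ccos).add ((k.div g n).mul (t.const_sub φ).csin)
  refine HasDerivAt.congr_deriv this ?_
  rw [← w.laz y hy, ← neg_sub φ, Complex.sin_neg]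
  simp only [Pi.div_apply]
  field_simp
  ring

theorem mem1 {y₀ y : ℂ} (h0 : ‖y₀‖ ≤ R) (h : ‖y - y₀‖ < 1) : y ∈ ball (0 : ℂ) (R + 1) := by
  have := norm_add_le y₀ (y - y₀)
  rw [add_sub_cancel] at this
  rw [mem_ball_zero_iff]
  linarith

/-- the error function is Lipschitz -/
theorem Wn.lip (w : Wn θ H c ε (R + 1) η) {y₀ y : ℂ} (h0 : ‖y₀‖ ≤ R) (h : ‖y - y₀‖ ≤ 1 / 4) :
    ‖ε * deriv θ y * exp (y * I) - ε * deriv θ y₀ * exp (y₀ * I)‖ ≤ 2 * η * ‖y - y₀‖ := by
  have an : ∀ z ∈ ball (0 : ℂ) (R + 1),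
      AnalyticAt ℂ (fun y => ε * deriv θ y * exp (y * I) - 1) z := fun z hz =>
    ((analyticAt_const.mul (w.an hz).1.deriv).mul
      (analyticAt_id.mul analyticAt_const).cexp).sub analyticAt_const
  have sb : ∀ z ∈ closedBall y₀ (1 / 4), closedBall z (1 / 2) ⊆ ball (0 : ℂ) (R + 1) := by
    intro z hz u hu
    rw [mem_closedBall, dist_eq_norm] at hz hu
    have := norm_add_le (u - z) (z - y₀)
    rw [sub_add_sub_cancel] at this
    exact mem1 h0 (by linarith)
  have k := mvt (f := fun y => ε * deriv θ y * exp (y * I) - 1) (a := y₀) (r := 1 / 4) (C := 2 * η)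
    (fun z hz => (an z (sb z hz (mem_closedBall_self (by norm_num)))).differentiableAt.hasDerivAt)
    (fun z hz => by
      have := Complex.norm_deriv_le_of_forall_mem_sphere_norm_le (C := η) (R := 1 / 2) (c := z)
        (by norm_num) (DifferentiableOn.diffContOnCl_ball
          (fun u hu => (an u hu).differentiableAt.differentiableWithinAt) (sb z hz))
        (fun u hu => w.wv u (sb z hz (sphere_subset_closedBall hu)))
      linarith)
    (mem_closedBall_self (by norm_num)) (y := y) (by rwa [mem_closedBall, dist_eq_norm])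
  simpa using k

/-- the speed -/
theorem Wn.spd (w : Wn θ H c ε (R + 1) η) (hη : η ≤ 1 / 2) {y₀ y : ℂ} {x : ℝ} (h0 : ‖y₀‖ ≤ R)
    (h : ‖y - y₀‖ ≤ x) (hx : x ≤ 1 / 4) :
    ‖ε * exp (y₀ * I) * deriv θ y - 1‖ ≤ 3 * x + η := by
  have m := mem1 h0 (show ‖y - y₀‖ < 1 by linarith)
  have k := w.wv y m
  have e : ε * exp (y₀ * I) * deriv θ y - 1 = (exp ((y₀ - y) * I) - 1) *
      ((ε * deriv θ y * exp (y * I) - 1) + 1) + (ε * deriv θ y * exp (y * I) - 1) := by
    have : exp (y₀ * I) = exp ((y₀ - y) * I) * exp (y * I) := by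
      rw [← Complex.exp_add]; congr 1; ring
    rw [this]; ring
  have n : ‖(y₀ - y) * I‖ ≤ x := by rwa [norm_mul, norm_I, mul_one, norm_sub_rev]
  have k2 := norm_exp_sub_one_le (n.trans (by linarith))
  have k3 := norm_add_le (ε * deriv θ y * exp (y * I) - 1) 1
  rw [norm_one] at k3
  rw [e]
  refine (norm_add_le _ _).trans ?_
  rw [norm_mul]
  have : ‖exp ((y₀ - y) * I) - 1‖ * ‖ε * deriv θ y * exp (y * I) - 1 + 1‖ ≤ (2 * x) * (3 / 2) :=
    mul_le_mul (by linarith) (by linarith) (norm_nonneg _)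
      (by linarith [norm_nonneg (y - y₀)])
  linarith

/-- the ratio of the curvature radii -/
theorem Wn.rat (w : Wn θ H c ε (R + 1) η) (hη : η ≤ 1 / 2) {y₀ y : ℂ} {x : ℝ} (h0 : ‖y₀‖ ≤ R)
    (h : ‖y - y₀‖ ≤ x) (hx : x ≤ 1 / 4) :
    ‖(deriv θ y₀ / deriv θ y) ^ 3 - 1 - 3 * I * (y - y₀)‖ ≤ x * (84 * η + 9 * x) := by
  have x0 : 0 ≤ x := (norm_nonneg _).trans h
  have m := mem1 h0 (show ‖y - y₀‖ < 1 by linarith)
  have k := w.wv y m
  have η0 : 0 ≤ η := (norm_nonneg _).trans k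
  have l := w.lip h0 (h.trans hx)
  set A := ε * deriv θ y * exp (y * I) with hA
  set B := ε * deriv θ y₀ * exp (y₀ * I) with hB
  have a1 : 1 / 2 ≤ ‖A‖ := by
    have := norm_sub_le A (A - 1)
    rw [sub_sub_cancel, norm_one] at this
    linarith
  have a0 : A ≠ 0 := fun e => by rw [e, norm_zero] at a1; linarith
  have q1 : ‖B / A - 1‖ ≤ 4 * η * x := by
    rw [div_sub_one a0, norm_div, div_le_iff₀ (by linarith), norm_sub_rev]
    nlinarith [mul_le_mul_of_nonneg_left h η0, mul_nonneg η0 x0]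
  have q2 : ‖(B / A) ^ 3 - 1‖ ≤ 28 * η * x := by
    set q := B / A - 1 with hq
    have e : (B / A) ^ 3 - 1 = q * (3 + q * (3 + q)) := by rw [hq]; ring
    have q0 : ‖q‖ ≤ 1 := by nlinarith
    have h1 : ‖3 + q‖ ≤ 4 := (norm_add_le _ _).trans (by simp; linarith)
    have h2 : ‖3 + q * (3 + q)‖ ≤ 7 := (norm_add_le _ _).trans (by
      rw [norm_mul]
      have := mul_le_mul q0 h1 (norm_nonneg _) zero_le_one
      simp only [Complex.norm_ofNat]; linarith)
    rw [e, norm_mul]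
    have := mul_le_mul q1 h2 (norm_nonneg _) (by positivity)
    linarith
  have n : ‖3 * I * (y - y₀)‖ ≤ 3 * x := by
    rw [norm_mul, norm_mul, norm_I]
    simp only [Complex.norm_ofNat]; linarith
  have e1 := norm_exp_sub_one_le (n.trans (by linarith))
  have e2 := norm_exp_sub_one_sub_id_le (n.trans (by linarith))
  have e3 : ‖exp (3 * I * (y - y₀))‖ ≤ 3 := by
    have := norm_add_le (exp (3 * I * (y - y₀)) - 1) 1
    rw [sub_add_cancel, norm_one] at this
    linarith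
  have e : (deriv θ y₀ / deriv θ y) ^ 3 = exp (3 * I * (y - y₀)) * (B / A) ^ 3 := by
    have g := w.ne (by linarith) m
    have ε0 : (ε : ℂ) ≠ 0 := fun e => a0 (by rw [hA, e]; ring)
    have : exp (3 * I * (y - y₀)) = (exp (y * I) / exp (y₀ * I)) ^ 3 := by
      rw [← Complex.exp_sub, ← Complex.exp_nat_mul]; congr 1; push_cast; ring
    rw [this, hA, hB, ← mul_pow]
    congr 1
    have := Complex.exp_ne_zero (y * I)
    have := Complex.exp_ne_zero (y₀ * I)
    field_simp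
  calc _ = ‖exp (3 * I * (y - y₀)) * ((B / A) ^ 3 - 1) +
        (exp (3 * I * (y - y₀)) - 1 - 3 * I * (y - y₀))‖ := by rw [e]; congr 1; ring
    _ ≤ 3 * (28 * η * x) + (3 * x) ^ 2 := by
      refine (norm_add_le _ _).trans (add_le_add ?_ (e2.trans ?_))
      · rw [norm_mul]
        exact mul_le_mul e3 q2 (norm_nonneg _) (by norm_num)
      · exact pow_le_pow_left₀ (norm_nonneg _) n 2
    _ = _ := by ring

/-- the normalised chord function -/
def GG (θ H : ℂ → ℂ) (c y₀ d₀ y : ℂ) : ℂ :=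
  (pp θ H y (θ y₀ + d₀ - θ y) - pp θ H y₀ d₀) * deriv θ y₀ ^ 3 / (-c)

/-- its model -/
def G0 (κ d₀ v : ℂ) : ℂ := (1 + κ * d₀) * (cos d₀ - cos v) + κ * (SS v + SS d₀)

/-- the local expansion -/
theorem Wn.loc (w : Wn θ H c ε (R + 1) η) (hη : η ≤ 1 / 2) {y₀ d₀ a : ℂ} {x N M : ℝ}
    (h0 : ‖y₀‖ ≤ R) (ha : a = ε * exp (y₀ * I)) (hd : ‖d₀‖ ≤ M) (hN : ‖a‖ * N ≤ x) (hx : x ≤ 1 / 8)
    {t : ℂ} (ht : ‖t‖ ≤ N) :
    ‖θ (y₀ + a * t) - θ y₀ - t‖ ≤ (3 * x + η) * N ∧
      ‖GG θ H c y₀ d₀ (y₀ + a * t) - G0 (3 * I * a) d₀ (θ (y₀ + a * t) - θ y₀ - d₀)‖ ≤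
        174 * Real.exp (M + 2 * N) * N * (x * (η + x)) := by
  have N0 : 0 ≤ N := (norm_nonneg _).trans ht
  have x0 : 0 ≤ x := (mul_nonneg (norm_nonneg _) N0).trans hN
  have nb : ∀ z ∈ closedBall (0 : ℂ) N, ‖y₀ + a * z - y₀‖ ≤ x := fun z hz => by
    rw [add_sub_cancel_left, norm_mul]
    exact (mul_le_mul_of_nonneg_left (by simpa using hz) (norm_nonneg _)).trans hN
  have mb : ∀ z ∈ closedBall (0 : ℂ) N, y₀ + a * z ∈ ball (0 : ℂ) (R + 1) := fun z hz =>
    mem1 h0 (by linarith [nb z hz])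
  have η0 : 0 ≤ η := (norm_nonneg _).trans (w.wv _ (mb 0 (mem_closedBall_self N0)))
  have dl : ∀ z : ℂ, HasDerivAt (fun z => y₀ + a * z) a z := fun z => by
    simpa using ((hasDerivAt_id z).const_mul a).const_add y₀
  have du : ∀ z ∈ closedBall (0 : ℂ) N,
      HasDerivAt (fun z => θ (y₀ + a * z)) (deriv θ (y₀ + a * z) * a) z := fun z hz =>
    (w.an (mb z hz)).1.differentiableAt.hasDerivAt.comp z (dl z)
  have sp : ∀ z ∈ closedBall (0 : ℂ) N, ‖deriv θ (y₀ + a * z) * a - 1‖ ≤ 3 * x + η := fun z hz => by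
    rw [mul_comm, ha]
    rw [ha] at nb
    exact w.spd hη h0 (nb z hz) (by linarith)
  have u1 : ∀ z ∈ closedBall (0 : ℂ) N, ‖θ (y₀ + a * z) - θ y₀ - z‖ ≤ (3 * x + η) * N := by
    intro z hz
    have k := mvt (f := fun z => θ (y₀ + a * z) - z) (fun z hz => (du z hz).sub (hasDerivAt_id z))
      sp (mem_closedBall_self N0) hz
    simp only [mul_zero, add_zero, sub_zero] at k
    calc _ = ‖θ (y₀ + a * z) - z - θ y₀‖ := by congr 1; ring
      _ ≤ _ := k.trans (mul_le_mul_of_nonneg_left (by simpa using hz) (by positivity))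
  refine ⟨u1 t (by simpa using ht), ?_⟩
  have k := mvt (f := fun z => GG θ H c y₀ d₀ (y₀ + a * z) -
      G0 (3 * I * a) d₀ (θ (y₀ + a * z) - θ y₀ - d₀))
    (f' := fun z => (deriv θ (y₀ + a * z) * a) * sin (θ (y₀ + a * z) - θ y₀ - d₀) *
      ((deriv θ y₀ / deriv θ (y₀ + a * z)) ^ 3 - 1 - 3 * I * a * (θ (y₀ + a * z) - θ y₀)))
    (a := 0) (r := N) (C := 174 * Real.exp (M + 2 * N) * (x * (η + x)))
    (fun z hz => by
      have g := (w.dG (by linarith) (θ y₀ + d₀) (mb z hz)).comp z (dl z)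
      have v := ((du z hz).sub_const (θ y₀)).sub_const d₀
      have s := (dSS _).comp z v
      have := ((((g.sub_const (pp θ H y₀ d₀)).mul_const (deriv θ y₀ ^ 3)).div_const (-c)).sub
        (((v.ccos.const_sub (cos d₀)).const_mul (1 + 3 * I * a * d₀)).add
          ((s.add_const (SS d₀)).const_mul (3 * I * a))))
      refine HasDerivAt.congr_deriv this ?_
      have n := w.ne (by linarith) (mb z hz)
      have c0 := w.c0
      rw [show θ (y₀ + a * z) - (θ y₀ + d₀) = θ (y₀ + a * z) - θ y₀ - d₀ by ring]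
      field_simp
      ring)
    (fun z hz => by
      have hz' : ‖z‖ ≤ N := by simpa using hz
      have p1 : ‖deriv θ (y₀ + a * z) * a‖ ≤ 2 := by
        have := norm_add_le (deriv θ (y₀ + a * z) * a - 1) 1
        rw [sub_add_cancel, norm_one] at this
        linarith [sp z hz]
      have p2 : ‖sin (θ (y₀ + a * z) - θ y₀ - d₀)‖ ≤ Real.exp (M + 2 * N) := by
        refine nsin' ?_
        have h1 := norm_sub_le (θ (y₀ + a * z) - θ y₀) d₀
        have h2 := norm_add_le (θ (y₀ + a * z) - θ y₀ - z) z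
        rw [sub_add_cancel] at h2
        have h3 : (3 * x + η) * N ≤ 1 * N := mul_le_mul_of_nonneg_right (by linarith) N0
        linarith [u1 z hz]
      have p3 := w.rat hη h0 (nb z hz) (by linarith)
      have p4 : ‖3 * I * a * (θ (y₀ + a * z) - θ y₀ - z)‖ ≤ 3 * x * (3 * x + η) := by
        rw [norm_mul, norm_mul, norm_mul, norm_I]
        simp only [Complex.norm_ofNat]
        have := mul_le_mul_of_nonneg_left (u1 z hz) (norm_nonneg a)
        have := mul_le_mul_of_nonneg_left hN (show 0 ≤ 3 * x + η by positivity)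
        nlinarith
      have p5 : ‖(deriv θ y₀ / deriv θ (y₀ + a * z)) ^ 3 - 1 - 3 * I * a * (θ (y₀ + a * z) - θ y₀)‖
          ≤ 87 * (x * (η + x)) := by
        have := norm_sub_le ((deriv θ y₀ / deriv θ (y₀ + a * z)) ^ 3 - 1 -
          3 * I * (y₀ + a * z - y₀)) (3 * I * a * (θ (y₀ + a * z) - θ y₀ - z))
        rw [show (deriv θ y₀ / deriv θ (y₀ + a * z)) ^ 3 - 1 - 3 * I * (y₀ + a * z - y₀) -
          3 * I * a * (θ (y₀ + a * z) - θ y₀ - z) = (deriv θ y₀ / deriv θ (y₀ + a * z)) ^ 3 - 1 -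
          3 * I * a * (θ (y₀ + a * z) - θ y₀) by ring] at this
        nlinarith [mul_nonneg x0 x0]
      rw [norm_mul, norm_mul]
      calc _ ≤ 2 * Real.exp (M + 2 * N) * (87 * (x * (η + x))) :=
            mul_le_mul (mul_le_mul p1 p2 (norm_nonneg _) (by norm_num)) p5 (norm_nonneg _)
              (by positivity)
        _ = _ := by ring)
    (mem_closedBall_self N0) (y := t) (by simpa using ht)
  have z0 : GG θ H c y₀ d₀ (y₀ + a * 0) - G0 (3 * I * a) d₀ (θ (y₀ + a * 0) - θ y₀ - d₀) = 0 := by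
    simp [GG, G0, SS]
  simp only [z0, sub_zero] at k
  calc _ ≤ _ := k
    _ ≤ 174 * Real.exp (M + 2 * N) * (x * (η + x)) * N :=
      mul_le_mul_of_nonneg_left ht (by positivity)
    _ = _ := by ring

end Vale.Agent.P097E.Cs
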