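import Vale.Agent.P097E.CsA

/-!
# P097E: the circle step, a priori estimates
-/

set_option linter.all false

noncomputable section

namespace Vale.Agent.P097E.Cs

open Filter Topology Set Metric Complex

/-- the chord relation between two states (vertex, angle) -/
def St (θ H : ℂ → ℂ) (p q : ℂ × ℂ) : Prop :=
  θ q.1 - q.2 = θ p.1 + p.2 ∧ pp θ H q.1 (-q.2) = pp θ H p.1 p.2

variable {θ H : ℂ → ℂ} {c : ℂ} {ε R η : ℝ}

theorem nexp {y : ℂ} (h : ‖y‖ ≤ R) : ‖exp (y * I)‖ ≤ Real.exp R :=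
  (norm_exp_le_exp_norm _).trans (Real.exp_le_exp.2 (by simpa using h))

theorem na (hε : 0 ≤ ε) {y : ℂ} {E : ℝ} (h : ‖exp (I * y)‖ ≤ E) : ‖ε * exp (y * I)‖ ≤ ε * E := by
  rw [norm_mul, norm_real, Real.norm_eq_abs, abs_of_nonneg hε, mul_comm y]
  exact mul_le_mul_of_nonneg_left h hε

theorem St.GG0 {p q : ℂ × ℂ} (h : St θ H p q) : GG θ H c p.1 p.2 q.1 = 0 := by
  rw [GG, ← h.1, show θ q.1 - q.2 - θ q.1 = -q.2 by ring, h.2]
  simp

theorem apri (w : Wn θ H c ε (R + 1) η) (hε : 0 < ε) (hη : η ≤ 1 / 8) {p q : ℂ × ℂ}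
    (h0 : ‖p.1‖ ≤ R) (h1 : ‖q.1 - p.1‖ ≤ 1 / 8) (h : St θ H p q) :
    ∃ t, q.1 = p.1 + ε * exp (p.1 * I) * t ∧ ‖t‖ ≤ 2 * ‖p.2 + q.2‖ := by
  set a := ε * exp (p.1 * I) with ha
  have a0 : a ≠ 0 := mul_ne_zero (by exact_mod_cast hε.ne') (Complex.exp_ne_zero _)
  have k := mvt (f := fun y => a * θ y - y) (f' := fun y => a * deriv θ y - 1) (a := p.1)
    (r := 1 / 8) (C := 1 / 2)
    (fun z hz => ((w.an (mem1 h0 (by
      rw [mem_closedBall, dist_eq_norm] at hz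
      linarith))).1.differentiableAt.hasDerivAt.const_mul a).sub (hasDerivAt_id z))
    (fun z hz => by
      rw [mem_closedBall, dist_eq_norm] at hz
      have := w.spd (by linarith) h0 hz (by norm_num)
      linarith)
    (mem_closedBall_self (by norm_num)) (y := q.1) (by rwa [mem_closedBall, dist_eq_norm])
  have e : a * θ q.1 - q.1 - (a * θ p.1 - p.1) = a * (p.2 + q.2) - (q.1 - p.1) := by
    linear_combination a * h.1
  rw [e] at k
  have k2 := norm_sub_le (a * (p.2 + q.2)) (a * (p.2 + q.2) - (q.1 - p.1))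
  rw [sub_sub_cancel, norm_mul] at k2
  refine ⟨(q.1 - p.1) / a, by field_simp; ring, ?_⟩
  rw [norm_div, div_le_iff₀ (norm_pos_iff.2 a0)]
  linarith

/-- the a priori estimate, for all bounded angles -/
theorem est (E M δ : ℝ) (E0 : 0 < E) (hδ : 0 < δ) : ∃ η₀ ε₀ : ℝ, 0 < η₀ ∧ 0 < ε₀ ∧
    ∀ (θ H : ℂ → ℂ) (c : ℂ) (ε R η : ℝ), 0 < ε → ε ≤ ε₀ → η ≤ η₀ → Wn θ H c ε (R + 1) η →
    ∀ p q : ℂ × ℂ, ‖p.1‖ ≤ R → ‖exp (I * p.1)‖ ≤ E → ‖p.2‖ ≤ M → ‖q.2‖ ≤ M → ‖q.1 - p.1‖ ≤ 1 / 8 → St θ H p q →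
      ‖q.1 - p.1 - ε * (p.2 + q.2) * exp (I * p.1)‖ ≤ δ * ε ∧
      ‖cos q.2 - cos p.2 - 3 * I * ε * exp (I * p.1) * (SS p.2 + SS q.2)‖ ≤ δ * ε := by
  wlog hM : 0 ≤ M
  · exact ⟨1, 1, one_pos, one_pos, fun _ _ _ _ _ _ _ _ _ _ p _ _ _ h => by
      linarith [norm_nonneg p.2]⟩
  obtain ⟨N, hN⟩ : ∃ N, N = 4 * M + 1 := ⟨_, rfl⟩
  obtain ⟨B, hB⟩ : ∃ B, B = Real.exp (M + 2 * N) := ⟨_, rfl⟩
  obtain ⟨s, hs⟩ : ∃ s, s = 2 * ((1 + M) * Real.exp M) := ⟨_, rfl⟩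
  have N1 : 1 ≤ N := by linarith
  have B0 : 0 < B := hB ▸ Real.exp_pos _
  have s0 : 0 < s := by rw [hs]; positivity
  obtain ⟨K, hK⟩ : ∃ K, K = E * (4 * N + 696 * B * N ^ 2 + 18 * s) := ⟨_, rfl⟩
  have K0 : 0 < K := by rw [hK]; positivity
  obtain ⟨l, l0, l1, l2⟩ : ∃ l : ℝ, 0 < l ∧ l ≤ 1 / 8 ∧ K * l ≤ δ :=
    ⟨min (1 / 8) (δ / K), by positivity, min_le_left _ _, by
      rw [mul_comm, ← le_div_iff₀ K0]; exact min_le_right _ _⟩
  refine ⟨l, l / (E * N), l0, by positivity, fun θ H c ε R η hε hε₀ hη w p q h0 nE hp hq h1 h => ?_⟩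
  rw [le_div_iff₀ (by positivity)] at hε₀
  obtain ⟨t, et, ht⟩ := apri w hε (by linarith) h0 h1 h
  have ht' : ‖t‖ ≤ N := by linarith [norm_add_le p.2 q.2]
  have nA := na hε.le nE
  rw [mul_comm I p.1]
  set a := ε * exp (p.1 * I) with ha
  obtain ⟨A, hA⟩ : ∃ A, A = ε * E := ⟨_, rfl⟩
  have A0 : 0 < A := by rw [hA]; positivity
  rw [← hA] at nA
  have AN : A * N ≤ l := by rw [hA]; linarith
  have η0 : 0 ≤ η := (norm_nonneg _).trans (w.wv _ (mem1 h0 (y := p.1) (by simp)))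
  obtain ⟨k1, k2⟩ := w.loc (by linarith) h0 ha hp
    (mul_le_mul_of_nonneg_right nA (by linarith) : ‖a‖ * N ≤ A * N) (by linarith) ht'
  have eu : θ q.1 - θ p.1 = p.2 + q.2 := by linear_combination h.1
  rw [← et, eu] at k1 k2
  rw [h.GG0, zero_sub, norm_neg, add_sub_cancel_left, ← hB] at k2
  have fin : A * l * (4 * N + 696 * B * N ^ 2 + 18 * s) ≤ δ * ε := by
    calc _ = K * l * ε := by rw [hK, hA]; ring
      _ ≤ _ := mul_le_mul_of_nonneg_right l2 hε.le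
  have Al : 0 < A * l := by positivity
  constructor
  · have e : q.1 - p.1 - ε * (p.2 + q.2) * exp (p.1 * I) = -(a * (p.2 + q.2 - t)) := by
      rw [et, ha]; ring
    rw [e, norm_neg, norm_mul]
    have h2 : (3 * (A * N) + η) * N ≤ 4 * l * N :=
      mul_le_mul_of_nonneg_right (by linarith) (by linarith)
    have h3 := mul_le_mul nA (k1.trans h2) (norm_nonneg _) A0.le
    have : 0 ≤ A * l * (696 * B * N ^ 2 + 18 * s) := by positivity
    nlinarith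
  · obtain ⟨F, hF⟩ : ∃ F, F = 348 * B * N ^ 2 * (A * l) := ⟨_, rfl⟩
    have kF : ‖G0 (3 * I * a) p.2 q.2‖ ≤ F := by
      refine k2.trans ?_
      calc _ = 174 * B * N ^ 2 * A * (η + A * N) := by ring
        _ ≤ 174 * B * N ^ 2 * A * (2 * l) :=
          mul_le_mul_of_nonneg_left (by linarith) (by positivity)
        _ = F := by rw [hF]; ring
    have nκ : ‖3 * I * a‖ ≤ 3 * A := by
      rw [norm_mul, norm_mul, norm_I]
      simp only [Complex.norm_ofNat]; linarith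
    have nS : ‖SS q.2 + SS p.2‖ ≤ s := by
      linarith [norm_add_le (SS q.2) (SS p.2), nSS hp, nSS hq]
    have AM : A * M ≤ l / 4 := by nlinarith
    have n1 : ‖3 * I * a * p.2‖ ≤ 3 * (A * M) := by
      rw [norm_mul]
      linarith [mul_le_mul nκ hp (norm_nonneg _) (by positivity)]
    have n2 : ‖3 * I * a * (SS q.2 + SS p.2)‖ ≤ 3 * A * s := by
      rw [norm_mul]
      exact mul_le_mul nκ nS (norm_nonneg _) (by positivity)
    set D := cos p.2 - cos q.2 with hD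
    have n3 : ‖3 * I * a * p.2 * D‖ ≤ 3 * (A * M) * ‖D‖ := by
      rw [norm_mul]
      exact mul_le_mul_of_nonneg_right n1 (norm_nonneg _)
    have n4 : ‖D‖ ≤ 2 * (F + 3 * A * s) := by
      have e : D = G0 (3 * I * a) p.2 q.2 - 3 * I * a * (SS q.2 + SS p.2) - 3 * I * a * p.2 * D := by
        rw [G0, ← hD]; ring
      have h2 := norm_sub_le (G0 (3 * I * a) p.2 q.2 - 3 * I * a * (SS q.2 + SS p.2))
        (3 * I * a * p.2 * D)
      rw [← e] at h2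
      have h3 := norm_sub_le (G0 (3 * I * a) p.2 q.2) (3 * I * a * (SS q.2 + SS p.2))
      have h4 : 3 * (A * M) * ‖D‖ ≤ 1 / 2 * ‖D‖ :=
        mul_le_mul_of_nonneg_right (by linarith) (norm_nonneg _)
      linarith
    have e : cos q.2 - cos p.2 - 3 * I * ε * exp (p.1 * I) * (SS p.2 + SS q.2) =
        3 * I * a * p.2 * D - G0 (3 * I * a) p.2 q.2 := by
      rw [G0, ← hD, ha, hD]; ring
    rw [e]
    have h5 := norm_sub_le (3 * I * a * p.2 * D) (G0 (3 * I * a) p.2 q.2)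
    have F0 : 0 ≤ F := (norm_nonneg _).trans kF
    have h6 : 3 * (A * M) * ‖D‖ ≤ 3 * (A * M) * (2 * (F + 3 * A * s)) :=
      mul_le_mul_of_nonneg_left n4 (by positivity)
    have h7 : 6 * (A * M) * F ≤ 1 * F := mul_le_mul_of_nonneg_right (by linarith) F0
    have h8 : (A * M) * (A * s) ≤ l * (A * s) :=
      mul_le_mul_of_nonneg_right (by linarith) (by positivity)
    have h9 : 0 ≤ A * l * N := by positivity
    have g1 : 3 * (A * M) * (2 * (F + 3 * A * s)) = 6 * (A * M) * F + 18 * (A * M * (A * s)) := by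
      ring
    have g2 : A * l * (4 * N + 696 * B * N ^ 2 + 18 * s) =
        4 * (A * l * N) + 2 * F + 18 * (l * (A * s)) := by rw [hF]; ring
    linarith

/-- the refined estimate, off the zeros of the sine -/
theorem est2 (E M μ ρ δ : ℝ) (E0 : 0 < E) (hμ : 0 < μ) (hρ : ρ ≤ 1)
    (hρ' : Real.exp (M + 1) * ρ ≤ μ / 2) (hδ : 0 < δ) : ∃ η₀ ε₀ : ℝ, 0 < η₀ ∧ 0 < ε₀ ∧
    ∀ (θ H : ℂ → ℂ) (c : ℂ) (ε R η : ℝ), 0 < ε → ε ≤ ε₀ → η ≤ η₀ → Wn θ H c ε (R + 1) η →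
    ∀ p q : ℂ × ℂ, ‖p.1‖ ≤ R → ‖exp (I * p.1)‖ ≤ E → ‖p.2‖ ≤ M → μ ≤ ‖sin p.2‖ → ‖q.2 - p.2‖ ≤ ρ →
      ‖q.1 - p.1‖ ≤ 1 / 8 → St θ H p q →
      ‖q.1 - p.1 - 2 * ε * p.2 * exp (I * p.1)‖ ≤ δ * ε ∧
      ‖q.2 - p.2 + 6 * I * ε * exp (I * p.1) * SS p.2 / sin p.2‖ ≤ δ * ε := by
  wlog hM : 0 ≤ M
  · exact ⟨1, 1, one_pos, one_pos, fun _ _ _ _ _ _ _ _ _ _ p _ _ _ h => by
      linarith [norm_nonneg p.2]⟩
  obtain ⟨B, hB⟩ : ∃ B, B = Real.exp (M + 1) := ⟨_, rfl⟩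
  have B0 : 0 < B := hB ▸ Real.exp_pos _
  obtain ⟨C, hC⟩ : ∃ C, C = 2 * (1 + 3 * E * (2 * ((1 + (M + 1)) * B))) / μ := ⟨_, rfl⟩
  have C0 : 0 < C := by rw [hC]; positivity
  obtain ⟨K, hK⟩ : ∃ K, K = E * C + B * C ^ 2 + 3 * E * ((M + 1) * B) * C := ⟨_, rfl⟩
  have K0 : 0 < K := by rw [hK]; positivity
  obtain ⟨d, d0, d1, d2, d3⟩ : ∃ d : ℝ, 0 < d ∧ d ≤ 1 ∧ 2 * d ≤ δ ∧ 2 * d ≤ δ * μ :=
    ⟨min 1 (min (δ / 2) (δ * μ / 2)), by positivity, min_le_left _ _,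
      by linarith [(min_le_right 1 _).trans (min_le_left (δ / 2) (δ * μ / 2))],
      by linarith [(min_le_right 1 _).trans (min_le_right (δ / 2) (δ * μ / 2))]⟩
  obtain ⟨η₀, ε₀, η0, ε0, h⟩ := est E (M + 1) d E0 d0
  refine ⟨η₀, min ε₀ (d / K), η0, by positivity,
    fun θ H c ε R η hε hε₀ hη w p q h0 nE hp hs hz h1 hS => ?_⟩
  have εK : ε * K ≤ d := by
    rw [← le_div_iff₀ K0]; exact hε₀.trans (min_le_right _ _)
  have hq : ‖q.2‖ ≤ M + 1 := by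
    have := norm_add_le p.2 (q.2 - p.2)
    rw [add_sub_cancel] at this
    linarith
  have hp' : ‖p.2‖ ≤ M + 1 := by linarith
  obtain ⟨k1, k2⟩ := h θ H c ε R η hε (hε₀.trans (min_le_left _ _)) hη w p q h0 nE hp' hq h1 hS
  have k3 := tcos (x := p.2) (y := q.2) (M := M + 1) (by linarith)
  have k4 := lSS hp' hq
  have k5 : ‖SS p.2 + SS q.2‖ ≤ 2 * ((1 + (M + 1)) * B) := by
    rw [hB]; linarith [norm_add_le (SS p.2) (SS q.2), nSS hp', nSS hq]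
  rw [← hB] at k3 k4 hρ'
  set z := q.2 - p.2 with hz'
  have z0 := norm_nonneg z
  have nκ : ‖3 * I * ε * exp (I * p.1)‖ ≤ 3 * ε * E := by
    rw [norm_mul, norm_mul, norm_mul, norm_I, norm_real, Real.norm_eq_abs, abs_of_pos hε]
    simp only [Complex.norm_ofNat, mul_one]
    exact mul_le_mul_of_nonneg_left nE (by positivity)
  have zC : ‖z‖ ≤ C * ε := by
    have e : sin p.2 * z = (cos q.2 - cos p.2 + sin p.2 * z) -
        ((cos q.2 - cos p.2 - 3 * I * ε * exp (I * p.1) * (SS p.2 + SS q.2)) +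
          3 * I * ε * exp (I * p.1) * (SS p.2 + SS q.2)) := by ring
    have h2 : ‖sin p.2 * z‖ ≤ B * ‖z‖ ^ 2 + (d * ε + 3 * ε * E * (2 * ((1 + (M + 1)) * B))) := by
      rw [e]
      refine (norm_sub_le _ _).trans (add_le_add k3 ((norm_add_le _ _).trans (add_le_add k2 ?_)))
      rw [norm_mul]
      exact mul_le_mul nκ k5 (norm_nonneg _) (by positivity)
    rw [norm_mul] at h2
    have h3 : μ * ‖z‖ ≤ ‖sin p.2‖ * ‖z‖ := mul_le_mul_of_nonneg_right hs z0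
    have h4 : B * ‖z‖ * ‖z‖ ≤ μ / 2 * ‖z‖ :=
      mul_le_mul_of_nonneg_right ((mul_le_mul_of_nonneg_left hz B0.le).trans hρ') z0
    have h5 : d * ε ≤ 1 * ε := mul_le_mul_of_nonneg_right d1 hε.le
    rw [hC, div_mul_eq_mul_div, le_div_iff₀ hμ]
    nlinarith
  have t1 : 0 ≤ E * C * ε * ε := by positivity
  have t2 : 0 ≤ B * C ^ 2 * ε * ε := by positivity
  have t3 : 0 ≤ 3 * E * ((M + 1) * B) * C * ε * ε := by positivity
  have tK : E * C * ε * ε + B * C ^ 2 * ε * ε + 3 * E * ((M + 1) * B) * C * ε * ε ≤ d * ε := by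
    calc _ = ε * K * ε := by rw [hK]; ring
      _ ≤ _ := mul_le_mul_of_nonneg_right εK hε.le
  constructor
  · have e : q.1 - p.1 - 2 * ε * p.2 * exp (I * p.1) =
        (q.1 - p.1 - ε * (p.2 + q.2) * exp (I * p.1)) + ε * z * exp (I * p.1) := by
      rw [hz']; ring
    have h2 : ‖ε * z * exp (I * p.1)‖ ≤ ε * (C * ε) * E := by
      rw [norm_mul, norm_mul, norm_real, Real.norm_eq_abs, abs_of_pos hε]
      exact mul_le_mul (mul_le_mul_of_nonneg_left zC hε.le) nE (norm_nonneg _) (by positivity)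
    rw [e]
    have := mul_le_mul_of_nonneg_right d2 hε.le
    linarith [norm_add_le (q.1 - p.1 - ε * (p.2 + q.2) * exp (I * p.1)) (ε * z * exp (I * p.1))]
  · have s0 : sin p.2 ≠ 0 := fun e => by rw [e, norm_zero] at hs; linarith
    have e : z + 6 * I * ε * exp (I * p.1) * SS p.2 / sin p.2 =
        ((cos q.2 - cos p.2 + sin p.2 * z) -
          (cos q.2 - cos p.2 - 3 * I * ε * exp (I * p.1) * (SS p.2 + SS q.2)) -
          3 * I * ε * exp (I * p.1) * (SS q.2 - SS p.2)) / sin p.2 := by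
      field_simp; ring
    have h2 : ‖3 * I * ε * exp (I * p.1) * (SS q.2 - SS p.2)‖ ≤
        3 * ε * E * ((M + 1) * B * (C * ε)) := by
      rw [norm_mul]
      exact mul_le_mul nκ (k4.trans (mul_le_mul_of_nonneg_left zC (by positivity)))
        (norm_nonneg _) (by positivity)
    have h3 : B * ‖z‖ ^ 2 ≤ B * (C * ε) ^ 2 :=
      mul_le_mul_of_nonneg_left (pow_le_pow_left₀ z0 zC 2) B0.le
    rw [e, norm_div, div_le_iff₀ (norm_pos_iff.2 s0)]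
    have h4 := norm_sub_le ((cos q.2 - cos p.2 + sin p.2 * z) -
      (cos q.2 - cos p.2 - 3 * I * ε * exp (I * p.1) * (SS p.2 + SS q.2)))
      (3 * I * ε * exp (I * p.1) * (SS q.2 - SS p.2))
    have h5 := norm_sub_le (cos q.2 - cos p.2 + sin p.2 * z)
      (cos q.2 - cos p.2 - 3 * I * ε * exp (I * p.1) * (SS p.2 + SS q.2))
    have h6 := mul_le_mul_of_nonneg_right d3 hε.le
    have h7 : δ * ε * μ ≤ δ * ε * ‖sin p.2‖ := mul_le_mul_of_nonneg_left hs (by positivity)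
    have g1 : 3 * ε * E * ((M + 1) * B * (C * ε)) = 3 * E * ((M + 1) * B) * C * ε * ε := by ring
    have g2 : B * (C * ε) ^ 2 = B * C ^ 2 * ε * ε := by ring
    have g3 : δ * ε * μ = δ * μ * ε := by ring
    have g4 : 2 * d * ε = d * ε + d * ε := by ring
    linarith

end Vale.Agent.P097E.Cs
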