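import Vale.Agent.P097E.CsB
import Vale.Agent.P097N.Root
import Vale.Agent.P097A.Step

/-!
# P097E: the circle step, existence, uniqueness and analyticity of the step map
-/

set_option linter.all false

noncomputable section

namespace Vale.Agent.P097E.Cs

open Filter Topology Set Metric Complex

variable {θ H : ℂ → ℂ} {c : ℂ} {ε R η : ℝ}

/-- existence and uniqueness of the next state -/
theorem exu (E M μ : ℝ) (E0 : 0 < E) (hμ : 0 < μ) : ∃ ρ : ℝ, 0 < ρ ∧ ρ ≤ 1 ∧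
    Real.exp (M + 1) * ρ ≤ μ / 2 ∧ ∃ η₀ ε₀ : ℝ, 0 < η₀ ∧ η₀ ≤ 1 / 8 ∧ 0 < ε₀ ∧
    ∀ (θ H : ℂ → ℂ) (c : ℂ) (ε R η : ℝ), 0 < ε → ε ≤ ε₀ → η ≤ η₀ → Wn θ H c ε (R + 1) η →
    ∀ p : ℂ × ℂ, ‖p.1‖ ≤ R → ‖exp (I * p.1)‖ ≤ E → ‖p.2‖ ≤ M → μ ≤ ‖sin p.2‖ →
      ∃ q : ℂ × ℂ, St θ H p q ∧ ‖q.1 - p.1‖ < 1 / 8 ∧ ‖q.2 - p.2‖ < ρ ∧
        ∀ q' : ℂ × ℂ, St θ H p q' → ‖q'.1 - p.1‖ ≤ 1 / 8 → ‖q'.2 - p.2‖ ≤ ρ → q' = q := by
  have X0 := Real.exp_pos (M + 1)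
  obtain ⟨τ, τ0, τ1, τ2⟩ : ∃ τ : ℝ, 0 < τ ∧ τ ≤ 1 ∧ Real.exp (M + 1) * τ ≤ μ / 16 :=
    ⟨min 1 (μ / 16 / Real.exp (M + 1)), by positivity, min_le_left _ _, by
      rw [mul_comm, ← le_div_iff₀ X0]; exact min_le_right _ _⟩
  refine ⟨τ / 4, by positivity, by linarith, by linarith [mul_pos X0 τ0], ?_⟩
  wlog hM : 0 ≤ M
  · exact ⟨1 / 8, 1, by norm_num, le_rfl, one_pos, fun _ _ _ _ _ _ _ _ _ _ p _ _ h => by
      linarith [norm_nonneg p.2]⟩
  obtain ⟨N, hN⟩ : ∃ N, N = 4 * M + 3 := ⟨_, rfl⟩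
  obtain ⟨M', hM'⟩ : ∃ M', M' = M + 2 * N := ⟨_, rfl⟩
  obtain ⟨B, hB⟩ : ∃ B, B = Real.exp M' := ⟨_, rfl⟩
  have N1 : 1 ≤ N := by linarith
  have M0 : 0 ≤ M' := by linarith
  have B0 : 0 < B := hB ▸ Real.exp_pos _
  obtain ⟨K, hK⟩ : ∃ K, K = 174 * B * N + 3 * (M * (2 * B) + 2 * ((1 + M') * B)) + B * (4 * N) :=
    ⟨_, rfl⟩
  have K0 : 0 < K := by rw [hK]; positivity
  obtain ⟨l, l0, l1, l2, l3⟩ : ∃ l : ℝ, 0 < l ∧ l ≤ 1 / 16 ∧ K * l ≤ μ * τ / 16 ∧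
      4 * N * l ≤ τ / 16 :=
    ⟨min (1 / 16) (min (μ * τ / 16 / K) (τ / 16 / (4 * N))), by positivity, min_le_left _ _, by
      rw [mul_comm, ← le_div_iff₀ K0]; exact (min_le_right _ _).trans (min_le_left _ _), by
      rw [mul_comm, ← le_div_iff₀ (by positivity)]
      exact (min_le_right _ _).trans (min_le_right _ _)⟩
  refine ⟨l, l / (E * N), l0, by linarith, by positivity,
    fun θ H c ε R η hε hε₀ hη w p h0 nE hp hs => ?_⟩
  rw [le_div_iff₀ (by positivity)] at hε₀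
  have nA := na hε.le nE
  obtain ⟨a, ha⟩ : ∃ a, a = ε * exp (p.1 * I) := ⟨_, rfl⟩
  rw [← ha] at nA
  have aN : ‖a‖ * N ≤ l := by
    have := mul_le_mul_of_nonneg_right nA (show 0 ≤ N by linarith)
    linarith
  have al : ‖a‖ ≤ l := by nlinarith [norm_nonneg a]
  have η0 : 0 ≤ η := (norm_nonneg _).trans (w.wv _ (mem1 h0 (y := p.1) (by simp)))
  have s0 : sin p.2 ≠ 0 := fun e => by rw [e, norm_zero] at hs; linarith
  have lc : ∀ t : ℂ, ‖t‖ ≤ N → ‖θ (p.1 + a * t) - θ p.1 - t‖ ≤ 4 * N * l ∧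
      ‖GG θ H c p.1 p.2 (p.1 + a * t) - G0 (3 * I * a) p.2 (θ (p.1 + a * t) - θ p.1 - p.2)‖ ≤
        174 * B * N * l := fun t ht => by
    obtain ⟨k1, k2⟩ := w.loc (by linarith) h0 ha hp aN (by linarith) ht
    rw [← hM', ← hB] at k2
    refine ⟨k1.trans ?_, k2.trans (mul_le_mul_of_nonneg_left ?_ (by positivity))⟩
    · nlinarith
    · nlinarith
  have nb : ∀ t : ℂ, ‖t‖ ≤ N → ‖p.1 + a * t - p.1‖ ≤ l := fun t ht => by
    rw [add_sub_cancel_left, norm_mul]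
    exact (mul_le_mul_of_nonneg_left ht (norm_nonneg _)).trans aN
  have n2 : ‖2 * p.2‖ ≤ 2 * M := by
    rw [norm_mul]; simp only [Complex.norm_ofNat]; linarith
  have tb : ∀ t ∈ ball (2 * p.2) τ, ‖t‖ ≤ N := fun t ht => by
    rw [mem_ball, dist_eq_norm] at ht
    have := norm_add_le (2 * p.2) (t - 2 * p.2)
    rw [add_sub_cancel] at this
    linarith
  obtain ⟨t, e0, e1, -, e2⟩ := P097N.Root.fix (ψ := fun t =>
    GG θ H c p.1 p.2 (p.1 + a * t) / sin p.2 - (t - 2 * p.2)) (m := 2 * p.2) τ0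
    (fun t ht => by
      have dl : HasDerivAt (fun z => p.1 + a * z) a t := by
        simpa using ((hasDerivAt_id t).const_mul a).const_add p.1
      have g := (w.dG (by linarith) (θ p.1 + p.2)
        (mem1 h0 (by linarith [nb t (tb t ht)]))).comp t dl
      exact (((((g.sub_const (pp θ H p.1 p.2)).mul_const (deriv θ p.1 ^ 3)).div_const
        (-c)).div_const (sin p.2)).sub ((hasDerivAt_id t).sub_const
          (2 * p.2))).differentiableAt.differentiableWithinAt)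
    (fun t ht => by
      have ht' := tb t ht
      obtain ⟨k1, k2⟩ := lc t ht'
      rw [mem_ball, dist_eq_norm] at ht
      obtain ⟨u, hu⟩ : ∃ u, u = θ (p.1 + a * t) - θ p.1 := ⟨_, rfl⟩
      rw [← hu] at k1 k2
      have v1 : ‖u - p.2‖ ≤ M' := by
        have h2 := norm_add_le (u - t) t
        rw [sub_add_cancel] at h2
        linarith [norm_sub_le u p.2]
      have v2 : ‖t - p.2‖ ≤ M' := by linarith [norm_sub_le t p.2]
      have v3 : ‖p.2‖ ≤ M' := by linarith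
      have k3 := lcos v1 v2
      rw [sub_sub_sub_cancel_right, norm_sub_rev t u, ← hB] at k3
      have k4 := tcos (x := p.2) (y := t - p.2) (M := M + 1) (by
        rw [show t - p.2 - p.2 = t - 2 * p.2 by ring]; linarith)
      rw [show t - p.2 - p.2 = t - 2 * p.2 by ring] at k4
      have nκ : ‖3 * I * a‖ ≤ 3 * l := by
        rw [norm_mul, norm_mul, norm_I]
        simp only [Complex.norm_ofNat]; linarith
      have k5 : ‖p.2 * (cos p.2 - cos (u - p.2)) + (SS (u - p.2) + SS p.2)‖ ≤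
          M * (2 * B) + 2 * ((1 + M') * B) := by
        refine (norm_add_le _ _).trans (add_le_add ?_ ?_)
        · rw [norm_mul]
          refine mul_le_mul hp ?_ (norm_nonneg _) hM
          rw [hB]
          linarith [norm_sub_le (cos p.2) (cos (u - p.2)), ncos' v1, ncos' v3]
        · rw [hB]
          linarith [norm_add_le (SS (u - p.2)) (SS p.2), nSS v1, nSS v3]
      have k6 : ‖3 * I * a * (p.2 * (cos p.2 - cos (u - p.2)) + (SS (u - p.2) + SS p.2))‖ ≤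
          3 * l * (M * (2 * B) + 2 * ((1 + M') * B)) := by
        rw [norm_mul]
        exact mul_le_mul nκ k5 (norm_nonneg _) (by positivity)
      have e : GG θ H c p.1 p.2 (p.1 + a * t) / sin p.2 - (t - 2 * p.2) =
          ((GG θ H c p.1 p.2 (p.1 + a * t) - G0 (3 * I * a) p.2 (u - p.2)) +
            3 * I * a * (p.2 * (cos p.2 - cos (u - p.2)) + (SS (u - p.2) + SS p.2)) +
            (cos (t - p.2) - cos (u - p.2)) -
            (cos (t - p.2) - cos p.2 + sin p.2 * (t - 2 * p.2))) / sin p.2 := by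
        rw [G0]; field_simp; ring
      show ‖GG θ H c p.1 p.2 (p.1 + a * t) / sin p.2 - (t - 2 * p.2)‖ ≤ τ / 8
      rw [e, norm_div, div_le_iff₀ (norm_pos_iff.2 s0)]
      refine ((norm_sub_le _ _).trans (add_le_add ((norm_add_le _ _).trans (add_le_add
        ((norm_add_le _ _).trans (add_le_add k2 k6)) k3)) k4)).trans ?_
      have g1 : B * ‖u - t‖ ≤ B * (4 * N * l) := mul_le_mul_of_nonneg_left k1 B0.le
      have g2 : Real.exp (M + 1) * ‖t - 2 * p.2‖ ^ 2 ≤ Real.exp (M + 1) * τ ^ 2 :=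
        mul_le_mul_of_nonneg_left (pow_le_pow_left₀ (norm_nonneg _) ht.le 2) X0.le
      have g3 : Real.exp (M + 1) * τ * τ ≤ μ / 16 * τ := mul_le_mul_of_nonneg_right τ2 τ0.le
      have g4 : K * l = 174 * B * N * l + 3 * l * (M * (2 * B) + 2 * ((1 + M') * B)) +
        B * (4 * N * l) := by rw [hK]; ring
      have g5 : τ / 8 * μ ≤ τ / 8 * ‖sin p.2‖ := mul_le_mul_of_nonneg_left hs (by positivity)
      have g6 : Real.exp (M + 1) * τ ^ 2 = Real.exp (M + 1) * τ * τ := by ring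
      linarith)
  have ht' : ‖t‖ ≤ N := tb t (by rw [mem_ball, dist_eq_norm]; linarith)
  have g0 : GG θ H c p.1 p.2 (p.1 + a * t) = 0 := by
    simp only [sub_add_cancel] at e0
    exact (div_eq_zero_iff.1 e0).resolve_right s0
  refine ⟨(p.1 + a * t, θ (p.1 + a * t) - θ p.1 - p.2), ⟨by ring, ?_⟩,
    by linarith [nb t ht'], ?_, fun q hq h1 h2 => ?_⟩
  · have g := w.ne (by linarith) (mem1 h0 (y := p.1) (by simp))
    have := (div_eq_zero_iff.1 g0).resolve_right (neg_ne_zero.2 w.c0)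
    have := (mul_eq_zero.1 this).resolve_right (pow_ne_zero _ g)
    rw [sub_eq_zero] at this
    rw [← this]
    congr 1
    ring
  · have := norm_add_le (θ (p.1 + a * t) - θ p.1 - t) (t - 2 * p.2)
    rw [show θ (p.1 + a * t) - θ p.1 - t + (t - 2 * p.2) =
      θ (p.1 + a * t) - θ p.1 - p.2 - p.2 by ring] at this
    linarith [(lc t ht').1]
  · obtain ⟨t', et, n'⟩ := apri w hε (by linarith) h0 h1 hq
    rw [← ha] at et
    have n3 : ‖p.2 + q.2‖ ≤ 2 * M + 1 := by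
      have := norm_add_le (2 * p.2) (q.2 - p.2)
      rw [show 2 * p.2 + (q.2 - p.2) = p.2 + q.2 by ring] at this
      linarith
    have k1 := (lc t' (by linarith)).1
    have eu : θ q.1 - θ p.1 = p.2 + q.2 := by linear_combination hq.1
    rw [← et, eu] at k1
    have := e2 t' (by
      have := norm_sub_le (q.2 - p.2) (p.2 + q.2 - t')
      rw [show q.2 - p.2 - (p.2 + q.2 - t') = t' - 2 * p.2 by ring] at this
      linarith) (by simp only [← et, hq.GG0]; simp)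
    rw [this] at et
    refine Prod.ext et ?_
    show q.2 = θ (p.1 + a * t) - θ p.1 - p.2
    rw [← et, eu]; ring

theorem Wn.app (w : Wn θ H c ε R η) (hη : η < 1) {X : Type} [NormedAddCommGroup X]
    [NormedSpace ℂ X] {a b : X → ℂ} {x : X} (ha : AnalyticAt ℂ a x) (hb : AnalyticAt ℂ b x)
    (m : a x ∈ ball (0 : ℂ) R) : AnalyticAt ℂ (fun x => pp θ H (a x) (b x)) x :=
  (((w.an m).2.comp ha).mul ((differentiable_cos.analyticAt _).comp hb)).add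
    ((((w.an m).2.deriv.comp ha).div ((w.an m).1.deriv.comp ha) (w.ne hη m)).mul
      ((differentiable_sin.analyticAt _).comp hb))

/-- local analytic continuation of a nondegenerate step -/
theorem Wn.ift (w : Wn θ H c ε R η) (hη : η < 1) {p q : ℂ × ℂ} (mp : p.1 ∈ ball (0 : ℂ) R)
    (mq : q.1 ∈ ball (0 : ℂ) R) (h : St θ H p q) (hs : sin q.2 ≠ 0) :
    ∃ T : ℂ × ℂ → ℂ × ℂ, AnalyticAt ℂ T p ∧ T p = q ∧ (∀ᶠ v in 𝓝 p, St θ H v (T v)) ∧
      ∀ᶠ v in 𝓝 (p, q), St θ H v.1 v.2 → v.2 = T v.1 := by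
  have a1 : AnalyticAt ℂ (fun v : (ℂ × ℂ) × ℂ => v.1.1) (p, q.1) :=
    analyticAt_fst.comp analyticAt_fst
  have a2 : AnalyticAt ℂ (fun v : (ℂ × ℂ) × ℂ => v.1.2) (p, q.1) :=
    analyticAt_snd.comp analyticAt_fst
  have a3 : AnalyticAt ℂ (fun v : (ℂ × ℂ) × ℂ => v.2) (p, q.1) := analyticAt_snd
  have an : AnalyticAt ℂ (fun v : (ℂ × ℂ) × ℂ =>
      pp θ H v.2 (θ v.1.1 + v.1.2 - θ v.2) - pp θ H v.1.1 v.1.2) (p, q.1) :=
    (w.app hη a3 ((((w.an mp).1.comp_of_eq a1 rfl).add a2).sub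
      ((w.an mq).1.comp_of_eq a3 rfl)) mq).sub (w.app hη a1 a2 mp)
  have i : HasDerivAt (fun t : ℂ => ((p, t) : (ℂ × ℂ) × ℂ)) (0, 1) q.1 :=
    (hasDerivAt_const q.1 p).prodMk (hasDerivAt_id q.1)
  have e1 := (an.differentiableAt.hasFDerivAt.comp_hasDerivAt q.1 i).unique
    ((w.dG hη (θ p.1 + p.2) mq).sub_const (pp θ H p.1 p.2))
  have e2 : θ p.1 + p.2 - θ q.1 = -q.2 := by rw [← h.1]; ring
  obtain ⟨ψ, b1, b2, b3⟩ := P097A.Step.imp an (by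
    rw [e1, ← h.1, sub_sub_cancel]
    exact div_ne_zero (mul_ne_zero (neg_ne_zero.2 w.c0) hs) (pow_ne_zero _ (w.ne hη mq)))
  simp only [e2, h.2, sub_self] at b3
  have t1 : Tendsto (fun v => (v, ψ v)) (𝓝 p) (𝓝 (p, q.1)) :=
    tendsto_id.prodMk_nhds (b2 ▸ b1.continuousAt.tendsto)
  have t2 : Tendsto (fun v : (ℂ × ℂ) × ℂ × ℂ => (v.1, v.2.1)) (𝓝 (p, q)) (𝓝 (p, q.1)) :=
    (continuous_fst.prodMk continuous_snd.fst).tendsto _
  refine ⟨fun v => (ψ v, θ (ψ v) - θ v.1 - v.2), b1.prod ((((w.an mq).1.comp_of_eq b1 b2).sub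
    ((w.an mp).1.comp_of_eq analyticAt_fst rfl)).sub analyticAt_snd), ?_, ?_, ?_⟩
  · refine Prod.ext b2 ?_
    simp only [b2]
    linear_combination h.1
  · filter_upwards [t1.eventually b3] with v hv
    refine ⟨by ring, ?_⟩
    rw [← sub_eq_zero.1 (hv.2 rfl)]
    congr 1
    ring
  · filter_upwards [t2.eventually b3] with v hv hS
    have e3 : θ v.1.1 + v.1.2 - θ v.2.1 = -v.2.2 := by rw [← hS.1]; ring
    have e4 : ψ v.1 = v.2.1 := hv.1 (by simp only [e3, hS.2, sub_self])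
    refine Prod.ext e4.symm ?_
    simp only [e4]
    linear_combination -hS.1

/-- the step map -/
theorem step (E M μ : ℝ) (E0 : 0 < E) (hμ : 0 < μ) : ∃ ρ : ℝ, 0 < ρ ∧ ∀ δ : ℝ, 0 < δ →
    ∃ η₀ ε₀ : ℝ, 0 < η₀ ∧ 0 < ε₀ ∧
    ∀ (θ H : ℂ → ℂ) (c : ℂ) (ε R η : ℝ), 0 < ε → ε ≤ ε₀ → η ≤ η₀ → Wn θ H c ε (R + 1) η →
    ∃ T : ℂ × ℂ → ℂ × ℂ, ∀ p : ℂ × ℂ, ‖p.1‖ < R → ‖exp (I * p.1)‖ < E → ‖p.2‖ < M →
      μ < ‖sin p.2‖ → AnalyticAt ℂ T p ∧ St θ H p (T p) ∧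
        ‖(T p).1 - p.1 - 2 * ε * p.2 * exp (I * p.1)‖ ≤ δ * ε ∧
        ‖(T p).2 - p.2 + 6 * I * ε * exp (I * p.1) * SS p.2 / sin p.2‖ ≤ δ * ε ∧
        ∀ q : ℂ × ℂ, St θ H p q → ‖q.1 - p.1‖ ≤ 1 / 8 → ‖q.2 - p.2‖ ≤ ρ → q = T p := by
  obtain ⟨ρ, ρ0, ρ1, ρ2, η₁, ε₁, η1, η1', ε1, h1⟩ := exu E M μ E0 hμ
  refine ⟨ρ, ρ0, fun δ hδ => ?_⟩
  obtain ⟨η₂, ε₂, η2, ε2, h2⟩ := est2 E M μ ρ δ E0 hμ ρ1 ρ2 hδ
  refine ⟨min η₁ η₂, min ε₁ ε₂, lt_min η1 η2, lt_min ε1 ε2, fun θ H c ε R η hε hε₀ hη w => ?_⟩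
  have η3 := hη.trans (min_le_left _ _)
  have k1 := h1 θ H c ε R η hε (hε₀.trans (min_le_left _ _)) η3 w
  have k2 := h2 θ H c ε R η hε (hε₀.trans (min_le_right _ _)) (hη.trans (min_le_right _ _)) w
  choose! T hT using k1
  refine ⟨T, fun p p1 p2 p3 p4 => ?_⟩
  obtain ⟨s1, s2, s3, s4⟩ := hT p p1.le p2.le p3.le p4.le
  obtain ⟨s5, s6⟩ := k2 p (T p) p1.le p2.le p3.le p4.le s3.le s2.le s1
  refine ⟨?_, s1, s5, s6, s4⟩
  have sn : sin (T p).2 ≠ 0 := fun e => by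
    have n : ‖(T p).2‖ ≤ M + 1 := by
      have := norm_add_le p.2 ((T p).2 - p.2)
      rw [add_sub_cancel] at this
      linarith
    have := lsin (show ‖p.2‖ ≤ M + 1 by linarith) n
    rw [e, zero_sub, norm_neg] at this
    have := mul_le_mul_of_nonneg_left s3.le (Real.exp_pos (M + 1)).le
    linarith
  obtain ⟨T', b1, b2, b3, -⟩ := w.ift (by linarith) (mem1 p1.le (y := p.1) (by simp))
    (mem1 p1.le (by linarith)) s1 sn
  refine b1.congr ?_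
  have c1 := b1.continuousAt
  have o1 : ∀ᶠ v in 𝓝 p, ‖v.1‖ < R := continuous_fst.norm.continuousAt.eventually (gt_mem_nhds p1)
  have o2 : ∀ᶠ v in 𝓝 p, ‖exp (I * v.1)‖ < E :=
    (by fun_prop : Continuous fun v : ℂ × ℂ => ‖exp (I * v.1)‖).continuousAt.eventually
      (gt_mem_nhds p2)
  have o3 : ∀ᶠ v in 𝓝 p, ‖v.2‖ < M := continuous_snd.norm.continuousAt.eventually (gt_mem_nhds p3)
  have o4 : ∀ᶠ v in 𝓝 p, μ < ‖sin v.2‖ :=
    (by fun_prop : Continuous fun v : ℂ × ℂ => ‖sin v.2‖).continuousAt.eventually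
      (lt_mem_nhds p4)
  have o5 : ∀ᶠ v in 𝓝 p, ‖(T' v).1 - v.1‖ < 1 / 8 :=
    (c1.fst.sub continuousAt_fst).norm.eventually (gt_mem_nhds (by simpa only [Pi.sub_apply, b2] using s2))
  have o6 : ∀ᶠ v in 𝓝 p, ‖(T' v).2 - v.2‖ < ρ :=
    (c1.snd.sub continuousAt_snd).norm.eventually (gt_mem_nhds (by simpa only [Pi.sub_apply, b2] using s3))
  filter_upwards [b3, o1, o2, o3, o4, o5, o6] with v g0 g1 g2 g3 g4 g5 g6
  exact (hT v g1.le g2.le g3.le g4.le).2.2.2 _ g0 g5.le g6.le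

end Vale.Agent.P097E.Cs
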