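import Mathlib

/-!
# P097E: the circle model (block B4), definitions and statements

`Sm δ = sin δ - δ cos δ`, `sg` is the odd cube root of `24 Sm`, `Z` solves
`Z' / Z = 4 sin δ / sg ^ 2`.  Along an orbit `s / sg δ` and `Z δ / ζ` are almost constant.
-/

set_option linter.all false

noncomputable section

namespace Vale.Agent.P097E

open Set Metric Complex ComplexConjugate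

/-- the action of the circle -/
def Sm (δ : ℂ) : ℂ := sin δ - δ * cos δ

/-- the vertical strip of the model -/
def Sg : Set ℂ := {δ | |δ.re| < 7 / 2}

/-- the forbidden set: the origin and the cones above the sources -/
def Fb (zs : ℝ) : Set ℂ := {ζ | |ζ.im| ≤ 2 * ‖ζ‖ * Real.log (‖ζ‖ / zs)}

/-- the two functions of the model -/
structure Mod1 (sg Z : ℂ → ℂ) : Prop where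
  dsg : DifferentiableOn ℂ sg Sg
  dZ : DifferentiableOn ℂ Z Sg
  cube : ∀ δ ∈ Sg, sg δ ^ 3 = 24 * Sm δ
  ne : ∀ δ ∈ Sg, δ ≠ 0 → sg δ ≠ 0 ∧ Z δ ≠ 0
  ode : ∀ δ ∈ Sg, deriv Z δ * sg δ ^ 2 = 4 * sin δ * Z δ
  odd : ∀ δ ∈ Sg, sg (-δ) = -sg δ ∧ Z (-δ) = -Z δ
  cj : ∀ δ ∈ Sg, sg (conj δ) = conj (sg δ) ∧ Z (conj δ) = conj (Z δ)
  d0 : deriv sg 0 = 2 ∧ deriv Z 0 = 2
  pos : ∀ x : ℝ, 0 < x → x < 7 / 2 → 0 < (sg x).re ∧ 0 < (Z x).re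

/-- near the origin -/
def MP0 (sg Z : ℂ → ℂ) : Prop := ∃ C : ℝ, ∀ δ : ℂ, ‖δ‖ ≤ 1 →
  ‖sg δ - 2 * δ‖ ≤ C * ‖δ‖ ^ 3 ∧ ‖Z δ - 2 * δ‖ ≤ C * ‖δ‖ ^ 3

/-- the sides of the strip are mapped into the forbidden set -/
def MP1 (Z : ℂ → ℂ) : Prop := ∀ δ : ℂ, |δ.re| = Real.pi →
  Z δ ∈ Fb (Z Real.pi).re ∧ (δ.im ≠ 0 → (Z Real.pi).re < ‖Z δ‖)

/-- growth -/
def MP2 (Z : ℂ → ℂ) : Prop := ∀ R : ℝ, ∃ M : ℝ, ∀ δ : ℂ, |δ.re| ≤ Real.pi → ‖Z δ‖ ≤ R →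
  |δ.im| ≤ M

/-- the source has one preimage -/
def MP3 (Z : ℂ → ℂ) : Prop := ∀ η : ℝ, 0 < η → ∃ ρ : ℝ, 0 < ρ ∧ ∀ δ : ℂ, |δ.re| ≤ Real.pi →
  ‖Z δ - Z Real.pi‖ ≤ ρ → ‖δ - Real.pi‖ ≤ η

/-- the fold -/
def MP4 (Z : ℂ → ℂ) : Prop := ∃ a C : ℝ, 0 < a ∧ ∀ δ : ℂ, ‖δ - Real.pi‖ ≤ 1 / 4 →
  ‖1 + cos δ - a * (Z Real.pi - Z δ)‖ ≤ C * ‖δ - Real.pi‖ ^ 3 ∧
    ‖δ - Real.pi‖ ^ 2 ≤ 4 * ‖1 + cos δ‖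

/-- the model -/
structure Mod (sg Z : ℂ → ℂ) (zs : ℝ) : Prop extends Mod1 sg Z where
  zs0 : 0 < zs
  Zpi : Z Real.pi = zs
  p0 : MP0 sg Z
  p1 : ∀ δ : ℂ, |δ.re| = Real.pi → Z δ ∈ Fb zs
  p2 : MP2 Z
  p3 : MP3 Z
  p4 : MP4 Z

/-- one step of the circle map in the normalised window, up to the error `d * e` -/
def StepR (d e : ℝ) (y δ y' δ' : ℂ) : Prop :=
  ‖y' - y - 2 * e * δ * exp (I * y)‖ ≤ d * e ∧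
  ‖δ' - δ + 6 * I * e * exp (I * y) * Sm δ / sin δ‖ ≤ d * e

def Spec_M1 : Prop := ∃ sg Z, Mod1 sg Z

def Spec_MP0 : Prop := ∀ sg Z, Mod1 sg Z → MP0 sg Z

def Spec_MP1 : Prop := ∀ sg Z, Mod1 sg Z → MP1 Z

def Spec_MP2 : Prop := ∀ sg Z, Mod1 sg Z → MP2 Z

def Spec_MP3 : Prop := ∀ sg Z, Mod1 sg Z → MP1 Z → MP2 Z → MP3 Z

def Spec_MP4 : Prop := ∀ sg Z, Mod1 sg Z → MP4 Z

def Spec_MOD : Prop := ∃ sg Z zs, Mod sg Z zs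

/-- one step almost conserves the two integrals -/
def Spec_ONE : Prop := ∀ sg Z, Mod1 sg Z → ∀ K : Set ℂ, IsCompact K → K ⊆ Sg →
  (∀ δ ∈ K, sin δ ≠ 0) → ∀ B : ℝ, 0 ≤ B → ∃ C e₀ : ℝ, 0 ≤ C ∧ 0 < e₀ ∧
  ∀ (d e : ℝ) (y δ y' δ' : ℂ), 0 ≤ d → d ≤ 1 → 0 ≤ e → e ≤ e₀ → δ ∈ K → ‖exp (I * y)‖ ≤ B →
    StepR d e y δ y' δ' → δ' ∈ Sg ∧ δ' ≠ 0 ∧ ‖δ' - δ‖ ≤ C * e ∧
    ‖exp (-(I * (y' - y))) * sg δ / sg δ' - 1‖ ≤ C * (d + e) * e ∧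
    ‖Z δ' / Z δ - (1 - I * e * exp (I * y) * sg δ)‖ ≤ C * (d + e) * e

/-- shadowing.  `R j y δ` is any predicate (the orbit is regular at the index `j`, with vertex `y`
and angle `δ`); the point is `X₀ + j e W`. -/
def Spec_SHAD : Prop := ∀ (sg Z : ℂ → ℂ) (zs : ℝ), Mod sg Z zs → ∀ (K : Set ℂ) (η : ℝ),
  IsCompact K → 0 < η → η ≤ 1 / 2 → (∀ ζ ∈ K, ∀ ν : ℂ, ‖ν - 1‖ ≤ η → ζ * ν ∉ Fb zs) →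
  ∃ c : ℝ, 0 < c ∧ ∀ L : ℝ, 0 ≤ L → ∃ d e₀ : ℝ, 0 < d ∧ 0 < e₀ ∧
  ∀ (e : ℝ) (W X₀ y₀ δ₀ : ℂ) (N : ℕ) (R : ℕ → ℂ → ℂ → Prop), 0 ≤ e → e ≤ e₀ → ‖W‖ ≤ 2 →
    N * e ≤ L → (∀ j ≤ N, W * exp (-(I * (X₀ + j * e * W))) ∈ K) →
    R 0 y₀ δ₀ → |δ₀.re| ≤ Real.pi → ‖W * exp (-(I * y₀)) / sg δ₀ - 1‖ ≤ η / (64 * (1 + L)) →
    ‖Z δ₀ / (W * exp (-(I * X₀))) - 1‖ ≤ η / 2 →
    (∀ j < N, ∀ y δ, R j y δ → c ≤ ‖sin δ‖ → ‖δ‖ ≤ c⁻¹ → ‖y - y₀‖ ≤ L / c →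
      ∃ y' δ', R (j + 1) y' δ' ∧ StepR d e y δ y' δ') →
    ∀ j ≤ N, ∃ y δ, R j y δ ∧ |δ.re| ≤ Real.pi - c ∧ c ≤ ‖sin δ‖ ∧ ‖δ‖ ≤ c⁻¹ ∧ ‖y - y₀‖ ≤ L / c ∧
      ‖W * exp (-(I * y)) / sg δ - 1‖ ≤ η ∧
      ‖Z δ / (W * exp (-(I * (X₀ + j * e * W)))) - 1‖ ≤ η

end Vale.Agent.P097E
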