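import Vale.Agent.P097E.CsB
import Vale.Agent.P097E.ModDefs
import Vale.Agent.P097E.B1Br

/-!
# P097E: the entire case in a normalised window (definitions and statements of the blocks)

Window coordinate `X`, step `ε W`, `ζ = W exp (-i X)`. A state is a pair (vertex, half angle);
`Cs.Wn` is the window, `Cs.St` the chord relation.
-/

set_option linter.all false

noncomputable section

namespace Vale.Agent.P097E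

open Filter Topology Set Metric Complex Cs

/-- the model variable -/
def ze (q : ℂ × ℂ) : ℂ := q.2 * exp (-(q.1 * I))

/-- the low part of the window -/
def Low (R L : ℝ) : Set (ℂ × ℂ) := {q | ‖q.1‖ < R ∧ q.1.im < -L ∧ ‖q.2‖ < 2}

/-- the baseline in the window -/
structure Bas (θ H : ℂ → ℂ) (ε R L M : ℝ) (Z : ℂ × ℂ → ℂ × ℂ) : Prop where
  L3 : 3 ≤ L
  M0 : 0 ≤ M
  ML : M ≤ L
  an : ∀ q ∈ Low R L, AnalyticAt ℂ Z q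
  bY : ∀ q ∈ Low R L, ‖(Z q).1 - q.1‖ ≤ M * Real.exp q.1.im
  bD : ∀ q ∈ Low R L, ‖2 * (Z q).2 - ε * q.2 * deriv θ (Z q).1‖ ≤
    M * Real.exp q.1.im * ‖ε * q.2 * deriv θ (Z q).1‖
  sm : ∀ q ∈ Low R L, ‖(Z q).2‖ ≤ 1
  ev : ∀ q ∈ Low R L, Z (q.1, -q.2) = ((Z q).1, -(Z q).2)
  stp : ∀ q ∈ Low R L, (q.1 + ε * q.2, q.2) ∈ Low R L → St θ H (Z q) (Z (q.1 + ε * q.2, q.2))

/-- what the last blocks use of the limit model -/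
structure Mdl (sg Zm : ℂ → ℂ) (zs : ℝ) : Prop where
  pos : 0 < zs
  an : ∀ d : ℂ, |d.re| ≤ Real.pi → AnalyticAt ℂ sg d ∧ AnalyticAt ℂ Zm d
  odd : ∀ d : ℂ, |d.re| ≤ Real.pi → sg (-d) = -sg d ∧ Zm (-d) = -Zm d
  cube : sg Real.pi ^ 3 = 24 * Real.pi
  fold : ∀ e : ℝ, 0 < e → ∃ b : ℝ, 0 < b ∧ ∀ d : ℂ, |d.re| ≤ Real.pi → ‖Zm d - zs‖ < b →
    ‖d - Real.pi‖ < e ∧ ‖1 + cos d - sg Real.pi ^ 2 / (4 * zs) * (zs - Zm d)‖ ≤ e * ‖zs - Zm d‖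

/-- admissible values of `ζ`: below the level of the sources, or in a gap next to a source -/
def Adm (zs β : ℝ) : Set ℂ := {ζ | ∃ l : ℂ, (ζ = zs * exp l ∨ ζ = -(zs * exp l)) ∧
  (l.re ≤ -β ∨ (l.re ≤ 11 * β ∧ 40 * β ≤ |l.im| ∧ |l.im| ≤ 1))}

/-- the state `z` at `q` is close to the model -/
def Cls (sg Zm : ℂ → ℂ) (η B : ℝ) (q z : ℂ × ℂ) : Prop :=
  |z.2.re| ≤ Real.pi ∧ ‖z.1 - q.1‖ ≤ B ∧ ‖Zm z.2 - ze q‖ ≤ η ∧ ‖sg z.2 - ze (z.1, q.2)‖ ≤ η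

/-- shadowing along non-real directions -/
def SH (sg Zm : ℂ → ℂ) (zs : ℝ) : Prop := ∀ β κ η R₀ L M : ℝ, 0 < β → β ≤ 1 / 300 → 0 < κ →
  0 < η → ∃ B R ε₀ η₀ : ℝ, 0 < ε₀ ∧ 0 < η₀ ∧
    ∀ (θ H : ℂ → ℂ) (c : ℂ) (ε : ℝ) (Z : ℂ × ℂ → ℂ × ℂ),
    Wn θ H c ε R η₀ → 0 < ε → ε ≤ ε₀ → Bas θ H ε R L M Z → ∃ Zp : ℂ × ℂ → ℂ × ℂ, ∀ q : ℂ × ℂ,
      ‖q.1‖ ≤ R₀ → κ ≤ q.2.im → ‖q.2‖ ≤ 3 / 2 →
      (∀ t : ℝ, 0 ≤ t → ze (q.1 - t * q.2, q.2) ∈ Adm zs β) →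
      AnalyticAt ℂ Zp q ∧ Cls sg Zm η B q (Zp q) ∧ (q.1.im < -L - 1 → Zp =ᶠ[𝓝 q] Z)

/-- the U-shaped region round the source -/
def Ush (L D h b : ℝ) : Set ℂ :=
  {x | |x.re| < L ∧ -D < x.im ∧ (x.im < -h ∨ (L / 2 < |x.re| ∧ x.im < b))}

/-- the real leaf `W = 1` continues into the gaps next to the source `i log zs` -/
def GAP (sg Zm : ℂ → ℂ) (zs : ℝ) : Prop :=
  ∀ β η L M : ℝ, 0 < β → β ≤ 1 / 300 → 0 < η → ∃ B R ε₀ η₀ : ℝ, 0 < ε₀ ∧ 0 < η₀ ∧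
    ∀ (θ H : ℂ → ℂ) (c : ℂ) (ε : ℝ) (Z : ℂ × ℂ → ℂ × ℂ),
      Wn θ H c ε R η₀ → 0 < ε → ε ≤ ε₀ → Bas θ H ε R L M Z →
      ∃ Y D : ℂ → ℂ, DifferentiableOn ℂ Y (Ush (200 * β) (20 * β) (10 * β) (2 * β)) ∧
        DifferentiableOn ℂ D (Ush (200 * β) (20 * β) (10 * β) (2 * β)) ∧
        ∀ x ∈ Ush (200 * β) (20 * β) (10 * β) (2 * β),
          Cls sg Zm η B (x + Real.log zs * I, 1) (Y x, D x) ∧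
          (x.im < -(10 * β) → |(x + ε).re| < 200 * β → St θ H (Y x, D x) (Y (x + ε), D (x + ε)))

/-- the model with both lists of properties -/
def Spec_MDL : Prop := ∃ (sg Zm : ℂ → ℂ) (zs : ℝ), Mod sg Zm zs ∧ Mdl sg Zm zs

/-- the step map -/
def Spec_S : Prop := ∀ R M μ d : ℝ, 0 < μ → 0 < d → ∃ η₀ ε₀ ρ₀ : ℝ, 0 < η₀ ∧ 0 < ε₀ ∧ 0 < ρ₀ ∧
  ∀ (θ H : ℂ → ℂ) (c : ℂ) (ε : ℝ), Wn θ H c ε (R + 1) η₀ → 0 < ε → ε ≤ ε₀ →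
    ∃ T : ℂ × ℂ → ℂ × ℂ, ∀ p : ℂ × ℂ, ‖p.1‖ ≤ R → ‖p.2‖ ≤ M → μ ≤ ‖sin p.2‖ →
      AnalyticAt ℂ T p ∧ St θ H p (T p) ∧ StepR d ε p.1 p.2 (T p).1 (T p).2 ∧
        ∀ q : ℂ × ℂ, St θ H p q → ‖q - p‖ ≤ ρ₀ → q = T p

def Spec_SH : Prop := ∀ (sg Zm : ℂ → ℂ) (zs : ℝ), Mod sg Zm zs → SH sg Zm zs

def Spec_GAP : Prop := ∀ (sg Zm : ℂ → ℂ) (zs : ℝ), Mod sg Zm zs → Mdl sg Zm zs → SH sg Zm zs →
  GAP sg Zm zs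

/-- no window carries a baseline -/
def Spec_WIN : Prop := ∀ L M : ℝ, ∃ R ε₀ η₀ : ℝ, 0 < ε₀ ∧ 0 < η₀ ∧
  ∀ (θ H : ℂ → ℂ) (c : ℂ) (ε : ℝ) (Z : ℂ × ℂ → ℂ × ℂ),
    Wn θ H c ε R η₀ → 0 < ε → ε ≤ ε₀ → Bas θ H ε R L M Z → False

def Spec_FIN : Prop := ∀ (sg Zm : ℂ → ℂ) (zs : ℝ), Mod sg Zm zs → Mdl sg Zm zs → GAP sg Zm zs →
  Spec_WIN

/-- a high level gives a window with a baseline -/
def Spec_GLUE : Prop := ∀ (c κ : ℝ) (θ H Q : ℂ → ℂ) (Y : ℂ × ℂ → ℂ),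
  (∀ r, 0 < r → P097Top.Cur r c θ H Q) → P097Top.Sol0 θ H κ Y → ∃ L M : ℝ,
    ∀ R ε₀ η₀ : ℝ, 0 < ε₀ → 0 < η₀ → ∃ P₀ : ℝ, ∀ (P m : ℝ) (y : ℂ), P₀ ≤ P →
      Lvl (deriv θ) Q P m y → ∃ (θ' H' : ℂ → ℂ) (c' : ℂ) (ε : ℝ) (Z : ℂ × ℂ → ℂ × ℂ),
        Wn θ' H' c' ε R η₀ ∧ 0 < ε ∧ ε ≤ ε₀ ∧ Bas θ' H' ε R L M Z

theorem Wn_mono {θ H : ℂ → ℂ} {c : ℂ} {ε R η R' η' : ℝ} (h : Wn θ H c ε R η) (hR : R' ≤ R)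
    (hη : η ≤ η') : Wn θ H c ε R' η' := by
  have s := ball_subset_ball (x := (0 : ℂ)) hR
  exact ⟨h.dθ.mono s, h.dH.mono s, h.c0, fun y hy => h.laz y (s hy),
    fun y hy => (h.wv y (s hy)).trans hη⟩

theorem Bas.mono {θ H : ℂ → ℂ} {ε R L M R' : ℝ} {Z : ℂ × ℂ → ℂ × ℂ} (h : Bas θ H ε R L M Z)
    (hR : R' ≤ R) : Bas θ H ε R' L M Z := by
  have s : Low R' L ⊆ Low R L := fun q hq => ⟨hq.1.trans_le hR, hq.2⟩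
  exact ⟨h.L3, h.M0, h.ML, fun q hq => h.an q (s hq), fun q hq => h.bY q (s hq),
    fun q hq => h.bD q (s hq), fun q hq => h.sm q (s hq), fun q hq => h.ev q (s hq),
    fun q hq k => h.stp q (s hq) (s k)⟩

/-- the assembly -/
theorem n1_asm (b1 : Spec_B1) (mdl : Spec_MDL) (sh : Spec_SH) (gap : Spec_GAP) (fin : Spec_FIN)
    (glue : Spec_GLUE) : P097Top.Spec_N1 := by
  obtain ⟨sg, Zm, zs, m, m'⟩ := mdl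
  have win := fin sg Zm zs m m' (gap sg Zm zs m m' (sh sg Zm zs m))
  refine n1_of b1 fun c κ θ H Q Y C S => ?_
  obtain ⟨L, M, g⟩ := glue c κ θ H Q Y C S
  obtain ⟨R, ε₀, η₀, e0, h0, w⟩ := win L M
  obtain ⟨P₀, g⟩ := g R ε₀ η₀ e0 h0
  refine ⟨P₀, fun P m y hP l => ?_⟩
  obtain ⟨θ', H', c', ε, Z, h1, h2, h3, h4⟩ := g P m y hP l
  exact w θ' H' c' ε Z h1 h2 h3 h4

end Vale.Agent.P097E
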