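import Vale.Agent.P097E.CsC
import Vale.Agent.P097E.Defs

/-!
# P097E: the step map on the closed set of admissible states
-/

set_option linter.all false

noncomputable section

namespace Vale.Agent.P097E

open Filter Topology Set Metric Complex Cs

theorem stepS : Spec_S := by
  intro R M μ d hμ hd
  obtain ⟨ρ, ρ0, ρ1, ρ2, η₁, ε₁, η1, η1', ε1, h1⟩ := exu (Real.exp R) M μ (Real.exp_pos _) hμ
  obtain ⟨η₂, ε₂, η2, ε2, h2⟩ := est2 (Real.exp R) M μ ρ d (Real.exp_pos _) hμ ρ1 ρ2 hd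
  refine ⟨min η₁ η₂, min ε₁ ε₂, min ρ (1 / 8), lt_min η1 η2, lt_min ε1 ε2,
    lt_min ρ0 (by norm_num), fun θ H c ε w hε hε₀ => ?_⟩
  have η3 : min η₁ η₂ < 1 := by linarith [min_le_left η₁ η₂]
  have k1 := h1 θ H c ε R _ hε (hε₀.trans (min_le_left _ _)) (min_le_left _ _) w
  have k2 := h2 θ H c ε R _ hε (hε₀.trans (min_le_right _ _)) (min_le_right _ _) w
  have : ∀ v : ℂ × ℂ, ∃ t : ℂ × ℂ, (∃ q : ℂ × ℂ, St θ H v q ∧ ‖q.1 - v.1‖ < 1 / 8 ∧
      ‖q.2 - v.2‖ < ρ) → St θ H v t ∧ ‖t.1 - v.1‖ < 1 / 8 ∧ ‖t.2 - v.2‖ < ρ := fun v => by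
    by_cases h : ∃ q : ℂ × ℂ, St θ H v q ∧ ‖q.1 - v.1‖ < 1 / 8 ∧ ‖q.2 - v.2‖ < ρ
    · exact ⟨h.choose, fun _ => h.choose_spec⟩
    · exact ⟨v, fun k => (h k).elim⟩
  choose T hT using this
  refine ⟨T, fun p p1 p3 p4 => ?_⟩
  have p2 : ‖exp (I * p.1)‖ ≤ Real.exp R := by rw [mul_comm]; exact nexp p1
  obtain ⟨q, q1, q2, q3, q4⟩ := k1 p p1 p2 p3 p4
  obtain ⟨s1, s2, s3⟩ := hT p ⟨q, q1, q2, q3⟩
  have e : T p = q := q4 _ s1 s2.le s3.le
  rw [← e] at q4
  refine ⟨?_, s1, k2 p (T p) p1 p2 p3 p4 s3.le s2.le s1, fun q hq hn => q4 q hq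
    ((norm_fst_le (q - p)).trans (hn.trans (min_le_right _ _)))
    ((norm_snd_le (q - p)).trans (hn.trans (min_le_left _ _)))⟩
  have sn : sin (T p).2 ≠ 0 := fun e => by
    have n : ‖(T p).2‖ ≤ M + 1 := by
      have := norm_add_le p.2 ((T p).2 - p.2)
      rw [add_sub_cancel] at this
      linarith
    have := lsin (show ‖p.2‖ ≤ M + 1 by linarith) n
    rw [e, zero_sub, norm_neg] at this
    have := mul_le_mul_of_nonneg_left s3.le (Real.exp_pos (M + 1)).le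
    linarith
  have mp := mem1 p1 (y := p.1) (by simp)
  obtain ⟨T', b1, b2, b3, b4⟩ := w.ift η3 mp (mem1 p1 (by linarith)) s1 sn
  have c1 := b1.continuousAt
  have o5 : ∀ᶠ v in 𝓝 p, ‖(T' v).1 - v.1‖ < 1 / 8 :=
    (c1.fst.sub continuousAt_fst).norm.eventually
      (gt_mem_nhds (by simpa only [Pi.sub_apply, b2] using s2))
  have o6 : ∀ᶠ v in 𝓝 p, ‖(T' v).2 - v.2‖ < ρ :=
    (c1.snd.sub continuousAt_snd).norm.eventually
      (gt_mem_nhds (by simpa only [Pi.sub_apply, b2] using s3))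
  have o7 : ∀ᶠ v in 𝓝 p, St θ H v (T v) ∧ ‖(T v).1 - v.1‖ < 1 / 8 ∧ ‖(T v).2 - v.2‖ < ρ := by
    filter_upwards [b3, o5, o6] with v g0 g1 g2 using hT v ⟨_, g0, g1, g2⟩
  have tt : Tendsto T (𝓝 p) (𝓝 (T p)) := by
    refine (isCompact_closedBall p (1 / 4 + ρ)).tendsto_nhds_of_unique_mapClusterPt ?_
      fun x hx hc => ?_
    · filter_upwards [o7, ball_mem_nhds p (show (0 : ℝ) < 1 / 8 by norm_num)] with v g0 g1
      rw [mem_ball, dist_eq_norm] at g1
      have g2 : ‖T v - v‖ ≤ 1 / 8 + ρ := by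
        rw [Prod.norm_def]
        exact max_le (by simp only [Prod.fst_sub]; linarith [g0.2.1])
          (by simp only [Prod.snd_sub]; linarith [g0.2.2])
      have := norm_add_le (T v - v) (v - p)
      rw [sub_add_sub_cancel] at this
      rw [mem_closedBall, dist_eq_norm]
      linarith
    · haveI : (𝓝 p ⊓ comap T (𝓝 x)).NeBot := by
        rw [inf_comm]
        exact neBot_inf_comap_iff_map'.2 hc.clusterPt.neBot
      have t1 : Tendsto (fun v => v) (𝓝 p ⊓ comap T (𝓝 x)) (𝓝 p) := tendsto_inf_left tendsto_id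
      have t2 : Tendsto T (𝓝 p ⊓ comap T (𝓝 x)) (𝓝 x) := tendsto_inf_right tendsto_comap
      have o8 := o7.filter_mono (inf_le_left (b := comap T (𝓝 x)))
      have g1 : ‖x.1 - p.1‖ ≤ 1 / 8 :=
        le_of_tendsto (t2.fst_nhds.sub t1.fst_nhds).norm (o8.mono fun v hv => hv.2.1.le)
      have g2 : ‖x.2 - p.2‖ ≤ ρ :=
        le_of_tendsto (t2.snd_nhds.sub t1.snd_nhds).norm (o8.mono fun v hv => hv.2.2.le)
      have mx := mem1 p1 (y := x.1) (by linarith)
      refine q4 x ⟨?_, ?_⟩ g1 g2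
      · exact tendsto_nhds_unique_of_eventuallyEq
          ((((w.an mx).1.continuousAt.tendsto.comp t2.fst_nhds)).sub t2.snd_nhds)
          ((((w.an mp).1.continuousAt.tendsto.comp t1.fst_nhds)).add t1.snd_nhds)
          (o8.mono fun v hv => hv.1.1)
      · exact tendsto_nhds_unique_of_eventuallyEq
          ((w.app η3 analyticAt_fst analyticAt_snd.neg mx).continuousAt.tendsto.comp t2)
          ((w.app η3 analyticAt_fst analyticAt_snd mp).continuousAt.tendsto.comp t1)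
          (o8.mono fun v hv => hv.1.2)
  refine b1.congr ?_
  filter_upwards [o7, (tendsto_id.prodMk_nhds tt).eventually b4] with v g0 g1 using (g1 g0.1).symm

end Vale.Agent.P097E
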