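import Vale.Agent.P097E.Fold3

/-!
# P097E: the passage over the fold, conclusion
-/

set_option linter.all false

noncomputable section

namespace Vale.Agent.P097E

open Filter Topology Set Metric Complex

namespace Fold

theorem Reg.shift {E : Type} [NormedAddCommGroup E] [NormedSpace ℂ E] [CompleteSpace E]
    {L s t u : ℝ} {f g : ℂ → E} {p : ℂ} (h : Reg (Rc L s t) f (p + u)) (h1 : |p.re + u| < L)
    (e : ∀ x ∈ Rc L s t, x + u ∈ Rc L s t → g x = f (x + u)) : Reg (Rc L s t) g p := by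
  obtain ⟨F, aF, k⟩ := h
  have c : Continuous fun x : ℂ => x + u := by fun_prop
  have m : ∀ᶠ x : ℂ in 𝓝[Rc L s t] p, x + u ∈ Rc L s t := by
    have o : IsOpen {x : ℂ | |x.re + u| < L} := isOpen_lt (by fun_prop) continuous_const
    filter_upwards [nhdsWithin_le_nhds (o.mem_nhds h1), self_mem_nhdsWithin] with x a b
    exact ⟨by simpa using a, by simpa using b.2.1, by simpa using b.2.2⟩
  have tn : Tendsto (fun x : ℂ => x + u) (𝓝[Rc L s t] p) (𝓝[Rc L s t] (p + u)) :=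
    tendsto_nhdsWithin_iff.2 ⟨(c.tendsto p).mono_left nhdsWithin_le_nhds, m⟩
  refine ⟨fun x => F (x + u), AnalyticAt.comp (f := fun x : ℂ => x + u) aF (by fun_prop), ?_⟩
  filter_upwards [tn.eventually k, m, self_mem_nhdsWithin] with x a b d using (e x d b).trans a

/-- a transversal cluster value -/
def ND (S : Set ℂ) (K : Set (ℂ × ℂ)) (G : ℂ → ℂ × ℂ) (p : ℂ) : Prop :=
  ∃ (U : Filter ℂ) (z : ℂ × ℂ), U.NeBot ∧ U ≤ 𝓝[S] p ∧ Tendsto G U (𝓝 z) ∧ z ∈ K ∧ 1 + cos z.2 ≠ 0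

namespace Dt

variable {θ H : ℂ → ℂ} {c y₀ a : ℂ} {ρ r e C τ L h b t : ℝ} {Z G : ℂ → ℂ × ℂ}
  (D : Dt θ H c y₀ a ρ r e C τ L h b Z) (g : Gd y₀ ρ r L h t Z G)
include D g

theorem dif (j : ℕ) : ∀ x ∈ Rc (7 * L / 8) (-(2 * h)) t, x + ((j * e : ℝ) : ℂ) ∈
    Rc (7 * L / 8) (-(2 * h)) t →
    ‖cos (G (x + ((j * e : ℝ) : ℂ))).2 - cos (G x).2 - a * (j * e)‖ ≤ τ * ‖a‖ * (j * e) := by
  have e0 := D.e0
  induction j with
  | zero => intro x _ _; simp
  | succ j ih =>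
    intro x m n
    have q : x + (((j + 1 : ℕ) * e : ℝ) : ℂ) = x + ((j * e : ℝ) : ℂ) + e := by
      push_cast
      ring
    rw [q] at n ⊢
    have m' : x + ((j * e : ℝ) : ℂ) ∈ Rc (7 * L / 8) (-(2 * h)) t := by
      refine ⟨?_, by simpa using m.2.1, by simpa using m.2.2⟩
      have b1 := abs_lt.1 m.1
      have b2 := abs_lt.1 n.1
      have b3 : 0 ≤ (j : ℝ) * e := by positivity
      simp only [add_re, ofReal_re] at b2 ⊢
      rw [abs_lt]
      constructor <;> linarith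
    have b1 := ih x m m'
    have b2 := (D.se _ (g.mem m') _ (g.mem n) (D.stp g m' n)).1
    have b3 := norm_add_le (cos (G (x + ((j * e : ℝ) : ℂ))).2 - cos (G x).2 - a * (j * e))
      (cos (G (x + ((j * e : ℝ) : ℂ) + e)).2 - cos (G (x + ((j * e : ℝ) : ℂ))).2 - a * e)
    push_cast at b1 b2 b3 ⊢
    rw [show cos (G (x + j * e)).2 - cos (G x).2 - a * (j * e) +
      (cos (G (x + j * e + e)).2 - cos (G (x + j * e)).2 - a * e) =
      cos (G (x + j * e + e)).2 - cos (G x).2 - a * ((j + 1) * e) by ring] at b3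
    linarith

variable (tb : t < b)
include tb

theorem lim {U : Ultrafilter ℂ} {f : ℂ → ℂ}
    (hf : ∀ᶠ x in (U : Filter ℂ), f x ∈ Rc (7 * L / 8) (-(2 * h)) t) :
    ∃ z ∈ closedBall y₀ (ρ / 2) ×ˢ closedBall (Real.pi : ℂ) (r / 2),
      Tendsto (fun x => G (f x)) U (𝓝 z) :=
  ((isCompact_closedBall _ _).prod (isCompact_closedBall _ _)).ultrafilter_le_nhds'
    (U.map fun x => G (f x)) (hf.mono fun x m => (D.bnd g tb.le m).2)

theorem nb {p : ℂ} (h1 : |p.re| ≤ 7 * L / 8) (h2 : p.im = t) :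
    (𝓝[Rc (7 * L / 8) (-(2 * h)) t] p).NeBot :=
  mem_closure_iff_nhdsWithin_neBot.1 (Rc_cl (by linarith [D.L0]) (by linarith [g.ht, D.h0]) h1 h2)

theorem nd2 {p : ℂ} (j : ℕ) (h1 : |p.re| < 7 * L / 8) (h2 : p.im = t)
    (h3 : |p.re + (j + 1 : ℕ) * e| < 7 * L / 8) :
    ND (Rc (7 * L / 8) (-(2 * h)) t) (closedBall y₀ (ρ / 2) ×ˢ closedBall (Real.pi : ℂ) (r / 2)) G p ∨
    ND (Rc (7 * L / 8) (-(2 * h)) t) (closedBall y₀ (ρ / 2) ×ˢ closedBall (Real.pi : ℂ) (r / 2)) G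
      (p + (((j + 1 : ℕ) * e : ℝ) : ℂ)) := by
  have := D.nb g tb h1.le h2
  set u : ℝ := (j + 1 : ℕ) * e with hu
  have u0 : 0 < u := mul_pos (by positivity) D.e0
  set U := Ultrafilter.of (𝓝[Rc (7 * L / 8) (-(2 * h)) t] p)
  have hU : (U : Filter ℂ) ≤ 𝓝[Rc (7 * L / 8) (-(2 * h)) t] p := Ultrafilter.of_le _
  have m0 : ∀ᶠ x in (U : Filter ℂ), x ∈ Rc (7 * L / 8) (-(2 * h)) t :=
    eventually_mem_nhdsWithin.filter_mono hU
  have m1 : ∀ᶠ x : ℂ in (U : Filter ℂ), x + u ∈ Rc (7 * L / 8) (-(2 * h)) t := by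
    have o : IsOpen {x : ℂ | |x.re + u| < 7 * L / 8} := isOpen_lt (by fun_prop) continuous_const
    filter_upwards [hU (nhdsWithin_le_nhds (o.mem_nhds h3)), m0] with x a b
    exact ⟨by simpa using a, by simpa using b.2.1, by simpa using b.2.2⟩
  obtain ⟨z, z1, z2⟩ := D.lim g tb (f := fun x => x) m0
  obtain ⟨z', z3, z4⟩ := D.lim g tb (f := fun x => x + u) m1
  have cc : Continuous fun z : ℂ × ℂ => cos z.2 := by fun_prop
  have k : ‖cos z'.2 - cos z.2 - a * ((j + 1 : ℕ) * e)‖ ≤ τ * ‖a‖ * u :=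
    le_of_tendsto (((((cc.tendsto _).comp z4).sub ((cc.tendsto _).comp z2)).sub_const _).norm)
      (by filter_upwards [m0, m1] with x b1 b2 using D.dif g (j + 1) x b1 b2)
  by_cases k1 : 1 + cos z.2 = 0
  · refine Or.inr ⟨map (fun x => x + u) U, z', map_neBot, tendsto_nhdsWithin_iff.2 ⟨?_, m1⟩,
      tendsto_map' z4, z3, fun k2 => ?_⟩
    · exact ((continuous_add_const (u : ℂ)).tendsto p).mono_left (hU.trans nhdsWithin_le_nhds)
    · rw [show cos z'.2 - cos z.2 = 0 by linear_combination k2 - k1, zero_sub, norm_neg, norm_mul,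
        show ((j + 1 : ℕ) : ℂ) * e = (u : ℂ) by rw [hu]; push_cast; ring, norm_real,
        Real.norm_eq_abs, abs_of_pos u0] at k
      have b1 : 30 * τ ≤ 1 :=
        le_of_mul_le_mul_right (by linarith [D.τb, D.bh, D.hL, D.h0]) D.L0
      nlinarith [mul_pos (norm_pos_iff.2 D.a0) u0]
  · exact Or.inl ⟨U, z, inferInstance, hU, z2, z1, k1⟩

theorem KB {z : ℂ × ℂ} (m : z ∈ closedBall y₀ (ρ / 2) ×ˢ closedBall (Real.pi : ℂ) (r / 2)) :
    z.1 ∈ ball y₀ ρ ∧ ‖z.2 - Real.pi‖ ≤ 1 :=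
  ⟨closedBall_subset_ball (by linarith [D.ρ0]) m.1,
    (mem_closedBall_iff_norm.1 m.2).trans (by linarith [D.r0, D.r1])⟩

/-- a regular vertex has regular lines -/
theorem lines {p : ℂ} (h1 : |p.re| ≤ 7 * L / 8) (h2 : p.im = t)
    (R : Reg (Rc (7 * L / 8) (-(2 * h)) t) G p) :
    Reg (Rc (7 * L / 8) (-(2 * h)) t) (fun x => out θ H (G x)) p ∧
    Reg (Rc (7 * L / 8) (-(2 * h)) t) (fun x => out θ H (ng (G x))) p := by
  have := D.nb g tb h1 h2
  have hU := Ultrafilter.of_le (𝓝[Rc (7 * L / 8) (-(2 * h)) t] p)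
  obtain ⟨z, z1, z2⟩ := D.lim g tb (f := fun x => x) (eventually_mem_nhdsWithin.filter_mono hU)
  exact ⟨R.comp hU z2 (D.w.an_out (D.KB g tb z1).1), R.comp hU z2 (Φ := fun v => out θ H (ng v))
    (AnalyticAt.comp (f := ng) (D.w.an_out (z := ng z) (D.KB g tb z1).1) (an_ng z))⟩

theorem rcol {p : ℂ} (h1 : |p.re| ≤ 7 * L / 8) (h2 : p.im = t) (h3 : L / 2 < |p.re|) :
    Reg (Rc (7 * L / 8) (-(2 * h)) t) G p := by
  have m : p ∈ Vs L h b := ⟨by linarith [D.L0], by linarith [g.ht, D.h0], Or.inr ⟨h3, h2 ▸ tb⟩⟩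
  refine ⟨Z, D.dZ.analyticOnNhd (Vs_open L h b) p m, ?_⟩
  have o : IsOpen {x : ℂ | L / 2 < |x.re|} := isOpen_lt continuous_const (by fun_prop)
  filter_upwards [nhdsWithin_le_nhds (o.mem_nhds h3), self_mem_nhdsWithin] with x a b
    using D.col g tb.le b a

theorem ofO {p : ℂ} (N : ND (Rc (7 * L / 8) (-(2 * h)) t)
      (closedBall y₀ (ρ / 2) ×ˢ closedBall (Real.pi : ℂ) (r / 2)) G p)
    (R : Reg (Rc (7 * L / 8) (-(2 * h)) t) (fun x => out θ H (G x)) p) :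
    Reg (Rc (7 * L / 8) (-(2 * h)) t) G p := by
  obtain ⟨U, z, _, hU, z1, z2, z3⟩ := N
  exact D.w.regF (Rc_open _ _ _) (Rc_convex _ _ _) g.d hU z1 (D.KB g tb z2).1
    (sin_ne (D.KB g tb z2).2 z3) R

theorem ofI {p : ℂ} (N : ND (Rc (7 * L / 8) (-(2 * h)) t)
      (closedBall y₀ (ρ / 2) ×ˢ closedBall (Real.pi : ℂ) (r / 2)) G p)
    (R : Reg (Rc (7 * L / 8) (-(2 * h)) t) (fun x => out θ H (ng (G x))) p) :
    Reg (Rc (7 * L / 8) (-(2 * h)) t) G p := by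
  obtain ⟨U, z, _, hU, z1, z2, z3⟩ := N
  have t1 : Tendsto (fun x => ng (G x)) U (𝓝 (ng z)) := (an_ng z).continuousAt.tendsto.comp z1
  have k := D.w.regF (G := fun x => ng (G x)) (Rc_open _ _ _) (Rc_convex _ _ _)
    (g.d.fst.prodMk g.d.snd.neg) hU t1 (D.KB g tb z2).1
    (by simpa [ng] using sin_ne (D.KB g tb z2).2 z3) R
  simpa only [ng_ng] using k.comp hU t1 (an_ng _)

theorem fw (n : ℕ) : ∀ p : ℂ, |p.re| < 7 * L / 8 → p.im = t → p.re < -(L / 2) + n * e →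
    (∀ (q : ℂ) (j : ℕ), |q.re| < 7 * L / 8 → q + (((j + 1 : ℕ) * e : ℝ) : ℂ) = p →
      ND (Rc (7 * L / 8) (-(2 * h)) t)
        (closedBall y₀ (ρ / 2) ×ˢ closedBall (Real.pi : ℂ) (r / 2)) G q) →
    Reg (Rc (7 * L / 8) (-(2 * h)) t) (fun x => out θ H (ng (G x))) p := by
  have base : ∀ p : ℂ, |p.re| < 7 * L / 8 → p.im = t → p.re < -(L / 2) →
      Reg (Rc (7 * L / 8) (-(2 * h)) t) (fun x => out θ H (ng (G x))) p := fun p h1 h2 h3 =>
    (D.lines g tb h1.le h2 (D.rcol g tb h1.le h2 (lt_abs.2 (Or.inr (lt_neg.1 h3))))).2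
  induction n with
  | zero => exact fun p h1 h2 h3 _ => base p h1 h2 (by simpa using h3)
  | succ n ih =>
    intro p h1 h2 h3 h4
    by_cases k : p.re < -(L / 2)
    · exact base p h1 h2 k
    push_cast at h3
    have a1 : |p.re + -e| < 7 * L / 8 := by
      have := abs_lt.1 h1
      rw [abs_lt]
      constructor <;> linarith [D.eL, D.e0]
    have a2 : |(p + ((-e : ℝ) : ℂ)).re| < 7 * L / 8 := by simpa using a1
    have a3 : (p + ((-e : ℝ) : ℂ)).im = t := by simpa using h2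
    have r1 := ih (p + ((-e : ℝ) : ℂ)) a2 a3 (by simp; linarith) fun q j b1 b2 =>
      h4 q (j + 1) b1 (by
        push_cast at b2 ⊢
        linear_combination b2)
    have r2 := (D.lines g tb a2.le a3 (D.ofI g tb (h4 _ 0 a2 (by push_cast; ring)) r1)).1
    refine r2.shift a1 fun x m m' => ?_
    have q : x + ((-e : ℝ) : ℂ) + e = x := by
      push_cast
      ring
    have := D.stp g m' (by rwa [q])
    rw [q] at this
    exact this.symm

theorem bw (n : ℕ) : ∀ p : ℂ, |p.re| < 7 * L / 8 → p.im = t → L / 2 - n * e < p.re →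
    (∀ (q : ℂ) (j : ℕ), |q.re| < 7 * L / 8 → p + (((j + 1 : ℕ) * e : ℝ) : ℂ) = q →
      ND (Rc (7 * L / 8) (-(2 * h)) t)
        (closedBall y₀ (ρ / 2) ×ˢ closedBall (Real.pi : ℂ) (r / 2)) G q) →
    Reg (Rc (7 * L / 8) (-(2 * h)) t) (fun x => out θ H (G x)) p := by
  have base : ∀ p : ℂ, |p.re| < 7 * L / 8 → p.im = t → L / 2 < p.re →
      Reg (Rc (7 * L / 8) (-(2 * h)) t) (fun x => out θ H (G x)) p := fun p h1 h2 h3 =>
    (D.lines g tb h1.le h2 (D.rcol g tb h1.le h2 (lt_abs.2 (Or.inl h3)))).1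
  induction n with
  | zero => exact fun p h1 h2 h3 _ => base p h1 h2 (by simpa using h3)
  | succ n ih =>
    intro p h1 h2 h3 h4
    by_cases k : L / 2 < p.re
    · exact base p h1 h2 k
    push_cast at h3
    have a1 : |p.re + e| < 7 * L / 8 := by
      have := abs_lt.1 h1
      rw [abs_lt]
      constructor <;> linarith [D.eL, D.e0]
    have a2 : |(p + e).re| < 7 * L / 8 := by simpa using a1
    have a3 : (p + e).im = t := by simpa using h2
    have r1 := ih (p + e) a2 a3 (by simp; linarith) fun q j b1 b2 =>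
      h4 q (j + 1) b1 (by
        push_cast at b2 ⊢
        linear_combination b2)
    have r2 := (D.lines g tb a2.le a3 (D.ofO g tb (h4 _ 0 a2 (by push_cast; ring)) r1)).2
    exact r2.shift a1 fun x m m' => D.stp g m m'

theorem reg (p : ℂ) (h1 : |p.re| ≤ 7 * L / 8) (h2 : p.im = t) :
    Reg (Rc (7 * L / 8) (-(2 * h)) t) G p := by
  by_cases k : L / 2 < |p.re|
  · exact D.rcol g tb h1 h2 k
  have L0 := D.L0
  have h3 : |p.re| < 7 * L / 8 := by linarith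
  have h4 := abs_le.1 (not_lt.1 k)
  obtain ⟨n, hn⟩ := exists_nat_gt (L / e)
  rw [div_lt_iff₀ D.e0] at hn
  have F := D.fw g tb n p h3 h2 (by linarith)
  have B := D.bw g tb n p h3 h2 (by linarith)
  have two : ∀ (q q' : ℂ) (j : ℕ), |q.re| < 7 * L / 8 → |q'.re| < 7 * L / 8 → q.im = t →
      q + (((j + 1 : ℕ) * e : ℝ) : ℂ) = q' → _ := fun q q' j b1 b2 b3 b4 =>
    b4 ▸ D.nd2 g tb j b1 b3 (by rw [← b4] at b2; simpa using b2)
  have im : ∀ (q : ℂ) (u : ℝ), q + u = p → q.im = t := fun q u k => by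
    rw [← h2, ← k]
    simp
  by_cases N : ND (Rc (7 * L / 8) (-(2 * h)) t)
      (closedBall y₀ (ρ / 2) ×ˢ closedBall (Real.pi : ℂ) (r / 2)) G p
  · by_cases N' : ∀ (q : ℂ) (j : ℕ), |q.re| < 7 * L / 8 → q + (((j + 1 : ℕ) * e : ℝ) : ℂ) = p →
        ND (Rc (7 * L / 8) (-(2 * h)) t)
          (closedBall y₀ (ρ / 2) ×ˢ closedBall (Real.pi : ℂ) (r / 2)) G q
    · exact D.ofI g tb N (F N')
    · push Not at N'
      obtain ⟨q, j, b1, b2, b3⟩ := N'
      refine D.ofO g tb N (B fun q' j' b4 b5 => ?_)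
      refine (two q q' (j + j' + 1) b1 b4 (im q _ b2) ?_).resolve_left b3
      push_cast at b2 b5 ⊢
      linear_combination b2 + b5
  · have := D.nb g tb h1 h2
    have hU := Ultrafilter.of_le (𝓝[Rc (7 * L / 8) (-(2 * h)) t] p)
    obtain ⟨z, z1, z2⟩ := D.lim g tb (f := fun x => x) (eventually_mem_nhdsWithin.filter_mono hU)
    exact D.w.regD (Rc_open _ _ _) (Rc_convex _ _ _) g.d hU z2 (D.KB g tb z1).1
      (B fun q j b1 b2 => (two p q j h3 b1 h2 b2).resolve_left N)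
      (F fun q j b1 b2 => (two q p j b1 h3 (im q _ b2) b2).resolve_right N)

end Dt

theorem Dt.absurd {θ H : ℂ → ℂ} {c y₀ a : ℂ} {ρ r e C τ L h b : ℝ} {Z : ℂ → ℂ × ℂ}
    (D : Dt θ H c y₀ a ρ r e C τ L h b Z) : False := by
  have L0 := D.L0
  have h0 := D.h0
  have b0 := D.b0
  obtain ⟨G, g1, g2, g3⟩ := rise (Z := Z) (P := ball y₀ ρ ×ˢ ball (Real.pi : ℂ) r)
    (L := 7 * L / 8) (s := -(2 * h)) (t₀ := -h) (b := b) (by linarith) (by linarith) (by linarith)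
    (D.dZ.mono D.sub0) (fun x m => (D.bot x (D.sub0 m) m.2.2).1) fun t G a1 a2 a3 a4 a5 =>
      up (isOpen_ball.prod isOpen_ball) (isClosed_closedBall.prod isClosed_closedBall)
        (Set.prod_mono (closedBall_subset_ball (by linarith [D.ρ0]))
          (closedBall_subset_ball (by linarith [D.r0]))) (by linarith) (by linarith) a3
        (fun x m => (D.bnd ⟨a1, a3, a4, a5⟩ a2.le m).2) (D.reg ⟨a1, a3, a4, a5⟩ a2)
  have sub : ball (0 : ℂ) b ⊆ Rc (7 * L / 8) (-(2 * h)) b := by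
    intro x m
    have k1 := (abs_re_le_norm x).trans_lt (mem_ball_zero_iff.1 m)
    have k2 := abs_lt.1 ((abs_im_le_norm x).trans_lt (mem_ball_zero_iff.1 m))
    exact ⟨by linarith [D.bh, D.hL], by linarith [D.bh, k2.1], k2.2⟩
  exact sq b0 D.a0 (g1.snd.mono sub) fun x m =>
    (D.bnd ⟨by linarith, g1, g2, g3⟩ le_rfl (sub m)).1

end Fold

open Fold

theorem fold : Fold.Spec_FOLD := by
  intro θ H c y₀ a ρ r e C τ L h b Y D h1 h2 h3 h4 h5 h6 h7 h8 h9 h10 h11 h12 h13 h14 h15 h16 h17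
    h18 se dY dD bot left
  exact Dt.absurd (Z := fun x => (Y x, D x)) ⟨⟨isOpen_ball, h1, h2, h3, h4⟩, h5, h6, h7, h8, h9,
    h10, h11, h12, h13, h14, h15, h16, h17, h18,
    fun z m z' m' k => se _ m.1 _ m'.1 _ m.2 _ m'.2 (stp_iff.2 k), dY.prodMk dD,
    fun x m k => ⟨⟨(bot x m k).1, (bot x m k).2.1⟩, fun n =>
      (stp_iff (z := (Y x, D x)) (z' := (Y (x + e), D (x + e)))).1 ((bot x m k).2.2 n)⟩, left⟩

end Vale.Agent.P097E
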