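import Vale.Agent.P097E.Defs
import Vale.Agent.P097E.Fold

/-!
# P097E: the window theorem from the gaps
-/

set_option linter.all false

noncomputable section

namespace Vale.Agent.P097E

open Filter Topology Set Metric Complex Cs Fold

namespace Fn

/-- one branch of the logarithm -/
theorem branch {Y : ℂ → ℂ} {U : Set ℂ} {σ x₀ : ℂ} {ρ : ℝ} (hU : IsPreconnected U)
    (hY : ContinuousOn Y U) (hσ : σ ≠ 0) (hρ : ρ ≤ 1) (m₀ : x₀ ∈ U)
    (h : ∀ x ∈ U, ‖exp (-(Y x * I)) - σ‖ ≤ ‖σ‖ * ρ / 6) :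
    ∃ y₀ : ℂ, exp (-(y₀ * I)) = σ ∧ ∀ x ∈ U, ‖Y x - y₀‖ ≤ ρ / 4 := by
  have s0 : 0 < ‖σ‖ := norm_pos_iff.2 hσ
  have k1 : ∀ x ∈ U, ‖exp (-(Y x * I)) / σ - 1‖ ≤ ρ / 6 := by
    intro x m
    rw [div_sub_one hσ, norm_div, div_le_iff₀ s0]
    linarith [h x m]
  have k2 : ∀ x ∈ U, exp (-(Y x * I)) / σ ∈ slitPlane := by
    intro x m
    have := mem_slitPlane_of_norm_lt_one ((k1 x m).trans_lt (by linarith))
    rwa [add_sub_cancel] at this
  have k3 : ∀ x ∈ U, exp (-(Y x * I) - log (exp (-(Y x * I)) / σ)) = σ := by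
    intro x m
    rw [exp_sub, exp_log (div_ne_zero (exp_ne_zero _) hσ), div_div_cancel₀ (exp_ne_zero _)]
  have c1 : ContinuousOn (fun x => -(Y x * I) - log (exp (-(Y x * I)) / σ)) U :=
    (hY.mul continuousOn_const).neg.sub
      (((hY.mul continuousOn_const).neg.cexp.div_const σ).clog k2)
  have k4 := (countable_preimage_exp.2 (countable_singleton σ)).isTotallyDisconnected _
    (by rintro _ ⟨x, m, rfl⟩; exact k3 x m) (hU.image _ c1)
  refine ⟨(-(Y x₀ * I) - log (exp (-(Y x₀ * I)) / σ)) * I, ?_, fun x m => ?_⟩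
  · rw [mul_assoc, I_mul_I, mul_neg_one, neg_neg]
    exact k3 x₀ m₀
  · have e : -(Y x₀ * I) - log (exp (-(Y x₀ * I)) / σ) = -(Y x * I) - log (exp (-(Y x * I)) / σ) :=
      k4 (mem_image_of_mem _ m₀) (mem_image_of_mem _ m)
    have b := norm_log_one_add_half_le_self ((k1 x m).trans (by linarith))
    rw [add_sub_cancel] at b
    rw [e, show Y x - (-(Y x * I) - log (exp (-(Y x * I)) / σ)) * I =
      log (exp (-(Y x * I)) / σ) * I by linear_combination (Y x) * I_mul_I, norm_mul, norm_I,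
      mul_one]
    linarith [k1 x m]

theorem Vs_eq (β : ℝ) : Ush (200 * β) (20 * β) (10 * β) (2 * β) = Vs (200 * β) (10 * β) (2 * β) := by
  unfold Ush Vs
  rw [show 2 * (10 * β) = 20 * β by ring]

theorem ze_eq {zs : ℝ} (h : 0 < zs) (x : ℂ) :
    ze (x + Real.log zs * I, 1) = zs * exp (-(x * I)) := by
  rw [ze, one_mul, show -((x + Real.log zs * I) * I) = Real.log zs + -(x * I) by
    linear_combination (-(Real.log zs : ℂ)) * I_mul_I, exp_add, ← ofReal_exp, Real.exp_log h]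

theorem clo {sg Zm : ℂ → ℂ} {zs τ β η r r₂ b₁ B : ℝ} {σ a x y d : ℂ} (zs0 : 0 < zs)
    (hσ : σ = sg Real.pi) (ha : a = I * σ ^ 2 / 4) (A0 : 0 < ‖a‖) (τ0 : 0 < τ) (β0 : 0 < β)
    (β3 : 12 * (200 * β) ≤ τ) (τ1 : τ ≤ 1) (β4 : 5 * zs * (200 * β) < b₁)
    (η1 : η ≤ ‖σ‖ * r / 12) (η2 : η ≤ τ * zs * (200 * β) / 3)
    (hs : ∀ ⦃v : ℂ⦄, dist v Real.pi < r₂ → dist (sg v) (sg Real.pi) < ‖σ‖ * r / 12)
    (hb : ∀ d : ℂ, |d.re| ≤ Real.pi → ‖Zm d - zs‖ < b₁ →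
      ‖d - Real.pi‖ < min (min r r₂) (τ * ‖a‖ / (15 * zs)) ∧
      ‖1 + cos d - sg Real.pi ^ 2 / (4 * zs) * (zs - Zm d)‖ ≤
        min (min r r₂) (τ * ‖a‖ / (15 * zs)) * ‖zs - Zm d‖)
    (hc : Cls sg Zm η B (x + Real.log zs * I, 1) (y, d)) (n1 : ‖x‖ ≤ 2 * (200 * β)) :
    ‖d - Real.pi‖ < r ∧ ‖exp (-(y * I)) - σ‖ ≤ ‖σ‖ * r / 6 ∧
      ‖1 + cos d - a * x‖ ≤ τ * ‖a‖ * (200 * β) := by
  obtain ⟨c1, -, c2, c3⟩ := hc
  rw [ze_eq zs0] at c2
  simp only [ze, one_mul] at c1 c2 c3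
  have n2 : ‖-(x * I)‖ = ‖x‖ := by simp
  have n3 : ‖-(x * I)‖ ≤ 1 := by rw [n2]; linarith
  have d1 : ‖(zs : ℂ) * exp (-(x * I)) - zs‖ ≤ zs * (2 * (2 * (200 * β))) := by
    rw [← mul_sub_one, norm_mul, norm_real, Real.norm_eq_abs, abs_of_pos zs0]
    refine mul_le_mul_of_nonneg_left ((norm_exp_sub_one_le n3).trans ?_) zs0.le
    rw [n2]
    linarith
  have d2 : ‖Zm d - zs‖ ≤ 5 * zs * (200 * β) := by
    have := norm_add_le (Zm d - zs * exp (-(x * I))) (zs * exp (-(x * I)) - zs)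
    rw [sub_add_sub_cancel] at this
    have t : τ * (zs * β) ≤ 1 * (zs * β) := mul_le_mul_of_nonneg_right (by linarith) (by positivity)
    linarith [mul_pos zs0 β0]
  obtain ⟨d3, d4⟩ := hb d c1 (d2.trans_lt β4)
  refine ⟨d3.trans_le ((min_le_left _ _).trans (min_le_left _ _)), ?_, ?_⟩
  · have d5 := hs (show dist d Real.pi < r₂ from by
      rw [dist_eq_norm]
      exact d3.trans_le ((min_le_left _ _).trans (min_le_right _ _)))
    rw [dist_eq_norm, ← hσ] at d5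
    have := norm_sub_le (sg d - σ) (sg d - exp (-(y * I)))
    rw [sub_sub_sub_cancel_left] at this
    linarith
  · rw [← hσ, norm_sub_rev (zs : ℂ)] at d4
    have d5 : min (min r r₂) (τ * ‖a‖ / (15 * zs)) * ‖Zm d - zs‖ ≤
        τ * ‖a‖ / (15 * zs) * (5 * zs * (200 * β)) :=
      mul_le_mul (min_le_right _ _) d2 (norm_nonneg _) (by positivity)
    rw [show τ * ‖a‖ / (15 * zs) * (5 * zs * (200 * β)) = τ * ‖a‖ * (200 * β) / 3 by
      field_simp; ring] at d5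
    have z0 : (zs : ℂ) ≠ 0 := ofReal_ne_zero.2 zs0.ne'
    have q : 1 + cos d - a * x = (1 + cos d - σ ^ 2 / (4 * zs) * (zs - Zm d)) +
        (a * I / zs * (Zm d - zs * exp (-(x * I))) +
          a * I * (exp (-(x * I)) - 1 - -(x * I))) := by
      rw [ha]
      field_simp
      linear_combination (σ ^ 2 * zs - σ ^ 2 * Zm d - σ ^ 2 * zs * x * I) * I_mul_I
    have d6 : ‖a * I / zs * (Zm d - zs * exp (-(x * I)))‖ ≤ τ * ‖a‖ * (200 * β) / 3 := by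
      rw [norm_mul, norm_div, norm_mul, norm_I, mul_one, norm_real, Real.norm_eq_abs,
        abs_of_pos zs0]
      refine (mul_le_mul_of_nonneg_left (c2.trans η2) (by positivity)).trans_eq ?_
      field_simp
    have d7 : ‖a * I * (exp (-(x * I)) - 1 - -(x * I))‖ ≤ τ * ‖a‖ * (200 * β) / 3 := by
      rw [norm_mul, norm_mul, norm_I, mul_one]
      have t1 := norm_exp_sub_one_sub_id_le n3
      rw [n2] at t1
      have t2 : ‖x‖ ^ 2 ≤ τ * (200 * β) / 3 := by nlinarith [norm_nonneg x]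
      exact (mul_le_mul_of_nonneg_left (t1.trans t2) A0.le).trans_eq (by ring)
    rw [q]
    refine (norm_add_le _ _).trans ((add_le_add le_rfl (norm_add_le _ _)).trans ?_)
    linarith

theorem stp {θ H : ℂ → ℂ} {σ a y₀ y y' d d' : ℂ} {r r₀ τ C ε : ℝ} (r2 : r ≤ r₀) (r3 : r ≤ 1 / 16)
    (hC : C = 10 * (2 * ‖σ‖⁻¹) + τ * ‖a‖ / 2) (ε0 : 0 < ε) (y1 : exp (-(y₀ * I)) = σ)
    (hr : ∀ v : ℂ × ℂ × ℂ, dist v (0, Real.pi, Real.pi) < r₀ →
      dist (3 * I * (σ⁻¹ * exp (I * v.1)) * (SS v.2.1 + SS v.2.2)) a < τ * ‖a‖ / 2)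
    (hE : ∀ p q : ℂ × ℂ, p.1 ∈ ball y₀ r → ‖exp (I * p.1)‖ ≤ 2 * ‖σ‖⁻¹ → ‖p.2‖ ≤ 5 → ‖q.2‖ ≤ 5 →
      ‖q.1 - p.1‖ ≤ 1 / 8 → St θ H p q →
      ‖q.1 - p.1 - ε * (p.2 + q.2) * exp (I * p.1)‖ ≤ τ * ‖a‖ / 2 * ε ∧
      ‖cos q.2 - cos p.2 - 3 * I * ε * exp (I * p.1) * (SS p.2 + SS q.2)‖ ≤ τ * ‖a‖ / 2 * ε)
    (k : y ∈ ball y₀ r) (k' : y' ∈ ball y₀ r) (n : d ∈ ball (Real.pi : ℂ) r)
    (n' : d' ∈ ball (Real.pi : ℂ) r) (s : Stq θ H y d y' d') :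
    ‖cos d' - cos d - a * ε‖ ≤ τ * ‖a‖ * ε ∧ ‖y' - y‖ ≤ C * ε := by
  have ex : ∀ y, exp (I * y) = σ⁻¹ * exp (I * (y - y₀)) := by
    intro y
    rw [← y1, ← exp_neg, ← exp_add]
    congr 1
    ring
  have nd : ∀ d ∈ ball (Real.pi : ℂ) r, ‖d‖ ≤ 5 := by
    intro d k
    have d1 := norm_sub_norm_le d Real.pi
    rw [norm_real, Real.norm_eq_abs, abs_of_pos Real.pi_pos] at d1
    linarith [mem_ball_iff_norm.1 k, Real.pi_le_four]
  have u1 := mem_ball_iff_norm.1 k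
  have u2 := mem_ball_iff_norm.1 k'
  have u3 : ‖exp (I * y)‖ ≤ 2 * ‖σ‖⁻¹ := by
    have t1 := norm_exp_sub_one_le (x := I * (y - y₀)) (by rw [norm_mul, norm_I]; linarith)
    have t2 := norm_sub_norm_le (exp (I * (y - y₀))) 1
    rw [norm_mul, norm_I] at t1
    rw [norm_one] at t2
    rw [ex, norm_mul, norm_inv, mul_comm]
    exact mul_le_mul_of_nonneg_right (by linarith) (by positivity)
  have u4 : ‖y' - y‖ ≤ 1 / 8 := by
    have := norm_sub_le (y' - y₀) (y - y₀)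
    rw [sub_sub_sub_cancel_right] at this
    linarith
  obtain ⟨v1, v2⟩ := hE (y, d) (y', d') k u3 (nd d n) (nd d' n') u4 ⟨s.1.symm, s.2.symm⟩
  simp only at v1 v2
  constructor
  · have t1 := hr (y - y₀, d, d') (by
      simp only [Prod.dist_eq, dist_zero_right, max_lt_iff]
      exact ⟨by linarith, (mem_ball.1 n).trans_le r2, (mem_ball.1 n').trans_le r2⟩)
    rw [dist_eq_norm] at t1
    simp only at t1
    rw [← ex] at t1
    have t2 := norm_add_le (cos d' - cos d - 3 * I * ε * exp (I * y) * (SS d + SS d'))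
      ((3 * I * exp (I * y) * (SS d + SS d') - a) * ε)
    rw [norm_mul, norm_real, Real.norm_eq_abs, abs_of_pos ε0,
      show cos d' - cos d - 3 * I * ε * exp (I * y) * (SS d + SS d') +
        (3 * I * exp (I * y) * (SS d + SS d') - a) * ε = cos d' - cos d - a * ε by ring] at t2
    have t3 := mul_le_mul_of_nonneg_right t1.le ε0.le
    linarith
  · have t1 := norm_add_le (y' - y - ε * (d + d') * exp (I * y)) (ε * (d + d') * exp (I * y))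
    rw [sub_add_cancel, norm_mul, norm_mul, norm_real, Real.norm_eq_abs, abs_of_pos ε0] at t1
    have t2 : ‖d + d'‖ ≤ 10 := (norm_add_le _ _).trans (by linarith [nd d n, nd d' n'])
    have t3 : ‖d + d'‖ * ‖exp (I * y)‖ ≤ 10 * (2 * ‖σ‖⁻¹) :=
      mul_le_mul t2 u3 (norm_nonneg _) (by norm_num)
    have t4 := mul_le_mul_of_nonneg_left t3 ε0.le
    rw [hC]
    linarith

end Fn

open Fn

theorem fin : Spec_FIN := by
  intro sg Zm zs _ m gap L₀ M₀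
  have zs0 := m.pos
  obtain ⟨σ, hσ⟩ : ∃ σ, σ = sg Real.pi := ⟨_, rfl⟩
  have cb : σ ^ 3 = 24 * Real.pi := hσ ▸ m.cube
  have σ0 : σ ≠ 0 := by
    rintro rfl
    have : (Real.pi : ℂ) = 0 := by linear_combination (-1 / 24 : ℂ) * cb
    exact Real.pi_ne_zero (ofReal_eq_zero.1 this)
  have s0 : 0 < ‖σ‖ := norm_pos_iff.2 σ0
  obtain ⟨a, ha⟩ : ∃ a, a = I * σ ^ 2 / 4 := ⟨_, rfl⟩
  have a0 : a ≠ 0 := ha ▸ div_ne_zero (mul_ne_zero I_ne_zero (pow_ne_zero 2 σ0)) (by norm_num)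
  have A0 : 0 < ‖a‖ := norm_pos_iff.2 a0
  obtain ⟨τ, hτ⟩ : ∃ τ : ℝ, τ = 1 / 3000 := ⟨_, rfl⟩
  have τ0 : 0 < τ := by rw [hτ]; norm_num
  -- the radius
  have cF : ContinuousAt (fun v : ℂ × ℂ × ℂ => 3 * I * (σ⁻¹ * exp (I * v.1)) *
      (SS v.2.1 + SS v.2.2)) (0, Real.pi, Real.pi) := by
    unfold SS
    fun_prop
  obtain ⟨r₀, r0, hr⟩ := Metric.continuousAt_iff.1 cF (τ * ‖a‖ / 2) (by positivity)
  have F0 : 3 * I * (σ⁻¹ * exp (I * 0)) * (SS Real.pi + SS Real.pi) = a := by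
    rw [ha]
    simp only [SS, mul_zero, exp_zero, mul_one, Complex.sin_pi, Complex.cos_pi]
    field_simp
    linear_combination (-1 : ℂ) * cb
  obtain ⟨r, hr'⟩ : ∃ r, r = min r₀ (1 / 16) := ⟨_, rfl⟩
  have r1 : 0 < r := hr' ▸ lt_min r0 (by norm_num)
  have r2 : r ≤ r₀ := hr' ▸ min_le_left _ _
  have r3 : r ≤ 1 / 16 := hr' ▸ min_le_right _ _
  obtain ⟨r₂, r4, hs⟩ := Metric.continuousAt_iff.1
    (m.an Real.pi (by simp [abs_of_pos Real.pi_pos])).1.continuousAt (‖σ‖ * r / 12) (by positivity)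
  obtain ⟨b₁, b1, hb⟩ := m.fold (min (min r r₂) (τ * ‖a‖ / (15 * zs))) (by positivity)
  obtain ⟨C, hC⟩ : ∃ C, C = 10 * (2 * ‖σ‖⁻¹) + τ * ‖a‖ / 2 := ⟨_, rfl⟩
  have C0 : 0 < C := by rw [hC]; positivity
  obtain ⟨β, β0, β1, β2, β3, β4⟩ : ∃ β : ℝ, 0 < β ∧ 8 * C * (200 * β) ≤ r ∧
      100 * ‖a‖ * (200 * β) ≤ r ^ 2 ∧ 12 * (200 * β) ≤ τ ∧ 5 * zs * (200 * β) < b₁ := by
    have k : ∀ u v : ℝ, 0 < v → ∀ᶠ β in 𝓝[>] (0 : ℝ), u * (200 * β) < v := fun u v hv =>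
      nhdsWithin_le_nhds (Tendsto.eventually_lt_const (f := fun β : ℝ => u * (200 * β)) hv
        (Continuous.tendsto' (by fun_prop) 0 0 (by simp)))
    obtain ⟨β, k0, k1, k2, k3, k4⟩ := (eventually_mem_nhdsWithin.and ((k (8 * C) r r1).and
      ((k (100 * ‖a‖) (r ^ 2) (by positivity)).and ((k 12 τ τ0).and (k (5 * zs) b₁ b1))))).exists
    exact ⟨β, k0, k1.le, k2.le, k3.le, k4⟩
  obtain ⟨η, hη⟩ : ∃ η, η = min (‖σ‖ * r / 12) (τ * zs * (200 * β) / 3) := ⟨_, rfl⟩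
  have η0 : 0 < η := hη ▸ lt_min (by positivity) (by positivity)
  have η1 : η ≤ ‖σ‖ * r / 12 := hη ▸ min_le_left _ _
  have η2 : η ≤ τ * zs * (200 * β) / 3 := hη ▸ min_le_right _ _
  obtain ⟨B, R, ε₀, η₀, e0, h0, hG⟩ := gap β η L₀ M₀ β0 (by linarith) η0
  obtain ⟨η₁, ε₁, h1, e1, hE⟩ := est (2 * ‖σ‖⁻¹) 5 (τ * ‖a‖ / 2) (by positivity) (by positivity)
  refine ⟨max R (B + |Real.log zs| + 2 + 1), min (min ε₀ ε₁) (50 * β), min (min η₀ η₁) (1 / 2),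
    by positivity, by positivity, fun θ H c ε Z w ε0 ε1 bs => ?_⟩
  obtain ⟨Y, D, dY, dD, hc⟩ := hG θ H c ε Z (Wn_mono w (le_max_left _ _)
    ((min_le_left _ _).trans (min_le_left _ _))) ε0
    (ε1.trans ((min_le_left _ _).trans (min_le_left _ _))) (bs.mono (le_max_left _ _))
  have w1 := Wn_mono w (le_max_right _ _) le_rfl
  rw [Vs_eq] at dY dD hc
  have nx : ∀ x ∈ Vs (200 * β) (10 * β) (2 * β), ‖x‖ ≤ 2 * (200 * β) := by
    intro x k
    have d1 := norm_le_abs_re_add_abs_im x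
    have d2 : |x.im| ≤ 200 * β := abs_le.2 ⟨by linarith [k.2.1], by
      rcases k.2.2 with n | n
      · linarith
      · linarith [n.2]⟩
    linarith [k.1]
  have cl : ∀ x ∈ Vs (200 * β) (10 * β) (2 * β), ‖D x - Real.pi‖ < r ∧
      ‖exp (-(Y x * I)) - σ‖ ≤ ‖σ‖ * r / 6 ∧ ‖1 + cos (D x) - a * x‖ ≤ τ * ‖a‖ * (200 * β) :=
    fun x k => clo zs0 hσ ha A0 τ0 β0 β3 (by linarith) β4 η1 η2 hs hb (hc x k).1 (nx x k)
  -- the branch
  have sA : Rc (200 * β) (-(2 * (10 * β))) (-(10 * β)) ⊆ Vs (200 * β) (10 * β) (2 * β) :=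
    fun x k => ⟨k.1, k.2.1, Or.inl k.2.2⟩
  have sB : Rc (200 * β) (-(2 * (10 * β))) (2 * β) ∩ {x | x.re < -(200 * β / 2)} ⊆
      Vs (200 * β) (10 * β) (2 * β) :=
    fun x k => ⟨k.1.1, k.1.2.1, Or.inr ⟨lt_abs.2 (Or.inr (lt_neg.1 k.2)), k.1.2.2⟩⟩
  have mA : (((-(150 * β) : ℝ) : ℂ) + ((-(15 * β) : ℝ) : ℂ) * I) ∈
      Rc (200 * β) (-(2 * (10 * β))) (-(10 * β)) :=
    ⟨by simp [abs_of_pos β0]; linarith, by simp; linarith, by simp; linarith⟩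
  obtain ⟨y₀, y1, y2⟩ := branch (ρ := r) (IsPreconnected.union _ mA
      (mem_inter (Rc_mono (by linarith) mA) (by simp; linarith)) (Rc_convex _ _ _).isPreconnected
      ((Rc_convex _ _ _).inter (convex_halfSpace_re_lt _)).isPreconnected)
    (dY.continuousOn.mono (union_subset sA sB)) σ0 (by linarith) (Or.inl mA)
    fun x k => (cl x (union_subset sA sB k)).2.1
  have ny : ∀ y ∈ ball y₀ r, ‖y‖ ≤ B + |Real.log zs| + 2 := by
    intro y k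
    have d1 := (hc _ (sA mA)).1.2.1
    have d2 := nx _ (sA mA)
    have d3 := y2 _ (Or.inl mA)
    generalize (((-(150 * β) : ℝ) : ℂ) + ((-(15 * β) : ℝ) : ℂ) * I) = x at d1 d2 d3
    have d4 := mem_ball_iff_norm.1 k
    have d5 : ‖(Real.log zs : ℂ) * I‖ = |Real.log zs| := by
      rw [norm_mul, norm_I, mul_one, norm_real, Real.norm_eq_abs]
    have d6 := norm_add_le x (Real.log zs * I)
    have d7 := norm_sub_norm_le (Y x) (x + Real.log zs * I)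
    have d8 := norm_sub_norm_le y y₀
    have d9 := norm_sub_norm_le y₀ (Y x)
    rw [norm_sub_rev] at d9
    simp only at d1
    linarith
  have sub : ball y₀ r ⊆ ball 0 (B + |Real.log zs| + 2 + 1) := fun y k =>
    mem_ball_zero_iff.2 (by linarith [ny y k])
  refine fold θ H c y₀ a r r ε C τ (200 * β) (10 * β) (2 * β) Y D (w1.dθ.mono sub) (w1.dH.mono sub)
    w1.c0 (fun y k => ⟨w1.laz y (sub k), w1.ne ((min_le_right _ _).trans_lt (by norm_num)) (sub k)⟩)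
    a0 r1 ε0 (by linarith [ε1.trans (min_le_right _ _)]) (by linarith) (by linarith) (by linarith)
    r1 (by linarith) C0.le β1 τ0.le (by rw [hτ]; linarith) β2 (fun y k y' k' d n d' n' s => ?_) dY dD
    (fun x k n => ⟨mem_ball_iff_norm.2 ((y2 x (Or.inl ⟨k.1, k.2.1, n⟩)).trans_lt (by linarith)),
      mem_ball_iff_norm.2 (cl x k).1, fun k' => ?_⟩)
    fun x k n => ⟨y2 x ?_, (cl x k).2.2⟩
  · exact stp r2 r3 hC ε0 y1 (fun v hv => by simpa only [F0] using hr hv)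
      (fun p q h1 => hE θ H c ε _ _ ε0 (ε1.trans ((min_le_left _ _).trans (min_le_right _ _)))
        ((min_le_left _ _).trans (min_le_right _ _)) w1 p q (ny _ h1)) k k' n n' s
  · have s := (hc x k).2 n k'.1
    exact ⟨s.1.symm, s.2.symm⟩
  · rcases k.2.2 with k' | k'
    · exact Or.inl ⟨k.1, k.2.1, k'⟩
    · exact Or.inr ⟨⟨k.1, k.2.1, k'.2⟩, n⟩

end Vale.Agent.P097E
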