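import Mathlib

/-!
# P097E: tools for the passage over a fold (continuation across a line)
-/

set_option linter.all false

noncomputable section

namespace Vale.Agent.P097E.Fold

open Filter Topology Set Metric Complex

variable {E : Type} [NormedAddCommGroup E] [NormedSpace ℂ E] [CompleteSpace E]

/-- an open rectangle -/
def Rc (L s t : ℝ) : Set ℂ := {x | |x.re| < L ∧ s < x.im ∧ x.im < t}

theorem Rc_eq (L s t : ℝ) : Rc L s t = Ioo (-L) L ×ℂ Ioo s t := by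
  ext x
  simp [Rc, mem_reProdIm, abs_lt]

theorem Rc_open (L s t : ℝ) : IsOpen (Rc L s t) := by
  rw [Rc_eq]
  exact isOpen_Ioo.reProdIm isOpen_Ioo

theorem Rc_convex (L s t : ℝ) : Convex ℝ (Rc L s t) := by
  have : Rc L s t = ({z : ℂ | -L < z.re} ∩ {z | z.re < L}) ∩ ({z | s < z.im} ∩ {z | z.im < t}) := by
    ext z
    simp [Rc, abs_lt]
  rw [this]
  exact ((convex_halfSpace_re_gt _).inter (convex_halfSpace_re_lt _)).inter
    ((convex_halfSpace_im_gt _).inter (convex_halfSpace_im_lt _))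

theorem Rc_cl {L s t : ℝ} (hL : 0 < L) (hs : s < t) {p : ℂ} (h1 : |p.re| ≤ L) (h2 : p.im = t) :
    p ∈ closure (Rc L s t) := by
  rw [Rc_eq, closure_reProdIm, closure_Ioo (by linarith), closure_Ioo hs.ne, mem_reProdIm]
  exact ⟨abs_le.1 h1, by rw [h2]; exact ⟨hs.le, le_rfl⟩⟩

theorem Rc_mono {L s t t' : ℝ} (h : t ≤ t') : Rc L s t ⊆ Rc L s t' :=
  fun _ m => ⟨m.1, m.2.1, m.2.2.trans_le h⟩

/-- the identity theorem on a convex set -/
theorem idn {f g : ℂ → E} {U : Set ℂ} (hU : IsOpen U) (hc : Convex ℝ U)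
    (hf : DifferentiableOn ℂ f U) (hg : DifferentiableOn ℂ g U) {O : Set ℂ} (hO : IsOpen O)
    {x : ℂ} (h1 : x ∈ U) (h2 : x ∈ O) (e : ∀ y ∈ U, y ∈ O → f y = g y) : EqOn f g U :=
  (hf.analyticOnNhd hU).eqOn_of_preconnected_of_eventuallyEq (hg.analyticOnNhd hU)
    hc.isPreconnected h1 (by
      filter_upwards [hU.mem_nhds h1, hO.mem_nhds h2] with y a b using e y a b)

/-- `f` continues from `S` to a neighbourhood of `p` -/
def Reg (S : Set ℂ) (f : ℂ → E) (p : ℂ) : Prop := ∃ F, AnalyticAt ℂ F p ∧ f =ᶠ[𝓝[S] p] F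

theorem imp {f : ℂ × ℂ → ℂ} {p x : ℂ} (hf : AnalyticAt ℂ f (p, x))
    (h : fderiv ℂ f (p, x) (0, 1) ≠ 0) :
    ∃ ψ : ℂ → ℂ, AnalyticAt ℂ ψ p ∧ ∀ᶠ v in 𝓝 (p, x), f v = f (p, x) ↔ ψ v.1 = v.2 := by
  have c : ContDiffAt ℂ ⊤ f (p, x) := hf.contDiffAt
  have i : (fderiv ℂ f (p, x) ∘L .inr ℂ ℂ ℂ).IsInvertible :=
    ⟨ContinuousLinearEquiv.unitsEquivAut ℂ (Units.mk0 _ h), by ext; simp⟩
  exact ⟨c.implicitFunction (by simp) i,
    (c.contDiffAt_implicitFunction (by simp) i).analyticAt,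
    c.eventually_apply_eq_iff_implicitFunction (by simp) i⟩

/-- a root with a simple cluster value continues -/
theorem ext {S : Set ℂ} (hS : IsOpen S) (hc : Convex ℝ S) {y : ℂ → ℂ}
    (hy : DifferentiableOn ℂ y S) {Φ : ℂ × ℂ → ℂ} {p y₀ D : ℂ} (hΦ : AnalyticAt ℂ Φ (p, y₀))
    (hd : HasDerivAt (fun v => Φ (p, v)) D y₀) (hD : D ≠ 0)
    (h0 : ∀ᶠ x in 𝓝[S] p, Φ (x, y x) = 0) {U : Filter ℂ} [U.NeBot] (hU : U ≤ 𝓝[S] p)
    (ht : Tendsto y U (𝓝 y₀)) : Reg S y p := by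
  have tp : Tendsto (fun x : ℂ => x) U (𝓝 p) := tendsto_id'.2 (hU.trans nhdsWithin_le_nhds)
  have tq : Tendsto (fun x => (x, y x)) U (𝓝 (p, y₀)) := tp.prodMk_nhds ht
  have z0 : Φ (p, y₀) = 0 := tendsto_nhds_unique (hΦ.continuousAt.tendsto.comp tq)
    (tendsto_const_nhds.congr' ((h0.filter_mono hU).mono fun x e => e.symm))
  have d1 : fderiv ℂ Φ (p, y₀) (0, 1) = D :=
    (HasFDerivAt.comp_hasDerivAt (f := fun v : ℂ => ((p, v) : ℂ × ℂ)) y₀
      hΦ.differentiableAt.hasFDerivAt ((hasDerivAt_const y₀ p).prodMk (hasDerivAt_id y₀))).unique hd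
  obtain ⟨ψ, aψ, hv⟩ := imp hΦ (d1 ▸ hD)
  obtain ⟨W, hW, oW, mW⟩ := _root_.eventually_nhds_iff.1 hv
  obtain ⟨σ, σ0, hσ⟩ := Metric.eventually_nhds_iff_ball.1
    (aψ.eventually_analyticAt.and (eventually_nhdsWithin_iff.1 h0))
  obtain ⟨x₁, m1, m2, m3⟩ := ((tq.eventually (oW.mem_nhds mW)).and
    ((tp.eventually (ball_mem_nhds p σ0)).and (eventually_mem_nhdsWithin.filter_mono hU))).exists
  have c1 : ContinuousAt (fun x => (x, y x)) x₁ :=
    continuousAt_id.prodMk (hy.differentiableAt (hS.mem_nhds m3)).continuousAt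
  obtain ⟨O, hO, oO, mO⟩ := _root_.eventually_nhds_iff.1 (c1.eventually (oW.mem_nhds m1))
  have e := idn (isOpen_ball.inter hS) ((convex_ball p σ).inter hc) (hy.mono inter_subset_right)
    (fun x m => (hσ x m.1).1.differentiableAt.differentiableWithinAt) oO ⟨m2, m3⟩ mO
    fun x m n => ((hW _ (hO x n)).1 (((hσ x m.1).2 m.2).trans z0.symm)).symm
  refine ⟨ψ, aψ, ?_⟩
  filter_upwards [nhdsWithin_le_nhds (ball_mem_nhds p σ0), self_mem_nhdsWithin] with x a b
    using e ⟨a, b⟩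

/-- continuation across the top side of a rectangle -/
theorem up {G : ℂ → E} {K P : Set E} (hP : IsOpen P) (hK : IsClosed K) (KP : K ⊆ P) {L s t : ℝ}
    (hL : 0 < L) (hs : s < t) (hG : DifferentiableOn ℂ G (Rc L s t)) (mG : MapsTo G (Rc L s t) K)
    (hr : ∀ p : ℂ, |p.re| ≤ L → p.im = t → Reg (Rc L s t) G p) :
    ∃ t', t < t' ∧ ∃ G' : ℂ → E, DifferentiableOn ℂ G' (Rc L s t') ∧ EqOn G' G (Rc L s t) ∧
      MapsTo G' (Rc L s t') P := by
  set Sg : Set ℂ := Icc (-L) L ×ℂ Icc t t with hSg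
  have mS : ∀ p : ℂ, p ∈ Sg ↔ |p.re| ≤ L ∧ p.im = t := fun p => by
    simp [hSg, mem_reProdIm, abs_le]
  have k1 : ∀ p : Sg, ∃ (σ : ℝ) (F : ℂ → E), 0 < σ ∧ DifferentiableOn ℂ F (ball p σ) ∧
      MapsTo F (ball p σ) P ∧ EqOn G F (ball p σ ∩ Rc L s t) := by
    rintro ⟨p, hp⟩
    obtain ⟨a1, a2⟩ := (mS p).1 hp
    obtain ⟨F, aF, e⟩ := hr p a1 a2
    have : (𝓝[Rc L s t] p).NeBot := mem_closure_iff_nhdsWithin_neBot.1 (Rc_cl hL hs a1 a2)
    have m : F p ∈ K := hK.mem_of_tendsto (aF.continuousAt.tendsto.mono_left nhdsWithin_le_nhds)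
      (by filter_upwards [e, self_mem_nhdsWithin] with x b1 b2 using b1 ▸ mG b2)
    obtain ⟨σ, σ0, hσ⟩ := Metric.eventually_nhds_iff_ball.1 (aF.eventually_analyticAt.and
      ((aF.continuousAt.eventually (hP.mem_nhds (KP m))).and (eventually_nhdsWithin_iff.1 e)))
    exact ⟨σ, F, σ0, fun x n => (hσ x n).1.differentiableAt.differentiableWithinAt,
      fun x n => (hσ x n).2.1, fun x n => (hσ x n.1).2.2 n.2⟩
  choose σ F h0 h1 h2 h3 using k1
  obtain ⟨η, η0, hη⟩ := lebesgue_number_lemma_of_metric (s := Sg) (c := fun p : Sg => ball (p : ℂ) (σ p))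
    (isCompact_Icc.reProdIm isCompact_Icc) (fun _ => isOpen_ball)
    fun p hp => mem_iUnion.2 ⟨⟨p, hp⟩, mem_ball_self (h0 _)⟩
  have k2 : ∀ p ∈ Sg, ∃ F : ℂ → E, DifferentiableOn ℂ F (ball p η) ∧
      MapsTo F (ball p η) P ∧ EqOn G F (ball p η ∩ Rc L s t) := by
    intro p hp
    obtain ⟨q, hq⟩ := hη p hp
    exact ⟨F q, (h1 q).mono hq, (h2 q).mono_left hq, (h3 q).mono (inter_subset_inter_left _ hq)⟩
  choose! F' g1 g2 g3 using k2
  have pS : ∀ x ∈ Rc L s (t + η), (x.re + t * I : ℂ) ∈ Sg := fun x m =>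
    (mS _).2 ⟨by simpa using m.1.le, by simp⟩
  have pB : ∀ x ∈ Rc L s (t + η), ¬ x.im < t → x ∈ ball (x.re + t * I : ℂ) η := by
    intro x m n
    have : x - (x.re + t * I) = ((x.im - t : ℝ) : ℂ) * I := by
      apply Complex.ext <;> simp
    rw [mem_ball, dist_eq_norm, this, norm_mul, norm_I, mul_one, norm_real, Real.norm_eq_abs,
      abs_of_nonneg (by linarith)]
    linarith [m.2.2]
  refine ⟨t + η, by linarith, fun x => if x.im < t then G x else F' (x.re + t * I) x,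
    fun x₀ m => DifferentiableAt.differentiableWithinAt ?_, fun x m => if_pos m.2.2, fun x m => ?_⟩
  · by_cases n : x₀.im < t
    · have a : Rc L s t ∈ 𝓝 x₀ := (Rc_open _ _ _).mem_nhds ⟨m.1, m.2.1, n⟩
      refine (hG.differentiableAt a).congr_of_eventuallyEq ?_
      filter_upwards [a] with x b using if_pos b.2.2
    · have a := isOpen_ball.mem_nhds (pB x₀ m n)
      refine ((g1 _ (pS x₀ m)).differentiableAt a).congr_of_eventuallyEq ?_
      filter_upwards [a, (Rc_open _ _ _).mem_nhds m, ball_mem_nhds x₀ η0] with x b1 b2 b3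
      by_cases n' : x.im < t
      · rw [if_pos n']
        exact g3 _ (pS x₀ m) ⟨b1, b2.1, b2.2.1, n'⟩
      · rw [if_neg n']
        have c1 : (x₀.re + t * I : ℂ) ∈ ball (x.re + t * I : ℂ) η ∩ ball (x₀.re + t * I : ℂ) η := by
          refine ⟨?_, mem_ball_self η0⟩
          rw [mem_ball, dist_eq_norm, add_sub_add_right_eq_sub, ← ofReal_sub, norm_real,
            Real.norm_eq_abs, abs_sub_comm, ← sub_re]
          exact (abs_re_le_norm _).trans_lt (mem_ball_iff_norm.1 b3)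
        obtain ⟨x₁, c2, c3⟩ := mem_closure_iff.1 (Rc_cl hL hs ((mS _).1 (pS x₀ m)).1
          ((mS _).1 (pS x₀ m)).2) _ (isOpen_ball.inter isOpen_ball) c1
        exact idn (isOpen_ball.inter isOpen_ball) ((convex_ball _ _).inter (convex_ball _ _))
          ((g1 _ (pS x b2)).mono inter_subset_left) ((g1 _ (pS x₀ m)).mono inter_subset_right)
          (Rc_open L s t) c2 c3
          (fun y d1 d2 => (g3 _ (pS x b2) ⟨d1.1, d2⟩).symm.trans (g3 _ (pS x₀ m) ⟨d1.2, d2⟩))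
          ⟨pB x b2 n', b1⟩
  · by_cases n : x.im < t
    · simp only [if_pos n]
      exact KP (mG ⟨m.1, m.2.1, n⟩)
    · simp only [if_neg n]
      exact g2 _ (pS x m) (pB x m n)

/-- continuation up to a given height -/
theorem rise {Z : ℂ → E} {P : Set E} {L s t₀ b : ℝ} (hL : 0 < L) (hs : s < t₀) (hb : t₀ ≤ b)
    (hZ : DifferentiableOn ℂ Z (Rc L s t₀)) (mZ : MapsTo Z (Rc L s t₀) P)
    (st : ∀ (t : ℝ) (G : ℂ → E), t₀ ≤ t → t < b → DifferentiableOn ℂ G (Rc L s t) →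
      EqOn G Z (Rc L s t₀) → MapsTo G (Rc L s t) P → ∃ t', t < t' ∧ ∃ G' : ℂ → E,
        DifferentiableOn ℂ G' (Rc L s t') ∧ EqOn G' G (Rc L s t) ∧ MapsTo G' (Rc L s t') P) :
    ∃ G : ℂ → E, DifferentiableOn ℂ G (Rc L s b) ∧ EqOn G Z (Rc L s t₀) ∧
      MapsTo G (Rc L s b) P := by
  set A : Set ℝ := {t | t₀ ≤ t ∧ t ≤ b ∧ ∃ G : ℂ → E, DifferentiableOn ℂ G (Rc L s t) ∧
    EqOn G Z (Rc L s t₀) ∧ MapsTo G (Rc L s t) P} with hA
  have m0 : t₀ ∈ A := ⟨le_rfl, hb, Z, hZ, fun _ _ => rfl, mZ⟩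
  have bd : BddAbove A := ⟨b, fun t m => m.2.1⟩
  have T0 : t₀ ≤ sSup A := le_csSup bd m0
  have T1 : sSup A ≤ b := csSup_le ⟨_, m0⟩ fun t m => m.2.1
  have k : ∀ u : ℝ, u < sSup A → ∃ (t : ℝ) (G : ℂ → E), u < t ∧ t₀ ≤ t ∧
      DifferentiableOn ℂ G (Rc L s t) ∧ EqOn G Z (Rc L s t₀) ∧ MapsTo G (Rc L s t) P := by
    intro u hu
    obtain ⟨t, m, n⟩ := exists_lt_of_lt_csSup ⟨_, m0⟩ hu
    obtain ⟨G, g⟩ := m.2.2
    exact ⟨t, G, n, m.1, g⟩
  choose! T G g0 g1 g2 g3 g4 using k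
  have mx : ∀ x ∈ Rc L s (sSup A), x ∈ Rc L s (T x.im) := fun x m => ⟨m.1, m.2.1, g0 _ m.2.2⟩
  have mT : sSup A ∈ A := by
    refine ⟨T0, T1, fun x => G x.im x, fun x₀ m => DifferentiableAt.differentiableWithinAt ?_,
      fun x m => g3 _ (m.2.2.trans_le T0) m, fun x m => g4 _ m.2.2 (mx x m)⟩
    have a := (Rc_open _ _ _).mem_nhds (mx x₀ m)
    refine ((g2 _ m.2.2).differentiableAt a).congr_of_eventuallyEq ?_
    filter_upwards [a, (Rc_open _ _ _).mem_nhds m] with x b1 b2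
    have c : ((((s + t₀) / 2 : ℝ) : ℂ) * I) ∈ Rc L s t₀ :=
      ⟨by simpa using hL, by simp; linarith, by simp; linarith⟩
    exact idn ((Rc_open _ _ _).inter (Rc_open _ _ _)) ((Rc_convex _ _ _).inter (Rc_convex _ _ _))
      ((g2 _ b2.2.2).mono inter_subset_left) ((g2 _ m.2.2).mono inter_subset_right)
      (Rc_open L s t₀) ⟨Rc_mono (g1 _ b2.2.2) c, Rc_mono (g1 _ m.2.2) c⟩ c
      (fun y _ d => (g3 _ b2.2.2 d).trans (g3 _ m.2.2 d).symm) ⟨mx x b2, b1⟩
  rcases T1.eq_or_lt with e | e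
  · exact e ▸ mT.2.2
  · obtain ⟨G₀, a1, a2, a3⟩ := mT.2.2
    obtain ⟨t', b1, G', b2, b3, b4⟩ := st _ G₀ T0 e a1 a2 a3
    have : min t' b ∈ A := ⟨T0.trans (le_min b1.le T1), min_le_right _ _, G',
      b2.mono (Rc_mono (min_le_left _ _)), fun x m => (b3 (Rc_mono T0 m)).trans (a2 m),
      b4.mono_left (Rc_mono (min_le_left _ _))⟩
    exact absurd (le_csSup bd this) (not_le.2 (lt_min b1 e))

/-- `1 + cos D` is not close to a linear function -/
theorem sq {D : ℂ → ℂ} {a : ℂ} {b : ℝ} (hb : 0 < b) (ha : a ≠ 0)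
    (hD : DifferentiableOn ℂ D (ball 0 b))
    (h : ∀ x ∈ ball (0 : ℂ) b, ‖1 + cos (D x) - a * x‖ ≤ ‖a‖ * b / 10) : False := by
  have a0 : 0 < ‖a‖ * b := mul_pos (norm_pos_iff.2 ha) hb
  have dc : DifferentiableOn ℂ (fun x => 1 + cos (D x)) (ball 0 b) := hD.ccos.const_add 1
  have sub : closedBall (0 : ℂ) (b / 2) ⊆ ball 0 b := closedBall_subset_ball (by linarith)
  obtain ⟨z, hz, z0⟩ : ∃ z ∈ closedBall (0 : ℂ) (b / 2), 1 + cos (D z) = 0 := by
    by_contra k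
    push Not at k
    have d1 : DiffContOnCl ℂ (fun x => (1 + cos (D x))⁻¹) (ball 0 (b / 2)) := by
      refine DifferentiableOn.diffContOnCl ?_
      rw [closure_ball _ (by linarith)]
      exact (dc.mono sub).inv k
    have d2 := Complex.norm_le_of_forall_mem_frontier_norm_le isBounded_ball d1
      (C := (‖a‖ * b * 2 / 5)⁻¹) (fun x m => by
        rw [frontier_ball _ (by linarith), mem_sphere_zero_iff_norm] at m
        rw [norm_inv]
        refine inv_anti₀ (by positivity) ?_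
        have b1 := h x (sub (mem_closedBall_zero_iff.2 m.le))
        have b2 := norm_sub_norm_le (a * x) (1 + cos (D x))
        rw [norm_mul, m, norm_sub_rev] at b2
        linarith) (subset_closure (mem_ball_self (by linarith)))
    have d3 := h 0 (mem_ball_self hb)
    rw [mul_zero, sub_zero] at d3
    rw [norm_inv, inv_le_inv₀ (norm_pos_iff.2 (k 0 (mem_closedBall_self (by linarith))))
      (by positivity)] at d2
    linarith
  have s0 : sin (D z) = 0 := by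
    have := sin_sq_add_cos_sq (D z)
    rw [show cos (D z) = -1 by linear_combination z0] at this
    exact pow_eq_zero_iff two_ne_zero |>.1 (by linear_combination this)
  have sub' : closedBall z (2 * b / 5) ⊆ ball 0 b := by
    intro x m
    have b1 := mem_closedBall_iff_norm.1 m
    have b2 := mem_closedBall_zero_iff.1 hz
    have b3 := norm_sub_norm_le x z
    rw [mem_ball_zero_iff]
    linarith
  have d1 : DiffContOnCl ℂ (fun x => 1 + cos (D x) - a * x) (ball z (2 * b / 5)) := by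
    refine DifferentiableOn.diffContOnCl ?_
    rw [closure_ball _ (by linarith)]
    exact (dc.mono sub').sub (by fun_prop)
  have d2 := Complex.norm_deriv_le_of_forall_mem_sphere_norm_le (by linarith) d1
    fun x m => h x (sub' (sphere_subset_closedBall m))
  have d3 := ((((hD.differentiableAt (isOpen_ball.mem_nhds (sub hz))).hasDerivAt.ccos).const_add 1).sub
    ((hasDerivAt_id z).const_mul a)).deriv
  have d4 : deriv (fun x => 1 + cos (D x) - a * x) z = -a := by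
    refine Eq.trans ?_ (d3.trans (by rw [s0]; ring))
    rfl
  rw [d4, norm_neg, le_div_iff₀ (by linarith)] at d2
  linarith

end Vale.Agent.P097E.Fold
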