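import Vale.Agent.P097E.Fold1

/-!
# P097E: regularity of vertices and lines
-/

set_option linter.all false

noncomputable section

namespace Vale.Agent.P097E.Fold

open Filter Topology Set Metric Complex

/-- the offset of the line through the vertex `y` with normal angle `θ y + d` -/
def Pp (θ H : ℂ → ℂ) (y d : ℂ) : ℂ := H y * cos d + deriv H y / deriv θ y * sin d

/-- the outgoing line at `(y, d)` is the incoming line at `(y', d')` -/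
def Stq (θ H : ℂ → ℂ) (y d y' d' : ℂ) : Prop :=
  θ y + d = θ y' - d' ∧ Pp θ H y d = Pp θ H y' (-d')

/-- the domain with two columns -/
def Vs (L h b : ℝ) : Set ℂ :=
  {x | |x.re| < L ∧ -(2 * h) < x.im ∧ (x.im < -h ∨ (L / 2 < |x.re| ∧ x.im < b))}

/-- the passage over the fold -/
def Spec_FOLD : Prop := ∀ (θ H : ℂ → ℂ) (c y₀ a : ℂ) (ρ r e C τ L h b : ℝ) (Y D : ℂ → ℂ),
  DifferentiableOn ℂ θ (ball y₀ ρ) → DifferentiableOn ℂ H (ball y₀ ρ) → c ≠ 0 →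
  (∀ y ∈ ball y₀ ρ, deriv (deriv H) y * deriv θ y - deriv H y * deriv (deriv θ) y +
    H y * deriv θ y ^ 3 = c ∧ deriv θ y ≠ 0) →
  a ≠ 0 → 0 < ρ → 0 < e → 4 * e ≤ L → 0 < b → b ≤ h → 2 * h ≤ L → 0 < r → r ≤ 1 → 0 ≤ C →
  8 * C * L ≤ ρ → 0 ≤ τ → 30 * τ * L ≤ b → 100 * ‖a‖ * L ≤ r ^ 2 →
  (∀ y ∈ ball y₀ ρ, ∀ y' ∈ ball y₀ ρ, ∀ d ∈ ball (Real.pi : ℂ) r, ∀ d' ∈ ball (Real.pi : ℂ) r,
    Stq θ H y d y' d' → ‖cos d' - cos d - a * e‖ ≤ τ * ‖a‖ * e ∧ ‖y' - y‖ ≤ C * e) →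
  DifferentiableOn ℂ Y (Vs L h b) → DifferentiableOn ℂ D (Vs L h b) →
  (∀ x ∈ Vs L h b, x.im < -h → Y x ∈ ball y₀ ρ ∧ D x ∈ ball (Real.pi : ℂ) r ∧
    (x + e ∈ Vs L h b → Stq θ H (Y x) (D x) (Y (x + e)) (D (x + e)))) →
  (∀ x ∈ Vs L h b, x.re < -(L / 2) → ‖Y x - y₀‖ ≤ ρ / 4 ∧
    ‖1 + cos (D x) - a * x‖ ≤ τ * ‖a‖ * L) → False

/-- the outgoing line -/
def out (θ H : ℂ → ℂ) (z : ℂ × ℂ) : ℂ × ℂ := (θ z.1 + z.2, Pp θ H z.1 z.2)

/-- the reflection -/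
def ng (z : ℂ × ℂ) : ℂ × ℂ := (z.1, -z.2)

theorem stp_iff {θ H : ℂ → ℂ} {z z' : ℂ × ℂ} :
    Stq θ H z.1 z.2 z'.1 z'.2 ↔ out θ H z = out θ H (ng z') := by
  simp only [Stq, out, ng, Prod.mk.injEq, sub_eq_add_neg]

theorem an_ng (z : ℂ × ℂ) : AnalyticAt ℂ ng z := analyticAt_fst.prod analyticAt_snd.neg

theorem ng_ng (z : ℂ × ℂ) : ng (ng z) = z := by simp [ng]

/-- the curve on an open set -/
structure Cw (θ H : ℂ → ℂ) (c : ℂ) (B : Set ℂ) : Prop where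
  op : IsOpen B
  dθ : DifferentiableOn ℂ θ B
  dH : DifferentiableOn ℂ H B
  c0 : c ≠ 0
  laz : ∀ y ∈ B, deriv (deriv H) y * deriv θ y - deriv H y * deriv (deriv θ) y +
    H y * deriv θ y ^ 3 = c ∧ deriv θ y ≠ 0

theorem Reg.comp {E F : Type} [NormedAddCommGroup E] [NormedSpace ℂ E] [CompleteSpace E]
    [NormedAddCommGroup F] [NormedSpace ℂ F] [CompleteSpace F] {S : Set ℂ} {G : ℂ → E} {p : ℂ}
    (h : Reg S G p) {U : Filter ℂ} [U.NeBot] (hU : U ≤ 𝓝[S] p) {z : E} (ht : Tendsto G U (𝓝 z))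
    {Φ : E → F} (hΦ : AnalyticAt ℂ Φ z) : Reg S (fun x => Φ (G x)) p := by
  obtain ⟨A, aA, e⟩ := h
  have : A p = z := tendsto_nhds_unique
    (aA.continuousAt.tendsto.mono_left (hU.trans nhdsWithin_le_nhds))
    (ht.congr' (e.filter_mono hU))
  exact ⟨fun x => Φ (A x), AnalyticAt.comp (f := A) (this ▸ hΦ) aA, e.mono fun x k => congrArg Φ k⟩

namespace Cw

variable {θ H : ℂ → ℂ} {c : ℂ} {B : Set ℂ} (w : Cw θ H c B)
include w

theorem aθ {y : ℂ} (hy : y ∈ B) : AnalyticAt ℂ θ y := w.dθ.analyticOnNhd w.op y hy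

theorem aH {y : ℂ} (hy : y ∈ B) : AnalyticAt ℂ H y := w.dH.analyticOnNhd w.op y hy

theorem an_P {z : ℂ × ℂ} (hz : z.1 ∈ B) : AnalyticAt ℂ (fun v : ℂ × ℂ => Pp θ H v.1 v.2) z := by
  have h1 : ∀ {f : ℂ → ℂ}, AnalyticAt ℂ f z.1 → AnalyticAt ℂ (fun v : ℂ × ℂ => f v.1) z :=
    fun {f} k => AnalyticAt.comp (f := Prod.fst) k analyticAt_fst
  have h2 : ∀ {f : ℂ → ℂ}, AnalyticAt ℂ f z.2 → AnalyticAt ℂ (fun v : ℂ × ℂ => f v.2) z :=
    fun {f} k => AnalyticAt.comp (f := Prod.snd) k analyticAt_snd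
  exact ((h1 (w.aH hz)).mul (h2 analyticAt_cos)).add
    (((h1 (w.aH hz).deriv).div (h1 (w.aθ hz).deriv) (w.laz _ hz).2).mul (h2 analyticAt_sin))

theorem an_out {z : ℂ × ℂ} (hz : z.1 ∈ B) : AnalyticAt ℂ (out θ H) z :=
  ((AnalyticAt.comp (f := Prod.fst) (w.aθ hz) analyticAt_fst).add analyticAt_snd).prod (w.an_P hz)

theorem dP (φ : ℂ) {y : ℂ} (hy : y ∈ B) : HasDerivAt (fun v => Pp θ H v (φ - θ v))
    (c * sin (φ - θ y) / deriv θ y ^ 2) y := by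
  have d1 := (w.aθ hy).differentiableAt.hasDerivAt
  have d2 := (w.aθ hy).deriv.differentiableAt.hasDerivAt
  have d3 := (w.aH hy).differentiableAt.hasDerivAt
  have d4 := (w.aH hy).deriv.differentiableAt.hasDerivAt
  have n := (w.laz y hy).2
  have d5 := (d3.mul (d1.const_sub φ).ccos).add ((d4.div d2 n).mul (d1.const_sub φ).csin)
  refine d5.congr_deriv ?_
  rw [← (w.laz y hy).1]
  simp only [Pi.div_apply]
  field_simp
  ring

variable {S : Set ℂ} (hS : IsOpen S) (hc : Convex ℝ S) {G : ℂ → ℂ × ℂ}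
  (hG : DifferentiableOn ℂ G S) {p : ℂ} {U : Filter ℂ} [U.NeBot] (hU : U ≤ 𝓝[S] p) {z : ℂ × ℂ}
  (ht : Tendsto G U (𝓝 z)) (hz : z.1 ∈ B)
include hS hc hG hU ht hz

/-- a regular line and a transversal cluster value give a regular vertex -/
theorem regF (hs : sin z.2 ≠ 0) (h : Reg S (fun x => out θ H (G x)) p) : Reg S G p := by
  obtain ⟨A, aA, e⟩ := h
  have A0 : A p = out θ H z := tendsto_nhds_unique
    (aA.continuousAt.tendsto.mono_left (hU.trans nhdsWithin_le_nhds))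
    (((w.an_out hz).continuousAt.tendsto.comp ht).congr' (e.filter_mono hU))
  have A1 : (A p).1 - θ z.1 = z.2 := by rw [A0, out, add_sub_cancel_left]
  have a1 : AnalyticAt ℂ (fun q : ℂ × ℂ => A q.1) (p, z.1) :=
    AnalyticAt.comp (f := Prod.fst) aA analyticAt_fst
  have a2 : AnalyticAt ℂ (fun q : ℂ × ℂ => θ q.2) (p, z.1) :=
    AnalyticAt.comp (f := Prod.snd) (w.aθ hz) analyticAt_snd
  have a3 : AnalyticAt ℂ (fun q : ℂ × ℂ => ((q.2, (A q.1).1 - θ q.2) : ℂ × ℂ)) (p, z.1) :=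
    analyticAt_snd.prod ((analyticAt_fst.comp a1).sub a2)
  have a4 : AnalyticAt ℂ (fun q : ℂ × ℂ => Pp θ H q.2 ((A q.1).1 - θ q.2) - (A q.1).2) (p, z.1) :=
    (AnalyticAt.comp (g := fun v : ℂ × ℂ => Pp θ H v.1 v.2)
      (f := fun q : ℂ × ℂ => ((q.2, (A q.1).1 - θ q.2) : ℂ × ℂ)) (w.an_P hz) a3).sub
      (analyticAt_snd.comp a1)
  have t1 : Tendsto (fun x => (G x).1) U (𝓝 z.1) := (continuous_fst.tendsto z).comp ht
  have r1 : Reg S (fun x => (G x).1) p := by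
    refine ext hS hc hG.fst a4 ((w.dP (A p).1 hz).sub_const (A p).2) ?_ ?_ hU t1
    · rw [A1]
      exact div_ne_zero (mul_ne_zero w.c0 hs) (pow_ne_zero 2 (w.laz _ hz).2)
    · filter_upwards [e] with x k
      simp only [← k, out, add_sub_cancel_left, sub_self]
  obtain ⟨Ψ, b1, b2⟩ := r1
  obtain ⟨Θ, b3, b4⟩ := Reg.comp ⟨Ψ, b1, b2⟩ hU t1 (w.aθ hz)
  refine ⟨fun x => (Ψ x, (A x).1 - Θ x), b1.prod ((analyticAt_fst.comp aA).sub b3), ?_⟩
  filter_upwards [e, b2, b4] with x k1 k2 k3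
  simp only [← k1, ← k2, ← k3, out, add_sub_cancel_left]

/-- two regular lines give a regular vertex -/
theorem regD (h : Reg S (fun x => out θ H (G x)) p) (h' : Reg S (fun x => out θ H (ng (G x))) p) :
    Reg S G p := by
  obtain ⟨A, aA, e⟩ := h
  obtain ⟨A', aA', e'⟩ := h'
  have a1 : AnalyticAt ℂ (fun x => ((A x).1 + (A' x).1) / 2) p :=
    ((analyticAt_fst.comp aA).add (analyticAt_fst.comp aA')).div_const
  have a2 : AnalyticAt ℂ (fun x => ((A x).1 - (A' x).1) / 2) p :=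
    ((analyticAt_fst.comp aA).sub (analyticAt_fst.comp aA')).div_const
  have a3 : AnalyticAt ℂ (fun q : ℂ × ℂ => θ q.2 - ((A q.1).1 + (A' q.1).1) / 2) (p, z.1) :=
    (AnalyticAt.comp (f := Prod.snd) (w.aθ hz) analyticAt_snd).sub
      (AnalyticAt.comp (f := Prod.fst) (g := fun x => ((A x).1 + (A' x).1) / 2) a1 analyticAt_fst)
  obtain ⟨Ψ, b1, b2⟩ : Reg S (fun x => (G x).1) p := by
    refine ext hS hc hG.fst a3
      ((w.aθ hz).differentiableAt.hasDerivAt.sub_const (((A p).1 + (A' p).1) / 2))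
      (w.laz _ hz).2 ?_ hU ((continuous_fst.tendsto z).comp ht)
    filter_upwards [e, e'] with x k k'
    simp only [← k, ← k', out, ng]
    ring
  refine ⟨fun x => (Ψ x, ((A x).1 - (A' x).1) / 2), b1.prod a2, ?_⟩
  filter_upwards [e, e', b2] with x k1 k2 k3
  simp only [← k1, ← k2, ← k3, out, ng]
  ext
  · rfl
  · simp only
    ring

end Cw

end Vale.Agent.P097E.Fold
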