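import Vale.Agent.P097E.Fold2

/-!
# P097E: the passage over the fold
-/

set_option linter.all false

noncomputable section

namespace Vale.Agent.P097E.Fold

open Filter Topology Set Metric Complex

/-- the data -/
structure Dt (θ H : ℂ → ℂ) (c y₀ a : ℂ) (ρ r e C τ L h b : ℝ) (Z : ℂ → ℂ × ℂ) : Prop where
  w : Cw θ H c (ball y₀ ρ)
  a0 : a ≠ 0
  ρ0 : 0 < ρ
  e0 : 0 < e
  eL : 4 * e ≤ L
  b0 : 0 < b
  bh : b ≤ h
  hL : 2 * h ≤ L
  r0 : 0 < r
  r1 : r ≤ 1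
  C0 : 0 ≤ C
  Cρ : 8 * C * L ≤ ρ
  τ0 : 0 ≤ τ
  τb : 30 * τ * L ≤ b
  ar : 100 * ‖a‖ * L ≤ r ^ 2
  se : ∀ z ∈ ball y₀ ρ ×ˢ ball (Real.pi : ℂ) r, ∀ z' ∈ ball y₀ ρ ×ˢ ball (Real.pi : ℂ) r,
    out θ H z = out θ H (ng z') →
    ‖cos z'.2 - cos z.2 - a * e‖ ≤ τ * ‖a‖ * e ∧ ‖z'.1 - z.1‖ ≤ C * e
  dZ : DifferentiableOn ℂ Z (Vs L h b)
  bot : ∀ x ∈ Vs L h b, x.im < -h → Z x ∈ ball y₀ ρ ×ˢ ball (Real.pi : ℂ) r ∧
    (x + e ∈ Vs L h b → out θ H (Z x) = out θ H (ng (Z (x + e))))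
  left : ∀ x ∈ Vs L h b, x.re < -(L / 2) → ‖(Z x).1 - y₀‖ ≤ ρ / 4 ∧
    ‖1 + cos (Z x).2 - a * x‖ ≤ τ * ‖a‖ * L

/-- a continuation up to the height `t` -/
structure Gd (y₀ : ℂ) (ρ r L h t : ℝ) (Z G : ℂ → ℂ × ℂ) : Prop where
  ht : -h ≤ t
  d : DifferentiableOn ℂ G (Rc (7 * L / 8) (-(2 * h)) t)
  eq : EqOn G Z (Rc (7 * L / 8) (-(2 * h)) (-h))
  mem : MapsTo G (Rc (7 * L / 8) (-(2 * h)) t) (ball y₀ ρ ×ˢ ball (Real.pi : ℂ) r)

theorem Vs_open (L h b : ℝ) : IsOpen (Vs L h b) := by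
  have c1 : Continuous fun x : ℂ => |x.re| := continuous_re.abs
  exact (isOpen_lt c1 continuous_const).inter ((isOpen_lt continuous_const continuous_im).inter
    ((isOpen_lt continuous_im continuous_const).union
      ((isOpen_lt continuous_const c1).inter (isOpen_lt continuous_im continuous_const))))

theorem near_pi {d : ℂ} (h : ‖d - Real.pi‖ ≤ 1) : 2 / 5 * ‖d - Real.pi‖ ^ 2 ≤ ‖1 + cos d‖ := by
  have h1 := Complex.cos_bound h
  rw [cos_sub_pi] at h1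
  have h2 := norm_sub_norm_le ((d - Real.pi) ^ 2 / 2) (1 + cos d)
  rw [show (d - Real.pi) ^ 2 / 2 - (1 + cos d) = -cos d - (1 - (d - Real.pi) ^ 2 / 2) by ring,
    norm_div, norm_pow, Complex.norm_two] at h2
  have h3 : ‖d - Real.pi‖ ^ 4 ≤ ‖d - Real.pi‖ ^ 2 :=
    pow_le_pow_of_le_one (norm_nonneg _) h (by norm_num)
  have h4 := sq_nonneg ‖d - Real.pi‖
  linarith

theorem sin_ne {d : ℂ} (h : ‖d - Real.pi‖ ≤ 1) (k : 1 + cos d ≠ 0) : sin d ≠ 0 := by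
  intro s
  obtain ⟨n, rfl⟩ := Complex.sin_eq_zero_iff.1 s
  rw [show (n : ℂ) * Real.pi - Real.pi = (((n - 1 : ℤ) * Real.pi : ℝ) : ℂ) by push_cast; ring,
    norm_real, Real.norm_eq_abs, abs_mul, abs_of_pos Real.pi_pos] at h
  have h1 : |((n - 1 : ℤ) : ℝ)| < 1 := by
    by_contra h2
    nlinarith [Real.pi_gt_three, not_lt.1 h2]
  have h2 : n - 1 = 0 := Int.abs_lt_one_iff.1 (by exact_mod_cast h1)
  apply k
  rw [show n = 1 by omega]
  simp

namespace Dt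

variable {θ H : ℂ → ℂ} {c y₀ a : ℂ} {ρ r e C τ L h b t : ℝ} {Z G : ℂ → ℂ × ℂ}
  (D : Dt θ H c y₀ a ρ r e C τ L h b Z)
include D

theorem L0 : 0 < L := by linarith [D.e0, D.eL]

theorem h0 : 0 < h := D.b0.trans_le D.bh

theorem sub0 : Rc (7 * L / 8) (-(2 * h)) (-h) ⊆ Vs L h b := fun x m =>
  ⟨by linarith [m.1, D.L0], m.2.1, Or.inl m.2.2⟩

variable (g : Gd y₀ ρ r L h t Z G)
include g

theorem stp {x : ℂ} (h1 : x ∈ Rc (7 * L / 8) (-(2 * h)) t)
    (h2 : x + e ∈ Rc (7 * L / 8) (-(2 * h)) t) : out θ H (G x) = out θ H (ng (G (x + e))) := by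
  have o : ∀ u, IsOpen ((fun x : ℂ => x + e) ⁻¹' Rc (7 * L / 8) (-(2 * h)) u) := fun u =>
    (Rc_open _ _ _).preimage (by fun_prop)
  have m1 : (((-(3 * h / 2) : ℝ) : ℂ) * I) ∈ Rc (7 * L / 8) (-(2 * h)) (-h) :=
    ⟨by simpa using D.L0, by simp; linarith [D.h0], by simp; linarith [D.h0]⟩
  have m2 : (((-(3 * h / 2) : ℝ) : ℂ) * I) + e ∈ Rc (7 * L / 8) (-(2 * h)) (-h) :=
    ⟨by simp [abs_of_pos D.e0]; linarith [D.eL, D.e0], by simp; linarith [D.h0],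
      by simp; linarith [D.h0]⟩
  refine idn (f := fun x => out θ H (G x)) (g := fun x => out θ H (ng (G (x + e))))
    ((Rc_open _ _ _).inter (o t))
    ((Rc_convex _ _ _).inter ((Rc_convex _ _ _).translate_preimage_left e))
    (fun y m => ?_) (fun y m => ?_) ((Rc_open _ _ _).inter (o (-h)))
    ⟨Rc_mono g.ht m1, Rc_mono g.ht m2⟩ ⟨m1, m2⟩ (fun y _ m => ?_) ⟨h1, h2⟩
  · exact ((D.w.an_out (g.mem m.1).1).differentiableAt.comp y
      (g.d.differentiableAt ((Rc_open _ _ _).mem_nhds m.1))).differentiableWithinAt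
  · have d1 : DifferentiableAt ℂ (fun x : ℂ => G (x + e)) y :=
      DifferentiableAt.comp (f := fun x : ℂ => x + e) y
        (g.d.differentiableAt ((Rc_open _ _ _).mem_nhds m.2)) (by fun_prop)
    exact ((D.w.an_out (z := ng (G (y + e))) (g.mem m.2).1).differentiableAt.comp y
      ((an_ng _).differentiableAt.comp y d1)).differentiableWithinAt
  · show out θ H (G y) = out θ H (ng (G (y + e)))
    rw [g.eq m.1, g.eq m.2]
    exact (D.bot y (D.sub0 m.1) m.1.2.2).2 (D.sub0 m.2)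

variable (tb : t ≤ b)
include tb

theorem subc {x : ℂ} (h1 : x ∈ Rc (7 * L / 8) (-(2 * h)) t) (h2 : L / 2 < |x.re|) :
    x ∈ Vs L h b := ⟨by linarith [h1.1, D.L0], h1.2.1, Or.inr ⟨h2, h1.2.2.trans_le tb⟩⟩

theorem col {x : ℂ} (h1 : x ∈ Rc (7 * L / 8) (-(2 * h)) t) (h2 : L / 2 < |x.re|) : G x = Z x := by
  have key : ∀ (T : Set ℂ) (u : ℝ), IsOpen T → Convex ℝ T → (∀ y ∈ T, L / 2 < |y.re|) →
      |u| < 7 * L / 8 → (u + ((-(3 * h / 2) : ℝ) : ℂ) * I) ∈ T → x ∈ T → G x = Z x := by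
    intro T u o cv k hu m n
    have m1 : (u + ((-(3 * h / 2) : ℝ) : ℂ) * I) ∈ Rc (7 * L / 8) (-(2 * h)) (-h) :=
      ⟨by simpa using hu, by simp; linarith [D.h0], by simp; linarith [D.h0]⟩
    exact idn ((Rc_open _ _ _).inter o) ((Rc_convex _ _ _).inter cv) (g.d.mono inter_subset_left)
      (D.dZ.mono fun y m => D.subc g tb m.1 (k y m.2)) (Rc_open _ _ (-h))
      ⟨Rc_mono g.ht m1, m⟩ m1 (fun y _ m => g.eq m) ⟨h1, n⟩
  have L0 := D.L0
  rcases lt_abs.1 h2 with k | k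
  · exact key {y | L / 2 < y.re} (3 * L / 4) (isOpen_lt continuous_const continuous_re)
      (convex_halfSpace_re_gt _) (fun y m => lt_abs.2 (Or.inl m))
      (by rw [abs_of_pos (by linarith)]; linarith) (by simp; linarith) k
  · exact key {y | y.re < -(L / 2)} (-(3 * L / 4)) (isOpen_lt continuous_re continuous_const)
      (convex_halfSpace_re_lt _) (fun y m => lt_abs.2 (Or.inr (lt_neg.1 m)))
      (by rw [abs_neg, abs_of_pos (by linarith)]; linarith) (by simp; linarith) (lt_neg.1 k)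

theorem bnd0 (n : ℕ) : ∀ x ∈ Rc (7 * L / 8) (-(2 * h)) t, x.re < -(L / 2) + n * e →
    ‖1 + cos (G x).2 - a * x‖ ≤ τ * ‖a‖ * (L + n * e) ∧ ‖(G x).1 - y₀‖ ≤ ρ / 4 + C * (n * e) := by
  have e0 := D.e0
  have C0 := D.C0
  have τ0 := D.τ0
  have base : ∀ x ∈ Rc (7 * L / 8) (-(2 * h)) t, x.re < -(L / 2) →
      ‖1 + cos (G x).2 - a * x‖ ≤ τ * ‖a‖ * L ∧ ‖(G x).1 - y₀‖ ≤ ρ / 4 := by
    intro x m k
    have k' : L / 2 < |x.re| := lt_abs.2 (Or.inr (lt_neg.1 k))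
    rw [D.col g tb m k']
    exact (D.left x (D.subc g tb m k') k).symm
  induction n with
  | zero => simpa using base
  | succ n ih =>
    intro x m k
    push_cast at k ⊢
    by_cases k' : x.re < -(L / 2)
    · obtain ⟨b1, b2⟩ := base x m k'
      have : 0 ≤ ((n : ℝ) + 1) * e := by positivity
      exact ⟨b1.trans (by gcongr; linarith), by nlinarith⟩
    · have m' : x - e ∈ Rc (7 * L / 8) (-(2 * h)) t := by
        refine ⟨?_, by simpa using m.2.1, by simpa using m.2.2⟩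
        have := abs_lt.1 m.1
        rw [sub_re, ofReal_re, abs_lt]
        constructor <;> linarith [D.eL]
      obtain ⟨b1, b2⟩ := ih (x - e) m' (by rw [sub_re, ofReal_re]; linarith)
      have s := D.stp g m' (by rwa [sub_add_cancel])
      rw [sub_add_cancel] at s
      obtain ⟨b3, b4⟩ := D.se _ (g.mem m') _ (g.mem m) s
      have c1 := norm_add_le (1 + cos (G (x - e)).2 - a * (x - e))
        (cos (G x).2 - cos (G (x - e)).2 - a * e)
      have c2 := norm_add_le ((G (x - e)).1 - y₀) ((G x).1 - (G (x - e)).1)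
      rw [show 1 + cos (G (x - e)).2 - a * (x - e) + (cos (G x).2 - cos (G (x - e)).2 - a * e) =
        1 + cos (G x).2 - a * x by ring] at c1
      rw [sub_add_sub_cancel'] at c2
      constructor <;> linarith

theorem bnd {x : ℂ} (m : x ∈ Rc (7 * L / 8) (-(2 * h)) t) :
    ‖1 + cos (G x).2 - a * x‖ ≤ ‖a‖ * b / 10 ∧
      G x ∈ closedBall y₀ (ρ / 2) ×ˢ closedBall (Real.pi : ℂ) (r / 2) := by
  have e0 := D.e0
  have L0 := D.L0
  have h0 := D.h0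
  have n1 : 3 * L / 2 ≤ ⌈3 * L / 2 / e⌉₊ * e := (div_le_iff₀ e0).1 (Nat.le_ceil _)
  have n2 : ⌈3 * L / 2 / e⌉₊ * e ≤ 2 * L := by
    have := mul_le_mul_of_nonneg_right
      (Nat.ceil_lt_add_one (show 0 ≤ 3 * L / 2 / e by positivity)).le e0.le
    rw [add_mul, div_mul_cancel₀ _ e0.ne'] at this
    linarith [D.eL]
  obtain ⟨b1, b2⟩ := D.bnd0 g tb ⌈3 * L / 2 / e⌉₊ x m (by linarith [(abs_lt.1 m.1).2])
  have a0 := norm_nonneg a
  have b3 : ‖1 + cos (G x).2 - a * x‖ ≤ ‖a‖ * b / 10 := by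
    have c1 : τ * ‖a‖ * (L + ⌈3 * L / 2 / e⌉₊ * e) ≤ τ * ‖a‖ * (3 * L) :=
      mul_le_mul_of_nonneg_left (by linarith) (mul_nonneg D.τ0 a0)
    nlinarith [mul_le_mul_of_nonneg_left D.τb a0]
  refine ⟨b3, mem_closedBall_iff_norm.2 ?_, mem_closedBall_iff_norm.2 ?_⟩
  · nlinarith [mul_le_mul_of_nonneg_left n2 D.C0, D.Cρ]
  · have c1 := near_pi ((mem_ball_iff_norm.1 (g.mem m).2).le.trans D.r1)
    have c2 : ‖x‖ ≤ 2 * L := by
      have d1 := norm_le_abs_re_add_abs_im x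
      have d2 : |x.im| ≤ L := abs_le.2 ⟨by linarith [m.2.1, D.hL], by linarith [m.2.2, D.hL, D.bh]⟩
      linarith [m.1]
    have c3 := norm_add_le (1 + cos (G x).2 - a * x) (a * x)
    rw [sub_add_cancel, norm_mul] at c3
    have c4 := mul_le_mul_of_nonneg_left c2 a0
    have c5 : ‖a‖ * b ≤ ‖a‖ * L := mul_le_mul_of_nonneg_left (by linarith [D.bh, D.hL]) a0
    refine (pow_le_pow_iff_left₀ (norm_nonneg _) (by linarith [D.r0]) two_ne_zero).1 ?_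
    nlinarith [D.ar]

end Dt

end Vale.Agent.P097E.Fold
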