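import Mathlib

/-!
# P097E: the family of discs of the gap step
-/

set_option linter.all false

noncomputable section

namespace Vale.Agent.P097E.Geo

open Filter Topology Set Metric Complex

/-- the peak at the two real points of the circle -/
def pk (ϑ : ℝ) (u : ℂ) : ℂ := ϑ * u ^ 2 / (1 + ϑ - u ^ 2)

/-- the shift along the disc -/
def chi (β K ϑ : ℝ) (u : ℂ) : ℂ := -(I * (8 * β * u ^ 2 + K * pk ϑ u))

variable {β K ϑ : ℝ} {u : ℂ}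

theorem sq_le (hu : ‖u‖ ≤ 1) : ‖u ^ 2‖ ≤ 1 := by
  rw [norm_pow]
  exact pow_le_one₀ (norm_nonneg _) hu

theorem den_re (hu : ‖u‖ ≤ 1) : ϑ ≤ (1 + ϑ - u ^ 2 : ℂ).re := by
  have := (re_le_norm (u ^ 2)).trans (sq_le hu)
  simp only [sub_re, add_re, one_re, ofReal_re]
  linarith

theorem den_ne (hϑ : 0 < ϑ) (hu : ‖u‖ ≤ 1) : (1 + ϑ - u ^ 2 : ℂ) ≠ 0 := fun k => by
  have := den_re (ϑ := ϑ) hu
  rw [k, zero_re] at this
  linarith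

theorem chi_an (hϑ : 0 < ϑ) (hu : ‖u‖ ≤ 1) : AnalyticAt ℂ (chi β K ϑ) u := by
  have h : AnalyticAt ℂ (pk ϑ) u := AnalyticAt.div (by fun_prop) (by fun_prop) (den_ne hϑ hu)
  unfold chi
  fun_prop

theorem chi_zero : chi β K ϑ 0 = 0 := by simp [chi, pk]

theorem pk_le (hϑ : 0 < ϑ) (hu : ‖u‖ ≤ 1) {d : ℝ} (hd : 0 < d) (h : d ≤ ‖(1 + ϑ - u ^ 2 : ℂ)‖) :
    ‖pk ϑ u‖ ≤ ϑ / d := by
  rw [pk, norm_div, norm_mul, norm_real, Real.norm_of_nonneg hϑ.le]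
  have := sq_le hu
  gcongr
  exact mul_le_of_le_one_right hϑ.le this

theorem chi_le (hβ : 0 ≤ β) (hK : 0 ≤ K) (hu : ‖u‖ ≤ 1) {p : ℝ} (h : ‖pk ϑ u‖ ≤ p) :
    ‖chi β K ϑ u‖ ≤ 8 * β + K * p := by
  rw [chi, norm_neg, norm_mul, norm_I, one_mul]
  refine (norm_add_le _ _).trans (add_le_add ?_ ?_)
  · rw [norm_mul, norm_mul, norm_real, Real.norm_of_nonneg hβ, Complex.norm_ofNat]
    exact mul_le_of_le_one_right (by positivity) (sq_le hu)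
  · rw [norm_mul, norm_real, Real.norm_of_nonneg hK]
    gcongr

theorem chi_norm (hβ : 0 ≤ β) (hK : 0 ≤ K) (hϑ : 0 < ϑ) (hu : ‖u‖ ≤ 1) :
    ‖chi β K ϑ u‖ ≤ 8 * β + K := by
  have := chi_le hβ hK hu (pk_le hϑ hu hϑ ((den_re hu).trans (re_le_norm _)))
  rwa [div_self hϑ.ne', mul_one] at this

theorem chi_im : (chi β K ϑ u).im = -(8 * β * (u ^ 2).re + K * (pk ϑ u).re) := by
  simp [chi]

theorem pk_re (hϑ : 0 < ϑ) (hu : ‖u‖ ≤ 1) :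
    (pk ϑ u).re = -ϑ + ϑ * (1 + ϑ) * ((1 + ϑ - u ^ 2 : ℂ)⁻¹).re := by
  have h := den_ne hϑ hu
  have e : pk ϑ u = -ϑ + ((ϑ * (1 + ϑ) : ℝ) : ℂ) * (1 + ϑ - u ^ 2 : ℂ)⁻¹ := by
    rw [pk]
    push_cast
    field_simp
    ring
  rw [e, add_re, re_ofReal_mul, neg_re, ofReal_re]

theorem im_le (hK : 0 ≤ K) (hϑ : 0 < ϑ) (hKϑ : K * ϑ ≤ β) (hu : ‖u‖ ≤ 1) :
    (chi β K ϑ u).im ≤ -(8 * β * (u ^ 2).re) + β := by
  have h : 0 ≤ ((1 + ϑ - u ^ 2 : ℂ)⁻¹).re := by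
    rw [inv_re]
    exact div_nonneg (hϑ.le.trans (den_re hu)) (normSq_nonneg _)
  rw [chi_im, pk_re hϑ hu]
  have : 0 ≤ K * (ϑ * (1 + ϑ) * ((1 + ϑ - u ^ 2 : ℂ)⁻¹).re) := by positivity
  nlinarith

theorem sq_re (hu : ‖u‖ = 1) : (u ^ 2).re = 1 - 2 * u.im ^ 2 ∧ |(u ^ 2).im| ≤ 2 * |u.im| ∧
    (u ^ 2).im ^ 2 + (2 * u.im ^ 2) ^ 2 = 4 * u.im ^ 2 := by
  have h : u.re * u.re + u.im * u.im = 1 := by
    rw [← normSq_apply, normSq_eq_norm_sq, hu, one_pow]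
  have h2 : |u.re| ≤ 1 := hu ▸ abs_re_le_norm u
  have e : (u ^ 2).im = 2 * u.re * u.im := by simp [sq]; ring
  refine ⟨by simp [sq]; linarith, ?_, by rw [e]; linear_combination (4 * u.im ^ 2) * h⟩
  rw [e, abs_mul, abs_mul, abs_two]
  nlinarith [abs_nonneg u.im]

theorem im_le' (hβ : 0 ≤ β) (hK : 0 ≤ K) (hϑ : 0 < ϑ) (hKϑ : K * ϑ ≤ β) (hu : ‖u‖ ≤ 1) :
    (chi β K ϑ u).im ≤ 9 * β := by
  have h := im_le hK hϑ hKϑ hu
  have h2 := (neg_le_abs _).trans ((abs_re_le_norm (u ^ 2)).trans (sq_le hu))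
  nlinarith

/-- on the short arcs the point is deep -/
theorem arc (hβ : 0 ≤ β) (hK : 0 ≤ K) (hϑ : 0 < ϑ) (h2 : ϑ ≤ 1 / 2) (hu : ‖u‖ = 1)
    (h : |u.im| < ϑ / 4) : (chi β K ϑ u).im ≤ 8 * β - K / 4 := by
  obtain ⟨e1, e2, e3⟩ := sq_re hu
  have h3 : u.im ^ 2 ≤ (ϑ / 4) ^ 2 := by
    rw [← sq_abs]
    gcongr
  have h4 : 1 / (2 * ϑ) ≤ ((1 + ϑ - u ^ 2 : ℂ)⁻¹).re := by
    have e4 : (1 + ϑ - u ^ 2 : ℂ).re = ϑ + 2 * u.im ^ 2 := by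
      simp only [sub_re, add_re, one_re, ofReal_re, e1]; ring
    have e5 : (1 + ϑ - u ^ 2 : ℂ).im = -(u ^ 2).im := by simp
    rw [inv_re, div_le_div_iff₀ (by positivity) (normSq_pos.mpr (den_ne hϑ hu.le)), normSq_apply,
      e4, e5]
    nlinarith [sq_nonneg u.im]
  have h5 : 1 / 4 ≤ (pk ϑ u).re := by
    rw [pk_re hϑ hu.le]
    have h6 : ϑ * (1 + ϑ) * (1 / (2 * ϑ)) ≤ ϑ * (1 + ϑ) * ((1 + ϑ - u ^ 2 : ℂ)⁻¹).re := by gcongr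
    have h7 : ϑ * (1 + ϑ) * (1 / (2 * ϑ)) = (1 + ϑ) / 2 := by field_simp
    linarith
  have h8 := (neg_le_abs _).trans ((abs_re_le_norm (u ^ 2)).trans (sq_le hu.le))
  rw [chi_im]
  nlinarith

/-- away from the real points the shift is small -/
theorem far (hβ : 0 ≤ β) (hK : 0 ≤ K) (hϑ : 0 < ϑ) (hKϑ : K * ϑ ≤ β) (hu : ‖u‖ = 1)
    (h : 1 / 4 ≤ |u.im|) : ‖chi β K ϑ u‖ ≤ 10 * β := by
  obtain ⟨e1, e2, e3⟩ := sq_re hu
  have h3 : (1 / 4 : ℝ) ^ 2 ≤ u.im ^ 2 := by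
    rw [← sq_abs u.im]
    gcongr
  have h4 : 1 / 2 ≤ ‖(1 + ϑ - u ^ 2 : ℂ)‖ := by
    have e4 : (1 + ϑ - u ^ 2 : ℂ).re = ϑ + 2 * u.im ^ 2 := by
      simp only [sub_re, add_re, one_re, ofReal_re, e1]; ring
    have e5 : (1 + ϑ - u ^ 2 : ℂ).im = -(u ^ 2).im := by simp
    refine (pow_le_pow_iff_left₀ (by norm_num) (norm_nonneg _) two_ne_zero).mp ?_
    rw [← normSq_eq_norm_sq, normSq_apply, e4, e5]
    nlinarith [sq_nonneg u.im]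
  have := chi_le hβ hK hu.le (pk_le hϑ hu.le (by norm_num) h4)
  have e : K * (ϑ / (1 / 2)) = 2 * (K * ϑ) := by ring
  linarith

/-- the backward path from a point of a boundary circle -/
theorem path (hβ : 0 < β) (hβ' : β ≤ 1 / 300) (hK : 0 ≤ K) (hϑ : 0 < ϑ) (hKϑ : K * ϑ ≤ β)
    (hu : ‖u‖ = 1) {x W : ℂ} (h1 : |x.re| < 200 * β)
    (h2 : x.im < -(10 * β) ∨ (100 * β < |x.re| ∧ x.im < 2 * β)) (w1 : W.im = |u.im| / 2)
    (w2 : ‖W‖ ≤ 3 / 2) {t : ℝ} (ht : 0 ≤ t) :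
    (x + chi β K ϑ u - t * W).im ≤ -β ∨ ((x + chi β K ϑ u - t * W).im ≤ 11 * β ∧
      40 * β ≤ |(x + chi β K ϑ u - t * W).re| ∧ |(x + chi β K ϑ u - t * W).re| ≤ 258 * β) := by
  have i1 := im_le' hβ.le hK hϑ hKϑ hu.le
  have i2 := im_le hK hϑ hKϑ hu.le
  rw [(sq_re hu).1, ← sq_abs] at i2
  have m0 := abs_nonneg u.im
  have m1 : |u.im| ≤ 1 := hu ▸ abs_im_le_norm u
  have m2 : 0 ≤ t * |u.im| := mul_nonneg ht m0
  simp only [sub_im, add_im, im_ofReal_mul, sub_re, add_re, re_ofReal_mul, w1]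
  rcases h2 with h2 | ⟨h2, h3⟩
  · left
    linarith
  by_cases k : x.im + (chi β K ϑ u).im - t * (|u.im| / 2) ≤ -β
  · exact Or.inl k
  right
  push Not at k
  have k0 : β * |u.im| ^ 2 ≤ β * |u.im| := by
    gcongr
    nlinarith
  have k1 : 1 / 4 ≤ |u.im| := by
    by_contra c
    push Not at c
    nlinarith
  have k2 : t ≤ 32 * β := by
    by_contra c
    push Not at c
    nlinarith
  have k3 := (abs_re_le_norm _).trans (far hβ.le hK hϑ hKϑ hu k1)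
  have k4 : |t * W.re| ≤ 48 * β := by
    rw [abs_mul, abs_of_nonneg ht]
    have := (abs_re_le_norm W).trans w2
    nlinarith [abs_nonneg W.re]
  rw [abs_le] at k3 k4
  refine ⟨by linarith, ?_, ?_⟩
  · rw [le_abs]
    rcases lt_abs.mp h2 with c | c
    · left; linarith
    · right; linarith
  · rw [abs_lt] at h1
    rw [abs_le]
    constructor <;> linarith

/-- the disc with parameter `p.1` -/
def Xm (β K ϑ : ℝ) (p : ℂ × ℂ) : ℂ × ℂ :=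
  (p.1 + chi β K ϑ p.2 - I * log (1 + p.2 / 2), 1 + p.2 / 2)

theorem half (hu : ‖u‖ ≤ 1) : ‖u / 2‖ ≤ 1 / 2 := by
  rw [norm_div, Complex.norm_ofNat]
  linarith

theorem W_bd (hu : ‖u‖ ≤ 1) : 1 / 2 ≤ ‖1 + u / 2‖ ∧ ‖1 + u / 2‖ ≤ 3 / 2 := by
  have h := half hu
  have h1 := norm_add_le 1 (u / 2)
  have h2 := norm_sub_le (1 + u / 2) (u / 2)
  rw [add_sub_cancel_right] at h2
  rw [norm_one] at h1 h2
  constructor <;> linarith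

theorem W_ne (hu : ‖u‖ ≤ 1) : 1 + u / 2 ≠ 0 := fun k => by
  have := (W_bd hu).1
  rw [k, norm_zero] at this
  linarith

theorem W_im (u : ℂ) : (1 + u / 2).im = u.im / 2 := by simp

theorem log_bd (hu : ‖u‖ ≤ 1) : ‖I * log (1 + u / 2)‖ ≤ 1 := by
  have := norm_log_one_add_half_le_self (half hu)
  rw [norm_mul, norm_I, one_mul]
  linarith [half hu]

theorem Xm_an (hϑ : 0 < ϑ) (hu : ‖u‖ ≤ 1) (ξ : ℂ) : AnalyticAt ℂ (Xm β K ϑ) (ξ, u) := by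
  have h1 : AnalyticAt ℂ (fun p : ℂ × ℂ => 1 + p.2 / 2) (ξ, u) :=
    analyticAt_const.add (analyticAt_snd.div_const)
  have h2 : AnalyticAt ℂ (fun p : ℂ × ℂ => chi β K ϑ p.2) (ξ, u) :=
    AnalyticAt.comp (g := chi β K ϑ) (f := Prod.snd) (chi_an hϑ hu) analyticAt_snd
  exact ((analyticAt_fst.add h2).sub (analyticAt_const.mul (h1.clog
    (mem_slitPlane_of_norm_lt_one ((half hu).trans_lt (by norm_num)))))).prod h1

theorem Xm_zero (ξ : ℂ) : Xm β K ϑ (ξ, 0) = (ξ, 1) := by simp [Xm, chi_zero]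

theorem Xm_ze (hu : ‖u‖ ≤ 1) (ξ s : ℂ) :
    (1 + u / 2) * exp (-(((Xm β K ϑ (ξ, u)).1 - s) * I)) = exp (-((ξ + chi β K ϑ u - s) * I)) := by
  have e : -(((Xm β K ϑ (ξ, u)).1 - s) * I) =
      -((ξ + chi β K ϑ u - s) * I) + -log (1 + u / 2) := by
    simp only [Xm]
    linear_combination (log (1 + u / 2)) * I_mul_I
  rw [e, exp_add, exp_neg (log _), exp_log (W_ne hu), mul_left_comm, mul_inv_cancel₀ (W_ne hu),
    mul_one]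

theorem Xm_bd (hβ : 0 ≤ β) (hK : 0 ≤ K) (hϑ : 0 < ϑ) (hu : ‖u‖ ≤ 1) (ξ : ℂ) :
    ‖(Xm β K ϑ (ξ, u)).1 - ξ‖ ≤ 8 * β + K + 1 ∧
      (Xm β K ϑ (ξ, u)).1.im ≤ ξ.im + (chi β K ϑ u).im + 1 := by
  have h1 := log_bd hu
  have h2 := chi_norm hβ hK hϑ hu
  constructor
  · have e : (Xm β K ϑ (ξ, u)).1 - ξ = chi β K ϑ u - I * log (1 + u / 2) := by
      simp only [Xm]
      ring
    rw [e]
    linarith [norm_sub_le (chi β K ϑ u) (I * log (1 + u / 2))]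
  · have := (neg_le_abs _).trans ((abs_im_le_norm _).trans h1)
    simp only [Xm, sub_im, add_im]
    linarith

end Vale.Agent.P097E.Geo
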