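import Vale.Agent.P097.H407.Hol

/-!
# P097E: circle averages along a family of discs
-/

set_option linter.all false

noncomputable section

namespace Vale.Agent.P097E.Hart

open Filter Topology Set Metric

/-- the mean over the unit circle -/
def av (G : ℂ × ℂ → ℂ) (ξ : ℂ) : ℂ :=
  (2 * Real.pi * Complex.I : ℂ)⁻¹ • ∮ u in C(0, 1), (u - 0)⁻¹ • G (ξ, u)

theorem av_diff {G : ℂ × ℂ → ℂ} {ξ : ℂ} (h : ∀ u ∈ sphere (0 : ℂ) 1, AnalyticAt ℂ G (ξ, u)) :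
    AnalyticAt ℂ (av G) ξ := by
  obtain ⟨V, W, hV, hW, h1, h2, h3⟩ := generalized_tube_lemma (s := {ξ}) (t := sphere (0 : ℂ) 1)
    isCompact_singleton (isCompact_sphere 0 1) (isOpen_analyticAt ℂ G)
    (by rintro ⟨x, u⟩ ⟨rfl, hu⟩; exact h u hu)
  have k := P097.Hol.differentiableOn_circleIntegral (c := 0) (R := 1)
    (G := fun p : ℂ × ℂ => (p.2 - 0)⁻¹ • G p) (W := W ∩ {0}ᶜ) zero_le_one hV
    (hW.inter isOpen_compl_singleton)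
    (fun u hu => ⟨h2 hu, fun k => by rw [k] at hu; simp at hu⟩)
    (fun p hp => DifferentiableAt.differentiableWithinAt (DifferentiableAt.fun_smul
      (DifferentiableAt.fun_inv (by fun_prop) (by simpa using hp.2.2))
      (AnalyticAt.differentiableAt (h3 ⟨hp.1, hp.2.1⟩))))
  exact (k.const_smul (2 * Real.pi * Complex.I : ℂ)⁻¹).analyticAt (hV.mem_nhds (h1 rfl))

theorem av_eq {G : ℂ × ℂ → ℂ} {ξ : ℂ} (h : ∀ u ∈ closedBall (0 : ℂ) 1, AnalyticAt ℂ G (ξ, u)) :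
    av G ξ = G (ξ, 0) := by
  have k : ∀ u ∈ closedBall (0 : ℂ) 1, DifferentiableAt ℂ (fun u => G (ξ, u)) u := fun u hu =>
    DifferentiableAt.comp (f := fun u : ℂ => (ξ, u)) _ (h u hu).differentiableAt (by fun_prop)
  exact Complex.two_pi_I_inv_smul_circleIntegral_sub_inv_smul_of_differentiable_on_off_countable
    (f := fun u => G (ξ, u)) countable_empty (mem_ball_self one_pos)
    (fun u hu => (k u hu).continuousAt.continuousWithinAt)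
    fun u hu => k u (ball_subset_closedBall hu.1)

theorem av_le {G : ℂ × ℂ → ℂ} {ξ : ℂ} {B : ℝ} (h : ∀ u ∈ sphere (0 : ℂ) 1, ‖G (ξ, u)‖ ≤ B) :
    ‖av G ξ‖ ≤ B := by
  have k := circleIntegral.norm_two_pi_i_inv_smul_integral_le_of_norm_le_const (c := 0) (R := 1)
    (f := fun u => (u - 0)⁻¹ • G (ξ, u)) (C := B) zero_le_one fun u hu => by
      rw [norm_smul, sub_zero, norm_inv, mem_sphere_zero_iff_norm.mp hu, inv_one, one_mul]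
      exact h u hu
  rwa [one_mul] at k

/-- a bound on the boundary circles passes to the centre -/
theorem tr {G : ℂ × ℂ → ℂ} {g : ℂ → ℂ} {U : Set ℂ} {ξ₀ : ℂ} (hU : IsOpen U)
    (hc : IsPreconnected U) (h₀ : ξ₀ ∈ U) (hg : DifferentiableOn ℂ g U)
    (h1 : ∀ ξ ∈ U, ∀ u ∈ sphere (0 : ℂ) 1, AnalyticAt ℂ G (ξ, u))
    (h2 : ∀ᶠ ξ in 𝓝 ξ₀, (∀ u ∈ closedBall (0 : ℂ) 1, AnalyticAt ℂ G (ξ, u)) ∧ g ξ = G (ξ, 0))
    {ξ : ℂ} (hξ : ξ ∈ U) {B : ℝ} (h : ∀ u ∈ sphere (0 : ℂ) 1, ‖G (ξ, u)‖ ≤ B) : ‖g ξ‖ ≤ B := by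
  rw [(hg.analyticOnNhd hU).eqOn_of_preconnected_of_eventuallyEq
    (fun ξ hξ => av_diff (h1 ξ hξ)) hc h₀
    (h2.mono fun ξ hξ => by rw [av_eq hξ.1, hξ.2]) hξ]
  exact av_le h

/-- the same with two short arcs on which only a crude bound is known -/
theorem tr2 {G : ℂ × ℂ → ℂ} {g : ℂ → ℂ} {U : Set ℂ} {ξ₀ : ℂ} (hU : IsOpen U)
    (hc : IsPreconnected U) (h₀ : ξ₀ ∈ U) (hg : DifferentiableOn ℂ g U)
    (h1 : ∀ ξ ∈ U, ∀ u ∈ sphere (0 : ℂ) 1, AnalyticAt ℂ G (ξ, u))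
    (h2 : ∀ᶠ ξ in 𝓝 ξ₀, (∀ u ∈ closedBall (0 : ℂ) 1, AnalyticAt ℂ G (ξ, u)) ∧ g ξ = G (ξ, 0))
    {ξ : ℂ} (hξ : ξ ∈ U) {B M κ : ℝ} (hB : 0 ≤ B) (hM : 0 ≤ M) (hκ : 0 ≤ κ)
    (h : ∀ u ∈ sphere (0 : ℂ) 1, (κ ≤ |u.im| → ‖G (ξ, u)‖ ≤ B) ∧ (|u.im| < κ → ‖G (ξ, u)‖ ≤ M)) :
    ‖g ξ‖ ≤ 2 * B + 2 * κ * M := by
  have a : ∀ p : ℂ × ℂ, AnalyticAt ℂ G p → AnalyticAt ℂ (fun p : ℂ × ℂ => (1 - p.2 ^ 2) * G p) p :=
    fun p hp => AnalyticAt.mul (analyticAt_const.sub (analyticAt_snd.pow 2)) hp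
  refine tr (G := fun p => (1 - p.2 ^ 2) * G p) hU hc h₀ hg (fun ξ hξ u hu => a _ (h1 ξ hξ u hu))
    (h2.mono fun ξ hξ => ⟨fun u hu => a _ (hξ.1 u hu), by simp [hξ.2]⟩) hξ fun u hu => ?_
  have hu1 := mem_sphere_zero_iff_norm.mp hu
  have e : ‖1 - u ^ 2‖ = 2 * |u.im| := by
    have e1 : 1 - u ^ 2 = u * (-(2 * u.im : ℝ) * Complex.I) := by
      have e2 := Complex.mul_conj u
      rw [Complex.normSq_eq_norm_sq, hu1] at e2
      have e3 := Complex.sub_conj u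
      push_cast at e2 e3 ⊢
      linear_combination -e2 - u * e3
    rw [e1, norm_mul, hu1, norm_mul, norm_neg, Complex.norm_real, Complex.norm_I, Real.norm_eq_abs,
      abs_mul]
    simp
  have i1 : |u.im| ≤ 1 := hu1 ▸ Complex.abs_im_le_norm u
  rw [norm_mul, e]
  have n0 := norm_nonneg (G (ξ, u))
  have n1 := abs_nonneg u.im
  rcases le_or_gt κ |u.im| with k | k
  · have := (h u hu).1 k
    nlinarith [mul_nonneg hκ hM]
  · have := (h u hu).2 k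
    nlinarith

end Vale.Agent.P097E.Hart
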