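import Vale.Agent.P097E.Defs
import Vale.Agent.P097E.Hart
import Vale.Agent.P097E.GapGeo

/-!
# P097E: continuation of the real leaf into the gaps
-/

set_option linter.all false

noncomputable section

namespace Vale.Agent.P097E

open Filter Topology Set Metric Complex Cs Hart Geo

namespace Gap

def box (a b c d : ℝ) : Set ℂ := {z | a < z.re} ∩ ({z | z.re < b} ∩ ({z | c < z.im} ∩ {z | z.im < d}))

theorem box_open (a b c d : ℝ) : IsOpen (box a b c d) :=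
  (isOpen_lt continuous_const continuous_re).inter ((isOpen_lt continuous_re continuous_const).inter
    ((isOpen_lt continuous_const continuous_im).inter (isOpen_lt continuous_im continuous_const)))

theorem box_pre (a b c d : ℝ) : IsPreconnected (box a b c d) :=
  ((convex_halfSpace_re_gt a).inter ((convex_halfSpace_re_lt b).inter
    ((convex_halfSpace_im_gt c).inter (convex_halfSpace_im_lt d)))).isPreconnected

theorem ush_eq {L D h b : ℝ} (hL : 0 < L) :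
    Ush L D h b = box (-L) L (-D) (-h) ∪ box (L / 2) L (-D) b ∪ box (-L) (-(L / 2)) (-D) b := by
  ext z
  simp only [Ush, box, mem_setOf_eq, mem_union, mem_inter_iff, abs_lt, lt_abs]
  constructor
  · rintro ⟨⟨h1, h2⟩, h3, h4 | ⟨h4 | h4, h5⟩⟩
    · exact Or.inl (Or.inl ⟨h1, h2, h3, h4⟩)
    · exact Or.inl (Or.inr ⟨h4, h2, h3, h5⟩)
    · exact Or.inr ⟨h1, by linarith, h3, h5⟩
  · rintro ((⟨h1, h2, h3, h4⟩ | ⟨h1, h2, h3, h4⟩) | ⟨h1, h2, h3, h4⟩)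
    · exact ⟨⟨h1, h2⟩, h3, Or.inl h4⟩
    · exact ⟨⟨by linarith, h2⟩, h3, Or.inr ⟨Or.inl h1, h4⟩⟩
    · exact ⟨⟨h1, by linarith⟩, h3, Or.inr ⟨Or.inr (by linarith), h4⟩⟩

theorem ush_open {L D h b : ℝ} (hL : 0 < L) : IsOpen (Ush L D h b) := by
  rw [ush_eq hL]
  exact ((box_open _ _ _ _).union (box_open _ _ _ _)).union (box_open _ _ _ _)

theorem ush_pre {L D h b : ℝ} (hL : 0 < L) (h1 : h < D) (h2 : -h ≤ b) :
    IsPreconnected (Ush L D h b) := by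
  rw [ush_eq hL]
  refine IsPreconnected.union ⟨-(3 / 4 * L), -((D + h) / 2)⟩ (Or.inl ?_) ?_
    (IsPreconnected.union ⟨3 / 4 * L, -((D + h) / 2)⟩ ?_ ?_ (box_pre _ _ _ _) (box_pre _ _ _ _))
    (box_pre _ _ _ _)
  all_goals
    simp only [box, mem_inter_iff, mem_setOf_eq]
    refine ⟨?_, ?_, ?_, ?_⟩ <;> linarith

/-- the reflection `W ↦ -W` -/
def fl (Z : ℂ × ℂ → ℂ × ℂ) (q : ℂ × ℂ) : ℂ × ℂ := ((Z (q.1, -q.2)).1, -(Z (q.1, -q.2)).2)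

/-- the three pieces put together -/
def Zc (L : ℝ) (Z Zp : ℂ × ℂ → ℂ × ℂ) (q : ℂ × ℂ) : ℂ × ℂ :=
  if q.1.im < -L - 2 then Z q else if 0 < q.2.im then Zp q else fl Zp q

variable {L : ℝ} {Z Zp : ℂ × ℂ → ℂ × ℂ} {q : ℂ × ℂ}

theorem cim : Continuous fun q : ℂ × ℂ => q.1.im := continuous_im.comp continuous_fst

theorem zc_low (h : q.1.im < -L - 2) : Zc L Z Zp =ᶠ[𝓝 q] Z :=
  (cim.continuousAt.eventually (gt_mem_nhds h)).mono fun p hp => if_pos hp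

theorem zc_gen {F : ℂ × ℂ → ℂ × ℂ}
    (h1 : ∀ᶠ p in 𝓝 q, (if 0 < p.2.im then Zp p else fl Zp p) = F p)
    (h2 : q.1.im < -L - 1 → F =ᶠ[𝓝 q] Z) : Zc L Z Zp =ᶠ[𝓝 q] F := by
  by_cases k : q.1.im < -L - 1
  · filter_upwards [h1, h2 k] with p p1 p2
    rw [Zc, p1, p2, ite_self]
  · filter_upwards [h1, cim.continuousAt.eventually
      (lt_mem_nhds (show -L - 2 < q.1.im by linarith))] with p p1 p2
    rw [Zc, if_neg (not_lt.mpr p2.le), p1]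

theorem zc_up (h : 0 < q.2.im) (h2 : q.1.im < -L - 1 → Zp =ᶠ[𝓝 q] Z) : Zc L Z Zp =ᶠ[𝓝 q] Zp :=
  zc_gen (((continuous_im.comp continuous_snd).continuousAt.eventually (lt_mem_nhds h)).mono
    fun p hp => if_pos hp) h2

theorem zc_dn (h : q.2.im < 0) (h2 : q.1.im < -L - 1 → fl Zp =ᶠ[𝓝 q] Z) :
    Zc L Z Zp =ᶠ[𝓝 q] fl Zp :=
  zc_gen (((continuous_im.comp continuous_snd).continuousAt.eventually (gt_mem_nhds h)).mono
    fun p hp => if_neg (not_lt.mpr (le_of_lt hp))) h2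

theorem low_open (R L : ℝ) : IsOpen (Low R L) :=
  (isOpen_lt continuous_fst.norm continuous_const).inter
    ((isOpen_lt cim continuous_const).inter (isOpen_lt continuous_snd.norm continuous_const))

theorem fl_an (h : AnalyticAt ℂ Zp (q.1, -q.2)) : AnalyticAt ℂ (fl Zp) q := by
  have k : AnalyticAt ℂ (fun p : ℂ × ℂ => Zp (p.1, -p.2)) q :=
    AnalyticAt.comp (g := Zp) (f := fun p : ℂ × ℂ => (p.1, -p.2)) h
      (analyticAt_fst.prod analyticAt_snd.neg)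
  exact (analyticAt_fst.comp k).prod (analyticAt_snd.comp k).neg

theorem fl_eq {θ H : ℂ → ℂ} {ε R M : ℝ} (hB : Bas θ H ε R L M Z) (hq : q ∈ Low R L)
    (h : Zp =ᶠ[𝓝 (q.1, -q.2)] Z) : fl Zp =ᶠ[𝓝 q] Z := by
  have t : Tendsto (fun p : ℂ × ℂ => (p.1, -p.2)) (𝓝 q) (𝓝 (q.1, -q.2)) :=
    Continuous.tendsto (by fun_prop) q
  filter_upwards [t.eventually h, (low_open R L).mem_nhds hq] with p p1 p2
  rw [fl, p1, hB.ev p p2]
  simp

theorem fl_cls {sg Zm : ℂ → ℂ} {zs η B : ℝ} (m : Mdl sg Zm zs)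
    (h : Cls sg Zm η B (q.1, -q.2) (Zp (q.1, -q.2))) : Cls sg Zm η B q (fl Zp q) := by
  obtain ⟨h1, h2, h3, h4⟩ := h
  refine ⟨by simpa [fl] using h1, h2, ?_, ?_⟩
  · rw [← norm_neg] at h3
    simp only [fl, (m.odd _ h1).2]
    refine le_of_eq_of_le (congrArg norm ?_) h3
    simp only [ze]
    ring
  · rw [← norm_neg] at h4
    simp only [fl, (m.odd _ h1).1]
    refine le_of_eq_of_le (congrArg norm ?_) h4
    simp only [ze]
    ring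

theorem ze_an {f g : ℂ × ℂ → ℂ} {p : ℂ × ℂ} (hf : AnalyticAt ℂ f p) (hg : AnalyticAt ℂ g p) :
    AnalyticAt ℂ (fun p => ze (f p, g p)) p :=
  hg.mul (hf.mul analyticAt_const).neg.cexp

theorem ze_le {y w : ℂ} (h1 : y.im ≤ 0) (h2 : ‖w‖ ≤ 2) : ‖ze (y, w)‖ ≤ 2 := by
  rw [ze, norm_mul, norm_exp]
  have : Real.exp (-(y * I)).re ≤ 1 := Real.exp_le_one_iff.mpr (by simpa using h1)
  nlinarith [norm_nonneg w, Real.exp_pos (-(y * I)).re]

theorem bas_bd {θ H : ℂ → ℂ} {ε R M : ℝ} (hB : Bas θ H ε R L M Z) (hq : q ∈ Low R L) :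
    ‖(Z q).1 - q.1‖ ≤ 1 := by
  have h1 : Real.exp q.1.im ≤ Real.exp (-L) := Real.exp_le_exp.mpr hq.2.1.le
  have h2 := Real.add_one_le_exp L
  have h3 : Real.exp (-L) * Real.exp L = 1 := by rw [← Real.exp_add]; simp
  have h4 := Real.exp_pos (-L)
  have := hB.M0
  have := hB.ML
  refine (hB.bY q hq).trans ((mul_le_mul_of_nonneg_left h1 hB.M0).trans ?_)
  nlinarith

theorem adm {zs β : ℝ} (hz : 0 < zs) (hβ : β ≤ 1 / 300) {ζ y : ℂ}
    (h : ζ = exp (-((y + Real.log zs * I) * I)) ∨ ζ = -exp (-((y + Real.log zs * I) * I)))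
    (k : y.im ≤ -β ∨ (y.im ≤ 11 * β ∧ 40 * β ≤ |y.re| ∧ |y.re| ≤ 258 * β)) : ζ ∈ Adm zs β := by
  have e : exp (-((y + Real.log zs * I) * I)) = zs * exp (-(y * I)) := by
    rw [show -((y + Real.log zs * I) * I) = (Real.log zs : ℝ) + -(y * I) by
      linear_combination (-(Real.log zs : ℂ)) * I_mul_I, exp_add, ← ofReal_exp, Real.exp_log hz]
  refine ⟨-(y * I), by rwa [e] at h, ?_⟩
  have e1 : (-(y * I)).re = y.im := by simp
  have e2 : |(-(y * I)).im| = |y.re| := by simp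
  rw [e1, e2]
  exact k.imp id fun k => ⟨k.1, k.2.1, by linarith [k.2.2]⟩

/-- the boundary circles -/
theorem circ {sg Zm θ H : ℂ → ℂ} {zs β κ η B ε R R₀ M K ϑ D : ℝ} (m : Mdl sg Zm zs) (hβ : 0 < β)
    (hβ' : β ≤ 1 / 300) (hK : 4 * (|L| + |Real.log zs| + 4) ≤ K) (hϑ : 0 < ϑ) (hϑ' : ϑ ≤ 1 / 2)
    (hKϑ : K * ϑ ≤ β) (hκ : 0 < κ) (hκ' : κ ≤ ϑ / 4) (hD : 1 ≤ D)
    (hR : |Real.log zs| + D + K + 3 ≤ R₀) (hR' : R₀ < R) (hB : Bas θ H ε R L M Z)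
    (hp : ∀ q : ℂ × ℂ, ‖q.1‖ ≤ R₀ → κ / 2 ≤ q.2.im → ‖q.2‖ ≤ 3 / 2 →
      (∀ t : ℝ, 0 ≤ t → ze (q.1 - t * q.2, q.2) ∈ Adm zs β) →
      AnalyticAt ℂ Zp q ∧ Cls sg Zm η B q (Zp q) ∧ (q.1.im < -L - 1 → Zp =ᶠ[𝓝 q] Z))
    {x u : ℂ} (hx : x ∈ Ush (200 * β) D (10 * β) (2 * β)) (hu : ‖u‖ ≤ 1) {q : ℂ × ℂ}
    (hq : q = Xm β K ϑ (x + Real.log zs * I, u)) :
    ‖q.1‖ ≤ R₀ ∧ (q.1.im < -L - 2 → q ∈ Low R L) ∧ (‖u‖ = 1 → (|u.im| < κ → q.1.im < -L - 2) ∧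
      (κ ≤ |u.im| → AnalyticAt ℂ (Zc L Z Zp) q ∧ Cls sg Zm η B q (Zc L Z Zp q))) := by
  have l0 := abs_nonneg (Real.log zs)
  have l1 := abs_nonneg L
  have K0 : 0 ≤ K := by linarith
  obtain ⟨x1, x2, x3⟩ := hx
  have x4 : x.im < 2 * β := x3.elim (fun k => by linarith) fun k => k.2
  obtain ⟨b1, b2⟩ := Xm_bd hβ.le K0 hϑ hu (x + Real.log zs * I)
  rw [← hq] at b1 b2
  have q2 : q.2 = 1 + u / 2 := by rw [hq]; rfl
  have n1 : ‖q.1‖ ≤ R₀ := by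
    have k1 := norm_le_abs_re_add_abs_im x
    have k2 : |x.im| ≤ D := abs_le.mpr ⟨by linarith, by linarith⟩
    have k3 := norm_add_le x (Real.log zs * I)
    rw [norm_mul, norm_I, mul_one, norm_real, Real.norm_eq_abs] at k3
    linarith [norm_le_norm_add_norm_sub' q.1 (x + Real.log zs * I)]
  have n2 : ‖q.2‖ ≤ 3 / 2 := q2 ▸ (W_bd hu).2
  have lo : q.1.im < -L - 1 → q ∈ Low R L := fun k => ⟨by linarith, by linarith, by linarith⟩
  refine ⟨n1, fun k => lo (by linarith), fun hu1 => ⟨fun k => ?_, fun k => ?_⟩⟩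
  · have := arc hβ.le K0 hϑ hϑ' hu1 (k.trans_le hκ')
    have e : (x + Real.log zs * I).im = x.im + Real.log zs := by simp
    linarith [le_abs_self (Real.log zs), le_abs_self L]
  have x5 : x.im < -(10 * β) ∨ 100 * β < |x.re| ∧ x.im < 2 * β :=
    x3.imp id fun k => ⟨by linarith [k.1], k.2⟩
  have z1 : ∀ s : ℂ, q.2 * exp (-((q.1 - s) * I)) =
      exp (-((x + chi β K ϑ u - s + Real.log zs * I) * I)) := fun s => by
    rw [q2, hq, Xm_ze hu]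
    congr 3
    ring
  have w1 : q.2.im = u.im / 2 := by rw [q2, W_im]
  rcases le_abs.mp k with c | c
  · have c0 : 0 < u.im := by linarith
    obtain ⟨p1, p2, p3⟩ := hp q n1 (by linarith) n2 fun t ht => adm m.pos hβ' (Or.inl (z1 _))
      (path hβ hβ' K0 hϑ hKϑ hu1 x1 x5 (by rw [w1, abs_of_pos c0]) n2 ht)
    have e := zc_up (by linarith) p3
    exact ⟨p1.congr e.symm, e.eq_of_nhds ▸ p2⟩
  · have c0 : u.im < 0 := by linarith
    obtain ⟨p1, p2, p3⟩ := hp (q.1, -q.2) n1 (by simp only [neg_im]; linarith) (by rwa [norm_neg])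
      fun t ht => adm m.pos hβ' (Or.inr (by rw [← z1, ze, neg_mul]))
        (path hβ hβ' K0 hϑ hKϑ hu1 x1 x5 (by rw [neg_im, w1, abs_of_neg c0]; ring)
          (by rwa [norm_neg]) ht)
    have e := zc_dn (Zp := Zp) (show q.2.im < 0 by linarith) fun k => fl_eq hB (lo k) (p3 k)
    exact ⟨(fl_an p1).congr e.symm, e.eq_of_nhds ▸ fl_cls m p2⟩

theorem app {θ H : ℂ → ℂ} {c : ℂ} {ε R η : ℝ} (w : Wn θ H c ε R η) (hη : η < 1) {a b : ℂ → ℂ}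
    {x : ℂ} (ha : AnalyticAt ℂ a x) (hb : AnalyticAt ℂ b x) (m : a x ∈ ball (0 : ℂ) R) :
    AnalyticAt ℂ (fun x => pp θ H (a x) (b x)) x :=
  (((w.an m).2.comp ha).mul ((differentiable_cos.analyticAt _).comp hb)).add
    ((((w.an m).2.deriv.comp ha).div ((w.an m).1.deriv.comp ha) (w.ne hη m)).mul
      ((differentiable_sin.analyticAt _).comp hb))

theorem re_le {d : ℂ} (h : ‖d‖ ≤ 1) : |d.re| ≤ Real.pi :=
  (abs_re_le_norm d).trans (h.trans (by linarith [Real.pi_gt_three]))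

theorem crude {sg Zm : ℂ → ℂ} {zs : ℝ} (m : Mdl sg Zm zs) :
    ∃ C : ℝ, 0 < C ∧ ∀ d : ℂ, ‖d‖ ≤ 1 → ‖sg d‖ + 2 ≤ C ∧ ‖Zm d‖ + 2 ≤ C := by
  obtain ⟨C, hC⟩ := (isCompact_closedBall (0 : ℂ) 1).exists_bound_of_continuousOn
    (f := fun d => (sg d, Zm d)) fun d hd =>
      (((m.an d (re_le (mem_closedBall_zero_iff.mp hd))).1.prod
        (m.an d (re_le (mem_closedBall_zero_iff.mp hd))).2).continuousAt).continuousWithinAt
  refine ⟨|C| + 2, by positivity, fun d hd => ?_⟩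
  have k := (hC d (mem_closedBall_zero_iff.mpr hd)).trans (le_abs_self C)
  exact ⟨by linarith [norm_fst_le (sg d, Zm d)], by linarith [norm_snd_le (sg d, Zm d)]⟩

/-- the averaged state -/
theorem avg {sg Zm : ℂ → ℂ} {zs B C κ η : ℝ} (m : Mdl sg Zm zs) {U : Set ℂ} {x₀ X₀ : ℂ}
    {P F : ℂ × ℂ → ℂ × ℂ} (Uo : IsOpen U) (Uc : IsPreconnected U) (x0 : x₀ ∈ U) (hη : 0 < η)
    (C0 : 0 ≤ C) (κ0 : 0 ≤ κ) (κ2 : 2 * κ * C ≤ η / 2)
    (Pa : ∀ x u : ℂ, ‖u‖ ≤ 1 → AnalyticAt ℂ P (x, u)) (P0 : ∀ x : ℂ, P (x, 0) = (x + X₀, 1))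
    (A1 : ∀ x ∈ U, ∀ u ∈ sphere (0 : ℂ) 1, AnalyticAt ℂ F (x, u) ∧ |(F (x, u)).2.re| ≤ Real.pi ∧
      ‖(F (x, u)).1 - (P (x, u)).1‖ ≤ B ∧
      (κ ≤ |u.im| → ‖Zm (F (x, u)).2 - ze (P (x, u))‖ ≤ η / 4 ∧
        ‖sg (F (x, u)).2 - ze ((F (x, u)).1, (P (x, u)).2)‖ ≤ η / 4) ∧
      (|u.im| < κ → ‖Zm (F (x, u)).2 - ze (P (x, u))‖ ≤ C ∧
        ‖sg (F (x, u)).2 - ze ((F (x, u)).1, (P (x, u)).2)‖ ≤ C))
    (A2 : ∀ᶠ x in 𝓝 x₀, ∀ u ∈ closedBall (0 : ℂ) 1, AnalyticAt ℂ F (x, u) ∧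
      |(F (x, u)).2.re| ≤ Real.pi) :
    ∃ Y E : ℂ → ℂ, (∀ x ∈ U, AnalyticAt ℂ Y x ∧ AnalyticAt ℂ E x ∧
      Cls sg Zm η B (x + X₀, 1) (Y x, E x)) ∧
      ∀ x, (∀ u ∈ closedBall (0 : ℂ) 1, AnalyticAt ℂ F (x, u)) → (Y x, E x) = F (x, 0) := by
  obtain ⟨Y, E, Ya, Ea, A3⟩ : ∃ Y E : ℂ → ℂ, (∀ x ∈ U, AnalyticAt ℂ Y x) ∧
      (∀ x ∈ U, AnalyticAt ℂ E x) ∧
      ∀ x, (∀ u ∈ closedBall (0 : ℂ) 1, AnalyticAt ℂ F (x, u)) → (Y x, E x) = F (x, 0) :=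
    ⟨av fun p => (F p).1, av fun p => (F p).2,
      fun x hx => av_diff fun u hu => analyticAt_fst.comp (A1 x hx u hu).1,
      fun x hx => av_diff fun u hu => analyticAt_snd.comp (A1 x hx u hu).1,
      fun x hx => Prod.ext (av_eq (G := fun p => (F p).1) fun u hu => analyticAt_fst.comp (hx u hu))
        (av_eq (G := fun p => (F p).2) fun u hu => analyticAt_snd.comp (hx u hu))⟩
  have T : ∀ Φ : (ℂ × ℂ) × ℂ × ℂ → ℂ, (∀ r, |r.2.2.re| ≤ Real.pi → AnalyticAt ℂ Φ r) →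
      (∀ x ∈ U, AnalyticAt ℂ Φ ((x + X₀, 1), Y x, E x)) →
      DifferentiableOn ℂ (fun x => Φ ((x + X₀, 1), Y x, E x)) U ∧
      (∀ x ∈ U, ∀ u ∈ sphere (0 : ℂ) 1, AnalyticAt ℂ (fun p => Φ (P p, F p)) (x, u)) ∧
      ∀ᶠ x in 𝓝 x₀, (∀ u ∈ closedBall (0 : ℂ) 1, AnalyticAt ℂ (fun p => Φ (P p, F p)) (x, u)) ∧
        Φ ((x + X₀, 1), Y x, E x) = (fun p => Φ (P p, F p)) (x, 0) := by
    intro Φ h1 h2
    refine ⟨fun x hx => (AnalyticAt.comp (g := Φ)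
      (f := fun x : ℂ => (((x + X₀, 1), Y x, E x) : (ℂ × ℂ) × ℂ × ℂ)) (h2 x hx)
      (((analyticAt_id.add analyticAt_const).prod analyticAt_const).prod
        ((Ya x hx).prod (Ea x hx)))).differentiableAt.differentiableWithinAt,
      fun x hx u hu => AnalyticAt.comp (g := Φ) (f := fun p => (P p, F p))
        (h1 _ (A1 x hx u hu).2.1)
        ((Pa x u (mem_sphere_zero_iff_norm.mp hu).le).prod (A1 x hx u hu).1), ?_⟩
    filter_upwards [A2] with x k1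
    exact ⟨fun u hu => AnalyticAt.comp (g := Φ) (f := fun p => (P p, F p)) (h1 _ (k1 u hu).2)
      ((Pa x u (mem_closedBall_zero_iff.mp hu)).prod (k1 u hu).1),
      by simp only [A3 x fun u hu => (k1 u hu).1, P0]⟩
  have f1 : ∀ r : (ℂ × ℂ) × ℂ × ℂ, AnalyticAt ℂ (fun r : (ℂ × ℂ) × ℂ × ℂ => r.1.1) r :=
    fun r => analyticAt_fst.comp analyticAt_fst
  have f2 : ∀ r : (ℂ × ℂ) × ℂ × ℂ, AnalyticAt ℂ (fun r : (ℂ × ℂ) × ℂ × ℂ => r.1.2) r :=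
    fun r => analyticAt_snd.comp analyticAt_fst
  have f3 : ∀ r : (ℂ × ℂ) × ℂ × ℂ, AnalyticAt ℂ (fun r : (ℂ × ℂ) × ℂ × ℂ => r.2.1) r :=
    fun r => analyticAt_fst.comp analyticAt_snd
  have f4 : ∀ r : (ℂ × ℂ) × ℂ × ℂ, AnalyticAt ℂ (fun r : (ℂ × ℂ) × ℂ × ℂ => r.2.2) r :=
    fun r => analyticAt_snd.comp analyticAt_snd
  have zz : ∀ (a b : (ℂ × ℂ) × ℂ × ℂ → ℂ) (r), AnalyticAt ℂ a r → AnalyticAt ℂ b r →
      AnalyticAt ℂ (fun r => ze (a r, b r)) r := fun a b r ha hb =>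
    hb.mul (ha.mul analyticAt_const).neg.cexp
  have c1 : ∀ x ∈ U, |(E x).re| ≤ Real.pi := by
    intro x hx
    obtain ⟨t1, t2, t3⟩ := T (fun r => exp r.2.2) (fun r _ => (f4 r).cexp) fun _ _ => (f4 _).cexp
    obtain ⟨s1, s2, s3⟩ := T (fun r => exp (-r.2.2)) (fun r _ => (f4 r).neg.cexp)
      fun _ _ => (f4 _).neg.cexp
    have k1 := tr Uo Uc x0 t1 t2 t3 hx (B := Real.exp Real.pi) fun u hu => by
      rw [norm_exp]
      exact Real.exp_le_exp.mpr (abs_le.mp (A1 x hx u hu).2.1).2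
    have k2 := tr Uo Uc x0 s1 s2 s3 hx (B := Real.exp Real.pi) fun u hu => by
      rw [norm_exp, neg_re]
      exact Real.exp_le_exp.mpr (by linarith [(abs_le.mp (A1 x hx u hu).2.1).1])
    rw [norm_exp, Real.exp_le_exp] at k1 k2
    rw [neg_re] at k2
    exact abs_le.mpr ⟨by linarith, k1⟩
  have a : ∀ r : (ℂ × ℂ) × ℂ × ℂ, |r.2.2.re| ≤ Real.pi →
      AnalyticAt ℂ (fun r : (ℂ × ℂ) × ℂ × ℂ => Zm r.2.2 - ze (r.1.1, r.1.2)) r := fun r hr =>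
    (AnalyticAt.comp (g := Zm) (f := fun r : (ℂ × ℂ) × ℂ × ℂ => r.2.2) (m.an _ hr).2 (f4 r)).sub
      (zz _ _ r (f1 r) (f2 r))
  have b : ∀ r : (ℂ × ℂ) × ℂ × ℂ, |r.2.2.re| ≤ Real.pi →
      AnalyticAt ℂ (fun r : (ℂ × ℂ) × ℂ × ℂ => sg r.2.2 - ze (r.2.1, r.1.2)) r := fun r hr =>
    (AnalyticAt.comp (g := sg) (f := fun r : (ℂ × ℂ) × ℂ × ℂ => r.2.2) (m.an _ hr).1 (f4 r)).sub
      (zz _ _ r (f3 r) (f2 r))
  refine ⟨Y, E, fun x hx => ⟨Ya x hx, Ea x hx, c1 x hx, ?_, ?_, ?_⟩, A3⟩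
  · obtain ⟨t1, t2, t3⟩ := T (fun r => r.2.1 - r.1.1) (fun r _ => (f3 r).sub (f1 r))
      fun _ _ => (f3 _).sub (f1 _)
    exact tr Uo Uc x0 t1 t2 t3 hx fun u hu => (A1 x hx u hu).2.2.1
  · obtain ⟨t1, t2, t3⟩ := T _ a fun x hx => a _ (c1 x hx)
    exact (tr2 Uo Uc x0 t1 t2 t3 hx (B := η / 4) (by positivity) C0 κ0 fun u hu =>
      ⟨fun k => ((A1 x hx u hu).2.2.2.1 k).1, fun k => ((A1 x hx u hu).2.2.2.2 k).1⟩).trans
      (by linarith)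
  · obtain ⟨t1, t2, t3⟩ := T _ b fun x hx => b _ (c1 x hx)
    exact (tr2 Uo Uc x0 t1 t2 t3 hx (B := η / 4) (by positivity) C0 κ0 fun u hu =>
      ⟨fun k => ((A1 x hx u hu).2.2.2.1 k).2, fun k => ((A1 x hx u hu).2.2.2.2 k).2⟩).trans
      (by linarith)

/-- the chord relation passes from the low part to the whole bottom box -/
theorem stp {θ H Y E : ℂ → ℂ} {c : ℂ} {ε R η a D h : ℝ} (w : Wn θ H c ε R η) (η1 : η < 1)
    (he : 0 < ε) (hD : h + 1 ≤ D)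
    (h1 : ∀ y ∈ box (-a) a (-D) (-h), AnalyticAt ℂ Y y ∧ AnalyticAt ℂ E y ∧ Y y ∈ ball (0 : ℂ) R)
    (h2 : ∀ y ∈ box (-a) a (-D) (-h), y + ε ∈ box (-a) a (-D) (-h) → y.im < -D + 1 →
      St θ H (Y y, E y) (Y (y + ε), E (y + ε)))
    {x : ℂ} (hx : x ∈ box (-a) a (-D) (-h)) (k2 : (x + ε).re < a) :
    St θ H (Y x, E x) (Y (x + ε), E (x + ε)) := by
  have V1 : ∀ y ∈ box (-a) (a - ε) (-D) (-h),
      y ∈ box (-a) a (-D) (-h) ∧ y + ε ∈ box (-a) a (-D) (-h) := by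
    rintro y ⟨y1, y2, y3, y4⟩
    simp only [box, mem_inter_iff, mem_setOf_eq, add_re, ofReal_re, add_im, ofReal_im,
      add_zero] at *
    exact ⟨⟨y1, by linarith, y3, y4⟩, by linarith, by linarith, y3, y4⟩
  have x2 : x.re < a - ε := by
    simp only [add_re, ofReal_re] at k2
    linarith
  have xm : x ∈ box (-a) (a - ε) (-D) (-h) := ⟨hx.1, x2, hx.2.2⟩
  have ym : (⟨x.re, -D + 1 / 2⟩ : ℂ) ∈ box (-a) (a - ε) (-D) (-h) :=
    ⟨hx.1, x2, by simp, by simp only [mem_setOf_eq]; linarith⟩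
  have sh1 : ∀ {f : ℂ → ℂ} {y : ℂ}, AnalyticAt ℂ f (y + ε) → AnalyticAt ℂ (fun y => f (y + ε)) y :=
    fun h => AnalyticAt.comp (f := fun y : ℂ => y + ε) h (analyticAt_id.add analyticAt_const)
  have ev : ∀ᶠ y in 𝓝 (⟨x.re, -D + 1 / 2⟩ : ℂ), St θ H (Y y, E y) (Y (y + ε), E (y + ε)) := by
    filter_upwards [(box_open _ _ _ _).mem_nhds ym, continuous_im.continuousAt.eventually
      (gt_mem_nhds (show (⟨x.re, -D + 1 / 2⟩ : ℂ).im < -D + 1 by simp only; linarith))] with y hy k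
    exact h2 y (V1 y hy).1 (V1 y hy).2 k
  have p := fun y hy => h1 y (V1 y hy).1
  have p' := fun y hy => h1 _ (V1 y hy).2
  exact ⟨AnalyticOnNhd.eqOn_of_preconnected_of_eventuallyEq
      (f := fun y => θ (Y (y + ε)) - E (y + ε)) (g := fun y => θ (Y y) + E y)
      (fun y hy => (sh1 (((w.an (p' y hy).2.2).1).comp (p' y hy).1)).sub (sh1 (p' y hy).2.1))
      (fun y hy => (((w.an (p y hy).2.2).1).comp (p y hy).1).add (p y hy).2.1)
      (box_pre _ _ _ _) ym (ev.mono fun y hy => hy.1) xm,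
    AnalyticOnNhd.eqOn_of_preconnected_of_eventuallyEq
      (f := fun y => pp θ H (Y (y + ε)) (-E (y + ε))) (g := fun y => pp θ H (Y y) (E y))
      (fun y hy => app w η1 (sh1 (p' y hy).1) (sh1 (p' y hy).2.1).neg (p' y hy).2.2)
      (fun y hy => app w η1 (p y hy).1 (p y hy).2.1 (p y hy).2.2)
      (box_pre _ _ _ _) ym (ev.mono fun y hy => hy.2) xm⟩

end Gap

open Gap in
theorem gap : Spec_GAP := by
  intro sg Zm zs _ m sh β η L M hβ hβ' hη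
  obtain ⟨C, C0, hC⟩ := crude m
  have l0 := abs_nonneg (Real.log zs)
  have l1 := abs_nonneg L
  obtain ⟨K, hK⟩ : ∃ K, K = 4 * (|L| + |Real.log zs| + 4) := ⟨_, rfl⟩
  obtain ⟨D, hD⟩ : ∃ D, D = |L| + |Real.log zs| + 5 := ⟨_, rfl⟩
  obtain ⟨R₀, hR₀⟩ : ∃ R₀, R₀ = |Real.log zs| + D + K + 3 := ⟨_, rfl⟩
  have K0 : 0 < K := by linarith
  have ϑ0 : 0 < β / K := by positivity
  have ϑ1 : β / K ≤ 1 / 2 := by
    rw [div_le_iff₀ K0]
    linarith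
  have ϑ2 : K * (β / K) ≤ β := le_of_eq (by field_simp)
  obtain ⟨κ, κ0, κ1, κ2⟩ : ∃ κ, 0 < κ ∧ κ ≤ β / K / 4 ∧ 2 * κ * C ≤ η / 2 := by
    refine ⟨min (β / K / 4) (η / (4 * C)), by positivity, min_le_left _ _, ?_⟩
    have := min_le_right (β / K / 4) (η / (4 * C))
    rw [le_div_iff₀ (by positivity)] at this
    linarith
  generalize β / K = ϑ at ϑ0 ϑ1 ϑ2 κ1
  obtain ⟨B, R, ε₀, η₀, e0, h0, hS⟩ := sh β (κ / 2) (η / 4) R₀ L M hβ hβ' (by positivity)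
    (by positivity)
  refine ⟨|B| + 1, max R (R₀ + |B| + 2), ε₀, min η₀ (1 / 2), e0, lt_min h0 (by norm_num),
    fun θ H c ε Z w he he' hB => ?_⟩
  obtain ⟨Zp, hp⟩ := hS θ H c ε Z (Wn_mono w (le_max_left _ _) (min_le_left _ _)) he he'
    (hB.mono (le_max_left _ _))
  have R1 := le_max_right R (R₀ + |B| + 2)
  generalize max R (R₀ + |B| + 2) = R' at w hB R1
  have B0 := abs_nonneg B
  have η1 : min η₀ (1 / 2) < 1 := (min_le_right _ _).trans_lt (by norm_num)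
  obtain ⟨P, hP⟩ : ∃ P : ℂ × ℂ → ℂ × ℂ, P = fun p => Xm β K ϑ (p.1 + Real.log zs * I, p.2) :=
    ⟨_, rfl⟩
  have Pa : ∀ x u : ℂ, ‖u‖ ≤ 1 → AnalyticAt ℂ P (x, u) := fun x u hu => hP ▸
    AnalyticAt.comp (g := Xm β K ϑ) (f := fun p : ℂ × ℂ => (p.1 + Real.log zs * I, p.2))
      (Xm_an ϑ0 hu _) ((analyticAt_fst.add analyticAt_const).prod analyticAt_snd)
  have P0 : ∀ x : ℂ, P (x, 0) = (x + Real.log zs * I, 1) := fun x => hP ▸ Xm_zero _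
  have cc := fun (x u : ℂ) (hx : x ∈ Ush (200 * β) D (10 * β) (2 * β)) (hu : ‖u‖ ≤ 1) =>
    circ (q := P (x, u)) m hβ hβ' hK.ge ϑ0 ϑ1 ϑ2 κ0 κ1 (by linarith) hR₀.ge (by linarith) hB hp
      hx hu (by rw [hP])
  have dp : ∀ x u : ℂ, x.im < -D + 1 → ‖u‖ ≤ 1 → (P (x, u)).1.im < -L - 2 := by
    intro x u k hu
    have b := (Xm_bd hβ.le K0.le ϑ0 hu (x + Real.log zs * I)).2
    have i := im_le' hβ.le K0.le ϑ0 ϑ2 hu
    have e : (x + Real.log zs * I).im = x.im + Real.log zs := by simp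
    rw [hP]
    linarith [le_abs_self (Real.log zs), le_abs_self L]
  clear hP hS hp
  have lw : ∀ x ∈ Ush (200 * β) D (10 * β) (2 * β), ∀ u : ℂ, ‖u‖ ≤ 1 →
      (P (x, u)).1.im < -L - 2 → AnalyticAt ℂ (fun p => Zc L Z Zp (P p)) (x, u) ∧
      P (x, u) ∈ Low R' L ∧ Zc L Z Zp (P (x, u)) = Z (P (x, u)) ∧
      |(Zc L Z Zp (P (x, u))).2.re| ≤ Real.pi := by
    intro x hx u hu k
    have k1 := (cc x u hx hu).2.1 k
    have k2 := zc_low (Z := Z) (Zp := Zp) k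
    exact ⟨AnalyticAt.comp (g := Zc L Z Zp) ((hB.an _ k1).congr k2.symm) (Pa x u hu), k1,
      k2.eq_of_nhds, k2.eq_of_nhds ▸ re_le (hB.sm _ k1)⟩
  have Uo : IsOpen (Ush (200 * β) D (10 * β) (2 * β)) := ush_open (by linarith)
  have x0 : (⟨0, -D + 1 / 2⟩ : ℂ) ∈ Ush (200 * β) D (10 * β) (2 * β) :=
    ⟨by simpa using hβ, by simp, Or.inl (by simp only; linarith)⟩
  obtain ⟨Y, E, y1, y2⟩ := avg (F := fun p => Zc L Z Zp (P p)) (B := |B| + 1) m Uo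
    (ush_pre (by linarith) (by linarith) (by linarith)) x0 hη C0.le κ0.le κ2 Pa P0
    (by
      intro x hx u hu
      have hu1 := mem_sphere_zero_iff_norm.mp hu
      obtain ⟨c1, c2⟩ := (cc x u hx hu1.le).2.2 hu1
      rcases le_or_gt κ |u.im| with k | k
      · obtain ⟨c3, c4⟩ := c2 k
        exact ⟨AnalyticAt.comp (g := Zc L Z Zp) c3 (Pa x u hu1.le), c4.1,
          c4.2.1.trans (by linarith [le_abs_self B]), fun _ => c4.2.2,
          fun k' => absurd k' (not_lt.mpr k)⟩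
      · obtain ⟨a1, a2, a3, a4⟩ := lw x hx u hu1.le (c1 k)
        have a5 := bas_bd hB a2
        have a6 := hC _ (hB.sm _ a2)
        have a7 := (le_abs_self _).trans ((abs_im_le_norm _).trans a5)
        rw [sub_im] at a7
        have a8 := a2.2.1
        have a9 := hB.L3
        have z1 : ‖ze (P (x, u))‖ ≤ 2 := ze_le (y := (P (x, u)).1) (by linarith) a2.2.2.le
        have z2 := ze_le (y := (Z (P (x, u))).1) (by linarith) a2.2.2.le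
        refine ⟨a1, a4, by simp only [a3]; linarith, fun k' => absurd k (not_lt.mpr k'),
          fun _ => ?_⟩
        simp only [a3]
        exact ⟨(norm_sub_le _ _).trans (by linarith [a6.2]),
          (norm_sub_le _ _).trans (by linarith [a6.1])⟩)
    (by
      filter_upwards [Uo.mem_nhds x0, continuous_im.continuousAt.eventually
        (gt_mem_nhds (show (⟨0, -D + 1 / 2⟩ : ℂ).im < -D + 1 by simp only; linarith))]
        with x hx k u hu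
      have k1 := lw x hx u (mem_closedBall_zero_iff.mp hu) (dp x u k (mem_closedBall_zero_iff.mp hu))
      exact ⟨k1.1, k1.2.2.2⟩)
  have sub : Ush (200 * β) (20 * β) (10 * β) (2 * β) ⊆ Ush (200 * β) D (10 * β) (2 * β) :=
    fun x hx => ⟨hx.1, by linarith [hx.2.1], hx.2.2⟩
  have sb : box (-(200 * β)) (200 * β) (-D) (-(10 * β)) ⊆ Ush (200 * β) D (10 * β) (2 * β) :=
    fun x hx => ⟨abs_lt.mpr ⟨hx.1, hx.2.1⟩, hx.2.2.1, Or.inl hx.2.2.2⟩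
  have A2 : ∀ x ∈ Ush (200 * β) D (10 * β) (2 * β), x.im < -D + 1 →
      (x + Real.log zs * I, (1 : ℂ)) ∈ Low R' L ∧ (Y x, E x) = Z (x + Real.log zs * I, 1) := by
    intro x hx k
    have k1 := fun (u : ℂ) (hu : ‖u‖ ≤ 1) => lw x hx u hu (dp x u k hu)
    have k3 := k1 0 (by simp)
    rw [y2 x fun u hu => (k1 u (mem_closedBall_zero_iff.mp hu)).1, ← P0]
    exact ⟨k3.2.1, k3.2.2.1⟩
  refine ⟨Y, E, fun x hx => (y1 x (sub hx)).1.differentiableAt.differentiableWithinAt,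
    fun x hx => (y1 x (sub hx)).2.1.differentiableAt.differentiableWithinAt, fun x hx =>
    ⟨(y1 x (sub hx)).2.2, fun k1 k2 => stp (D := D) (h := 10 * β) w η1 he (by linarith)
      (fun y hy => ⟨(y1 y (sb hy)).1, (y1 y (sb hy)).2.1, ?_⟩) (fun y hy hy' k => ?_)
      ⟨(abs_lt.mp hx.1).1, (abs_lt.mp hx.1).2, (sub hx).2.1, k1⟩ (abs_lt.mp k2).2⟩⟩
  · have k := (cc y 0 (sb hy) (by simp)).1
    have k' := (y1 y (sb hy)).2.2.2.1
    rw [P0] at k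
    rw [mem_ball_zero_iff]
    linarith [norm_le_norm_add_norm_sub' (Y y) (y + Real.log zs * I)]
  · obtain ⟨a2, a3⟩ := A2 y (sb hy) k
    obtain ⟨b2, b3⟩ := A2 (y + ε) (sb hy') (by simpa using k)
    have e : y + ε + Real.log zs * I = y + Real.log zs * I + ε * 1 := by ring
    rw [e] at b2 b3
    rw [a3, b3]
    exact hB.stp _ a2 b2

end Vale.Agent.P097E
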