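import Vale.Agent.P097E.Defs
import Vale.Agent.P097E.B2Defs

/-!
# P097E: from a level to the baseline in the window (definitions and statements)
-/

set_option linter.all false

noncomputable section

namespace Vale.Agent.P097E

open Filter Topology Set Metric Complex Cs Vale.Agent.P097N

/-- the function `F` in the window coordinate of the level -/
def wc (f : ℂ → ℂ) (m : ℝ) (y : ℂ) (F : ℂ → ℂ) (X : ℂ) : ℂ := F (y + m * (arg (f y) + X))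

/-- the vertex map in the low part of the window -/
structure Lv (θ H : ℂ → ℂ) (ε R L M : ℝ) (Z : ℂ × ℂ → ℂ) : Prop where
  d : DifferentiableOn ℂ Z (Low R L)
  ev : ∀ q ∈ Low R L, Z (q.1, -q.2) = Z q
  bd : ∀ q ∈ Low R L, ‖Z q - q.1‖ ≤ M * Real.exp q.1.im
  law : ∀ X W : ℂ, (X - ε * W, W) ∈ Low R L → (X, W) ∈ Low R L → (X + ε * W, W) ∈ Low R L →
    EE θ H (Z (X - ε * W, W)) (Z (X, W)) (Z (X + ε * W, W)) = 0

/-- the chord function in the low part of the window -/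
def Pv (θ H : ℂ → ℂ) (ε R L M : ℝ) : Prop := ∀ b c : ℂ, ‖b‖ < R → b.im < -L → ‖c - b‖ ≤ 4 * ε →
  ‖Ph θ H (b, c) - (c - b)‖ ≤ M * Real.exp b.im * ‖c - b‖ ∧
    (c ≠ b → k1 θ H b c ≠ 0 ∧ AnalyticAt ℂ (Ph θ H) (b, c))

/-- the vertex map from the baselines at all levels -/
def Spec_GA : Prop := ∀ (c κ : ℝ) (θ H Q : ℂ → ℂ) (Y : ℂ × ℂ → ℂ),
  (∀ r, 0 < r → P097Top.Cur r c θ H Q) → P097Top.Sol0 θ H κ Y → ∃ L M : ℝ, 0 ≤ M ∧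
    ∀ R : ℝ, ∃ P₀ : ℝ, ∀ (P m : ℝ) (y : ℂ), P₀ ≤ P → Lvl (deriv θ) Q P m y →
      ∃ Z : ℂ × ℂ → ℂ, Lv (wc (deriv θ) m y θ) (wc (deriv θ) m y H) (m * Real.exp P)⁻¹ R L M Z

/-- the window and the chord function -/
def Spec_GW : Prop := ∀ (c : ℝ) (θ H Q : ℂ → ℂ), (∀ r, 0 < r → P097Top.Cur r c θ H Q) →
  ∃ L M : ℝ, 0 ≤ M ∧ ∀ R ε₀ η₀ : ℝ, 0 < ε₀ → 0 < η₀ → ∃ P₀ : ℝ, ∀ (P m : ℝ) (y : ℂ), P₀ ≤ P →
    Lvl (deriv θ) Q P m y → (m * Real.exp P)⁻¹ ≤ ε₀ ∧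
      Wn (wc (deriv θ) m y θ) (wc (deriv θ) m y H) (m ^ 3 * c) (m * Real.exp P)⁻¹ R η₀ ∧
      Pv (wc (deriv θ) m y θ) (wc (deriv θ) m y H) (m * Real.exp P)⁻¹ R L M

/-- the half angle -/
def Spec_GB : Prop := ∀ L M : ℝ, 0 ≤ M → ∃ L' M' : ℝ,
  ∀ (θ H : ℂ → ℂ) (c : ℂ) (ε R : ℝ) (Z : ℂ × ℂ → ℂ), Wn θ H c ε (R + 3) (1 / 8) → 0 < ε →
    ε ≤ 1 / 100 → Lv θ H ε (R + 3) L M Z → Pv θ H ε (R + 3) L M → ∃ Z', Bas θ H ε R L' M' Z'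

theorem Low_mono {R L R' L' : ℝ} (hR : R' ≤ R) (hL : L ≤ L') : Low R' L' ⊆ Low R L :=
  fun _ h => ⟨h.1.trans_le hR, h.2.1.trans_le (neg_le_neg hL), h.2.2⟩

theorem Lv.mono {θ H : ℂ → ℂ} {ε R L M L' M' : ℝ} {Z : ℂ × ℂ → ℂ} (h : Lv θ H ε R L M Z)
    (hL : L ≤ L') (hM : M ≤ M') : Lv θ H ε R L' M' Z := by
  have s := Low_mono (le_refl R) hL
  exact ⟨h.d.mono s, fun q hq => h.ev q (s hq), fun q hq => (h.bd q (s hq)).trans (by gcongr),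
    fun X W a b c => h.law X W (s a) (s b) (s c)⟩

theorem Pv.mono {θ H : ℂ → ℂ} {ε R L M L' M' : ℝ} (h : Pv θ H ε R L M) (hL : L ≤ L')
    (hM : M ≤ M') : Pv θ H ε R L' M' := fun b c h1 h2 h3 =>
  (h b c h1 (h2.trans_le (neg_le_neg hL)) h3).imp_left fun k => k.trans (by gcongr)

theorem glue_of (ga : Spec_GA) (gw : Spec_GW) (gb : Spec_GB) : Spec_GLUE := by
  intro c κ θ H Q Y C S
  obtain ⟨L₁, M₁, m1, h1⟩ := ga c κ θ H Q Y C S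
  obtain ⟨L₂, M₂, m2, h2⟩ := gw c θ H Q C
  obtain ⟨L, M, h3⟩ := gb (max L₁ L₂) (max M₁ M₂) (le_max_of_le_left m1)
  refine ⟨L, M, fun R ε₀ η₀ e0 k0 => ?_⟩
  obtain ⟨P₁, h1⟩ := h1 (R + 3)
  obtain ⟨P₂, h2⟩ := h2 (R + 3) (min ε₀ (1 / 100)) (min η₀ (1 / 8)) (by positivity) (by positivity)
  refine ⟨max P₁ P₂, fun P m y hP l => ?_⟩
  obtain ⟨Z, hZ⟩ := h1 P m y ((le_max_left _ _).trans hP) l
  obtain ⟨a, w, p⟩ := h2 P m y ((le_max_right _ _).trans hP) l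
  have e : 0 < (m * Real.exp P)⁻¹ := by have := l.m0; positivity
  obtain ⟨Z', hZ'⟩ := h3 _ _ _ _ R Z (Wn_mono w le_rfl (min_le_right _ _)) e
    (a.trans (min_le_right _ _)) (hZ.mono (le_max_left _ _) (le_max_left _ _))
    (p.mono (le_max_right _ _) (le_max_right _ _))
  exact ⟨_, _, _, _, Z', Wn_mono w (by linarith) (min_le_left _ _), e, a.trans (min_le_left _ _),
    hZ'⟩

end Vale.Agent.P097E
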