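import Vale.Agent.P097E.GlueLv
import Vale.Agent.P097E.GlueDefs

/-!
# P097E: the vertex map in the low part of the window
-/

set_option linter.all false

noncomputable section

namespace Vale.Agent.P097E

open Filter Topology Set Metric Vale.Agent.P097N

theorem wc_deriv {f F : ℂ → ℂ} (m : ℝ) (y : ℂ) (d : Differentiable ℂ F) (X : ℂ) :
    deriv (wc f m y F) X = m * deriv F (y + m * (Complex.arg (f y) + X)) := by
  have h := (d (y + m * (Complex.arg (f y) + X))).hasDerivAt.comp X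
    ((((hasDerivAt_id X).const_add (Complex.arg (f y) : ℂ)).const_mul (m : ℂ)).const_add y)
  exact h.deriv.trans (by ring)

theorem wc_ee {f θ H : ℂ → ℂ} (m : ℝ) (y : ℂ) (dθ : Differentiable ℂ θ) (dH : Differentiable ℂ H)
    (a b c : ℂ) : EE (wc f m y θ) (wc f m y H) a b c = m ^ 3 *
      EE θ H (y + m * (Complex.arg (f y) + a)) (y + m * (Complex.arg (f y) + b))
        (y + m * (Complex.arg (f y) + c)) := by
  simp only [EE, kk, k1, wc_deriv m y dθ, wc_deriv m y dH, wc]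
  ring

theorem ga : Spec_GA := by
  obtain ⟨c, C, c0, c1, C1, U⟩ := levels
  intro c₀ κ θ H Q Y K S
  have t0 : 0 < 4 / c := by positivity
  refine ⟨4 / c + 1, 12 * C, by linarith, fun R => ?_⟩
  obtain ⟨P₀, U⟩ := U c₀ κ θ H Q Y K S (|R| + 4 / c)
  refine ⟨max P₀ (4 * |R|), fun P m y hP L => ?_⟩
  obtain ⟨Z, z1, z2⟩ := U P m y ((le_max_left _ _).trans hP) L
  have m0 := L.m0
  have mc : (m : ℂ) ≠ 0 := Complex.ofReal_ne_zero.2 m0.ne'
  have hy : m * |R| ≤ y.im := by nlinarith [L.PT, (le_max_right _ _).trans hP]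
  set β : ℝ := Complex.arg (deriv θ y) with hβ
  have eP := Real.exp_pos P
  have ec : ((Real.exp P : ℝ) : ℂ) ≠ 0 := Complex.ofReal_ne_zero.2 eP.ne'
  set φ : ℂ × ℂ → ℂ × ℂ := fun q => (y + m * (β + q.1), q.2 / (Real.exp P : ℝ)) with hφ
  have low : ∀ q ∈ Low R (4 / c + 1), -q.1.im ≤ |R| ∧ |(φ q).1.im| = y.im + m * q.1.im ∧
      ‖(φ q).2‖ = ‖q.2‖ / Real.exp P := fun q hq => by
    have h1 : -q.1.im ≤ |R| :=
      (neg_le_abs _).trans ((Complex.abs_im_le_norm _).trans (hq.1.le.trans (le_abs_self R)))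
    have h2 : (φ q).1.im = y.im + m * q.1.im := by simp [hφ]
    refine ⟨h1, ?_, ?_⟩
    · rw [h2, abs_of_nonneg (by nlinarith)]
    · simp only [hφ, norm_div, Complex.norm_real, Real.norm_eq_abs, abs_of_pos eP]
  have mem : ∀ q ∈ Low R (4 / c + 1), ∀ t : ℝ, 4 / c ≤ t → t ≤ -q.1.im - 1 →
      φ q ∈ Om (y.im - m * t) (c / (m * Real.exp (P - t / 2))) := fun q hq t a b => by
    obtain ⟨-, h2, h3⟩ := low q hq
    show ‖(φ q).2‖ < _ * (_ - |(φ q).1.im|)
    rw [h2, h3, Real.exp_sub]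
    have h4 := sq_le_exp (t0.le.trans a)
    have h5 : 4 ≤ c * Real.exp (t / 2) := by
      rw [div_le_iff₀' c0] at a
      nlinarith
    have h6 : c / (m * (Real.exp P / Real.exp (t / 2))) * (y.im - m * t - (y.im + m * q.1.im)) =
        c * Real.exp (t / 2) * (-q.1.im - t) / Real.exp P := by
      field_simp
      ring
    rw [h6]
    refine div_lt_div_of_pos_right ?_ eP
    nlinarith [hq.2.2]
  have i0 : 4 / c ∈ Icc 0 (|R| + 4 / c) := ⟨t0.le, by linarith [abs_nonneg R]⟩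
  have mem0 := fun q hq => mem q hq (4 / c) le_rfl (by linarith [hq.2.1])
  have B := z1 _ i0
  refine ⟨fun q => (Z (4 / c) (φ q) - y) / m - β, ?_, fun q hq => ?_, fun q hq => ?_,
    fun X W h1 h2 h3 => ?_⟩
  · simp only [div_eq_mul_inv (_ - y)]
    exact (((B.bl.d.comp (f := φ) (by simp only [hφ, div_eq_mul_inv]; fun_prop) mem0).sub_const
      y).mul_const _).sub_const _
  · have := B.bl.ev _ (mem0 q hq)
    simp only [hφ, neg_div] at this ⊢
    rw [this]
  · obtain ⟨h1, h2, h3⟩ := low q hq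
    have a : 4 / c ≤ -q.1.im - 1 := by linarith [hq.2.1]
    have i1 : -q.1.im - 1 ∈ Icc 0 (|R| + 4 / c) := ⟨t0.le.trans a, by linarith⟩
    have k := mem q hq _ a le_rfl
    have b := (z1 _ i1).bl.bd _ k
    rw [← z2 _ i0 _ i1 _ (mem0 q hq) k, h2, h3] at b
    have e : (Z (4 / c) (φ q) - y) / m - β - q.1 = (Z (4 / c) (φ q) - (φ q).1) / m := by
      simp only [hφ]
      field_simp
      ring
    show ‖(Z (4 / c) (φ q) - y) / m - β - q.1‖ ≤ _
    rw [e, norm_div, Complex.norm_real, Real.norm_eq_abs, abs_of_pos m0, div_le_iff₀ m0]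
    refine b.trans ?_
    have e1 : Real.exp (P - (-q.1.im - 1) / 2) ^ 2 =
        Real.exp P ^ 2 * (Real.exp 1 * Real.exp q.1.im) := by
      rw [← Real.exp_nat_mul, ← Real.exp_nat_mul, ← Real.exp_add, ← Real.exp_add]
      congr 1
      push_cast
      ring
    have e2 : C * (m * Real.exp (P - (-q.1.im - 1) / 2)) ^ 2 * (‖q.2‖ / Real.exp P) ^ 2 /
        (y.im - m * (-q.1.im - 1) - (y.im + m * q.1.im)) =
        (Real.exp 1 * ‖q.2‖ ^ 2) * (C * Real.exp q.1.im * m) := by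
      rw [mul_pow, e1, show y.im - m * (-q.1.im - 1) - (y.im + m * q.1.im) = m by ring]
      field_simp
    rw [e2, show 12 * C * Real.exp q.1.im * m = 12 * (C * Real.exp q.1.im * m) by ring]
    refine mul_le_mul_of_nonneg_right ?_ (by positivity)
    have h4 : ‖q.2‖ ^ 2 ≤ 2 ^ 2 := pow_le_pow_left₀ (norm_nonneg _) hq.2.2.le 2
    nlinarith [Real.exp_one_lt_d9, sq_nonneg ‖q.2‖, Real.exp_pos 1]
  · have e : ∀ u : ℂ, y + m * (β + ((u - y) / m - β)) = u := fun u => by
      field_simp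
      ring
    have e1 : φ (X - ((m * Real.exp P)⁻¹ : ℝ) * W, W) =
        ((φ (X, W)).1 - (φ (X, W)).2, (φ (X, W)).2) := by
      simp only [hφ, Prod.mk.injEq, and_true]
      push_cast at ec ⊢
      field_simp
      ring
    have e2 : φ (X + ((m * Real.exp P)⁻¹ : ℝ) * W, W) =
        ((φ (X, W)).1 + (φ (X, W)).2, (φ (X, W)).2) := by
      simp only [hφ, Prod.mk.injEq, and_true]
      push_cast at ec ⊢
      field_simp
      ring
    have k1 := mem0 _ h1
    have k3 := mem0 _ h3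
    rw [e1] at k1
    rw [e2] at k3
    rw [wc_ee m y (cur_dθ K) (cur_dH K), ← hβ, e, e, e, e1, e2,
      B.law _ _ k1 (mem0 _ h2) k3, mul_zero]

end Vale.Agent.P097E
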