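import Vale.Agent.P097E.GlueB1
import Vale.Agent.P097N.Rem
import Vale.Agent.P097N.Bl

/-!
# P097E: the baseline with the half angle
-/

set_option linter.all false

noncomputable section

namespace Vale.Agent.P097E

namespace GB

open Filter Topology Set Metric Complex Cs Vale.Agent.P097N

theorem low_eq (R L : ℝ) : Low R L = {x : ℂ | ‖x‖ < R ∧ x.im < -L} ×ˢ ball (0 : ℂ) 2 := by
  ext q
  simp [Low, and_assoc]

theorem u_open (R L : ℝ) : IsOpen {x : ℂ | ‖x‖ < R ∧ x.im < -L} :=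
  (isOpen_lt continuous_norm continuous_const).inter (isOpen_lt continuous_im continuous_const)

theorem low_open (R L : ℝ) : IsOpen (Low R L) := low_eq R L ▸ (u_open R L).prod isOpen_ball

theorem e3 {a b : ℝ} (h : a ≤ b + 1) : Real.exp a ≤ 3 * Real.exp b := by
  have := Real.exp_le_exp.2 h
  rw [Real.exp_add] at this
  nlinarith [Real.exp_one_lt_d9, Real.exp_pos b]

theorem near {X z : ℂ} {r : ℝ} (h : ‖z - X‖ ≤ r) : ‖z‖ ≤ ‖X‖ + r ∧ z.im ≤ X.im + r := by
  have h1 := norm_add_le X (z - X)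
  have h2 := (abs_le.1 ((abs_im_le_norm _).trans h)).2
  rw [add_sub_cancel] at h1
  rw [sub_im] at h2
  constructor <;> linarith

/-- the slope parameter -/
def sl (θ H : ℂ → ℂ) (ε : ℝ) (Z : ℂ × ℂ → ℂ) (q : ℂ × ℂ) : ℂ :=
  Ph θ H (Z q, Z (q.1 + ε * q.2, q.2)) / 2 * deriv θ (Z q)

structure Dat (θ H : ℂ → ℂ) (c : ℂ) (ε R L M L' : ℝ) (Z : ℂ × ℂ → ℂ) : Prop where
  w : Wn θ H c ε (R + 3) (1 / 8)
  e0 : 0 < ε
  e1 : ε ≤ 1 / 100
  lv : Lv θ H ε (R + 3) L M Z
  pv : Pv θ H ε (R + 3) L M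
  M0 : 0 ≤ M
  LL : L + 3 ≤ L'
  sm : (M + 1) * Real.exp (-L') ≤ 1 / 100

variable {θ H : ℂ → ℂ} {c : ℂ} {ε R L M L' : ℝ} {Z : ℂ × ℂ → ℂ}

theorem Dat.spd (D : Dat θ H c ε R L M L' Z) {z : ℂ} (hz : ‖z‖ < R + 3) :
    ε * ‖deriv θ z‖ ≤ 9 / 8 * Real.exp z.im := by
  have h1 := D.w.wv z (mem_ball_zero_iff.2 hz)
  have h2 := norm_add_le (ε * deriv θ z * exp (z * I) - 1) 1
  rw [sub_add_cancel, norm_mul, norm_mul, norm_real, Real.norm_eq_abs, abs_of_pos D.e0, norm_exp,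
    norm_one] at h2
  have h3 : Real.exp (z * I).re * Real.exp z.im = 1 := by rw [← Real.exp_add]; simp
  have h4 := mul_le_mul_of_nonneg_right (h2.trans (show _ ≤ 9 / 8 by linarith))
    (Real.exp_pos z.im).le
  rwa [mul_assoc, h3, mul_one] at h4

theorem Dat.mem (D : Dat θ H c ε R L M L' Z) {q : ℂ × ℂ} (hq : q ∈ Low R L') {z : ℂ}
    (hz : ‖z - q.1‖ ≤ 1) : (z, q.2) ∈ Low (R + 3) L := by
  obtain ⟨a, b⟩ := near hz
  exact ⟨show ‖z‖ < _ by linarith [hq.1], show z.im < _ by linarith [hq.2.1, D.LL], hq.2.2⟩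

theorem Dat.stp (D : Dat θ H c ε R L M L' Z) {q : ℂ × ℂ} (hq : q ∈ Low R L') :
    ‖ε * q.2‖ ≤ 2 * ε := by
  rw [norm_mul, norm_real, Real.norm_eq_abs, abs_of_pos D.e0]
  nlinarith [hq.2.2, D.e0]

theorem Dat.loc (D : Dat θ H c ε R L M L' Z) {q : ℂ × ℂ} (hq : q ∈ Low R L') :
    Z q ∈ ball (0 : ℂ) (R + 3) ∧ ‖sl θ H ε Z q‖ ≤ ‖q.2‖ / 8 ∧
    ‖2 * atn (sl θ H ε Z q) - ε * q.2 * deriv θ (Z q)‖ ≤
      (12 * M + 16) * Real.exp q.1.im * ‖ε * q.2 * deriv θ (Z q)‖ ∧
    ‖θ (Z (q.1 + ε * q.2, q.2)) - θ (Z q)‖ ≤ 1 ∧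
    (q.2 ≠ 0 → k1 θ H (Z q) (Z (q.1 + ε * q.2, q.2)) ≠ 0 ∧
      AnalyticAt ℂ (Ph θ H) (Z q, Z (q.1 + ε * q.2, q.2))) := by
  obtain ⟨X, W⟩ := q
  have hs := D.stp hq
  have mem := fun z hz => D.mem hq (z := z) hz
  obtain ⟨h1, h2, h3⟩ := hq
  dsimp only at *
  have e0 := D.e0
  have e1 := D.e1
  have M0 := D.M0
  obtain ⟨E, hE⟩ : ∃ E, E = Real.exp X.im := ⟨_, rfl⟩
  have E0 : 0 < E := hE ▸ Real.exp_pos _
  have E1 : M * E + E ≤ 1 / 100 := by
    have := mul_le_mul_of_nonneg_left (Real.exp_le_exp.2 h2.le) (show 0 ≤ M + 1 by linarith)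
    rw [← hE] at this
    linarith [D.sm]
  have ME : 0 ≤ M * E := by positivity
  have dF : DifferentiableOn ℂ (fun x => Z (x, W) - x) (closedBall X 1) :=
    (D.lv.d.comp (f := fun x : ℂ => (x, W)) (by fun_prop) fun z hz =>
      mem z (by rwa [mem_closedBall, dist_eq_norm] at hz)).sub differentiableOn_id
  have sb : ∀ z ∈ closedBall X (1 / 4), closedBall z (1 / 2) ⊆ ball X 1 := fun z hz =>
    closedBall_subset_ball' (by rw [mem_closedBall] at hz; linarith)
  have l1 : ‖Z (X + ε * W, W) - Z (X, W) - ε * W‖ ≤ 6 * (M * E) * ‖ε * W‖ := by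
    have k := mvt (f := fun x => Z (x, W) - x) (a := X) (r := 1 / 4) (C := 6 * (M * E))
      (fun z hz => ((dF.mono ball_subset_closedBall).differentiableAt (isOpen_ball.mem_nhds
        (sb z hz (mem_closedBall_self (by norm_num))))).hasDerivAt)
      (fun z hz => by
        have := Complex.norm_deriv_le_of_forall_mem_sphere_norm_le (C := 3 * (M * E))
          (R := 1 / 2) (c := z) (by norm_num) (DifferentiableOn.diffContOnCl_ball dF
            ((sb z hz).trans ball_subset_closedBall)) (fun u hu => by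
          have hu' : ‖u - X‖ ≤ 1 := by
            have := sb z hz (sphere_subset_closedBall hu)
            rw [mem_ball, dist_eq_norm] at this
            exact this.le
          have h4 := mul_le_mul_of_nonneg_left (e3 (near hu').2) M0
          rw [← hE] at h4
          exact (D.lv.bd _ (mem u hu')).trans (by linarith))
        linarith)
      (mem_closedBall_self (by norm_num)) (y := X + ε * W)
      (by rw [mem_closedBall, dist_eq_norm, add_sub_cancel_left]; linarith)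
    rw [add_sub_cancel_left] at k
    exact (congrArg norm (by ring)).le.trans k
  have l0 : ‖Z (X, W) - X‖ ≤ M * E := hE ▸ D.lv.bd _ (mem X (by simp))
  unfold sl
  dsimp only
  generalize Z (X + ε * W, W) = b' at *
  generalize Z (X, W) = b at *
  have nw : ‖ε * W‖ = ε * ‖W‖ := by rw [norm_mul, norm_real, Real.norm_eq_abs, abs_of_pos e0]
  have w0 := norm_nonneg (ε * W)
  have l2 : ‖b' - b‖ ≤ 3 / 2 * ‖ε * W‖ := by
    have := norm_add_le (b' - b - ε * W) (ε * W)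
    rw [sub_add_cancel] at this
    nlinarith
  obtain ⟨b1, b2⟩ := near (l0.trans (show _ ≤ 1 / 2 by linarith))
  have b3 : Real.exp b.im ≤ 3 * E := hE ▸ e3 (by linarith)
  obtain ⟨p1, p2⟩ := D.pv b b' (by linarith) (by linarith [D.LL]) (by linarith)
  have p3 : ‖Ph θ H (b, b') - ε * W‖ ≤ 12 * (M * E) * ‖ε * W‖ := by
    have k1 := norm_add_le (Ph θ H (b, b') - (b' - b)) (b' - b - ε * W)
    rw [sub_add_sub_cancel] at k1
    have k2 : M * Real.exp b.im * ‖b' - b‖ ≤ M * (3 * E) * (2 * ‖ε * W‖) := by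
      gcongr
      linarith
    linarith
  have p4 : ‖Ph θ H (b, b')‖ ≤ 2 * ‖ε * W‖ := by
    have := norm_add_le (Ph θ H (b, b') - ε * W) (ε * W)
    rw [sub_add_cancel] at this
    nlinarith
  have g1 : ε * ‖deriv θ b‖ ≤ 4 * E := by linarith [D.spd (z := b) (by linarith)]
  have g0 := norm_nonneg (deriv θ b)
  have s1 : ‖Ph θ H (b, b') / 2 * deriv θ b‖ ≤ ‖ε * W‖ * ‖deriv θ b‖ := by
    rw [norm_mul, norm_div, Complex.norm_ofNat]
    exact mul_le_mul_of_nonneg_right (by linarith) g0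
  have s2 : ‖ε * W‖ * ‖deriv θ b‖ ≤ 4 * E * ‖W‖ := by
    rw [nw]
    nlinarith [norm_nonneg W]
  have s3 : 4 * E * ‖W‖ ≤ ‖W‖ / 8 := by nlinarith [norm_nonneg W]
  refine ⟨mem_ball_zero_iff.2 (by linarith), by linarith, ?_, ?_, fun hW => p2 fun k => ?_⟩
  · have k1 := atn_bd (s := Ph θ H (b, b') / 2 * deriv θ b) (by linarith)
    have k2 := norm_add_le (2 * (atn (Ph θ H (b, b') / 2 * deriv θ b) -
      Ph θ H (b, b') / 2 * deriv θ b)) ((Ph θ H (b, b') - ε * W) * deriv θ b)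
    rw [norm_mul 2, norm_mul (_ - _), Complex.norm_ofNat] at k2
    have k3 := mul_le_mul_of_nonneg_right p3 g0
    have k4 : ‖Ph θ H (b, b') / 2 * deriv θ b‖ ^ 2 ≤ 8 * E * (‖ε * W‖ * ‖deriv θ b‖) := by
      rw [sq]
      exact mul_le_mul (by nlinarith) s1 (norm_nonneg _) (by positivity)
    rw [← hE, norm_mul (ε * W)]
    refine ((congrArg norm (by ring)).le.trans k2).trans ?_
    linarith
  · have k := mvt (f := θ) (a := b) (r := 1 / 2) (C := 4 * E / ε)
      (fun z hz => (D.w.an (mem_ball_zero_iff.2 (by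
        rw [mem_closedBall, dist_eq_norm] at hz
        linarith [(near hz).1]))).1.differentiableAt.hasDerivAt)
      (fun z hz => by
        rw [mem_closedBall, dist_eq_norm] at hz
        have k1 := D.spd (z := z) (by linarith [(near hz).1])
        have k2 : Real.exp z.im ≤ 3 * E := hE ▸ e3 (by linarith [(near hz).2])
        rw [le_div_iff₀' e0]
        linarith)
      (mem_closedBall_self (by norm_num)) (y := b')
      (by rw [mem_closedBall, dist_eq_norm]; linarith)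
    refine k.trans ?_
    rw [div_mul_eq_mul_div, div_le_one e0]
    nlinarith [norm_nonneg (b' - b)]
  · rw [k, sub_self, zero_sub, norm_neg] at l1
    have : 0 < ‖ε * W‖ := norm_pos_iff.2 (mul_ne_zero (by exact_mod_cast e0.ne') hW)
    nlinarith

theorem neg_mem {q : ℂ × ℂ} (hq : q ∈ Low R L) : (q.1, -q.2) ∈ Low R L :=
  ⟨hq.1, hq.2.1, by simpa using hq.2.2⟩

theorem Dat.zero (D : Dat θ H c ε R L M L' Z) {X : ℂ} (hq : (X, (0 : ℂ)) ∈ Low R L') :
    atn (sl θ H ε Z (X, 0)) = 0 := by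
  have : sl θ H ε Z (X, 0) = 0 := by simpa using (D.loc hq).2.1
  simp [this, atn]

theorem Dat.odd (D : Dat θ H c ε R L M L' Z) {q : ℂ × ℂ} (hq : q ∈ Low R L') :
    atn (sl θ H ε Z (q.1, -q.2)) = -atn (sl θ H ε Z q) := by
  obtain ⟨X, W⟩ := q
  by_cases hW : W = 0
  · subst hW
    simp [D.zero hq]
  have hs := D.stp hq
  have e1 := D.e1
  have m0 := D.mem hq (z := X) (by simp)
  have m1 := D.mem hq (z := X + ε * W) (by rw [add_sub_cancel_left]; linarith)
  have m2 := D.mem hq (z := X - ε * W) (by rw [sub_sub_cancel_left, norm_neg]; linarith)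
  have k1 := ((D.loc hq).2.2.2.2 hW).1
  have k2 := ((D.loc (neg_mem hq)).2.2.2.2 (neg_ne_zero.2 hW)).1
  have v0 : Z (X, -W) = Z (X, W) := D.lv.ev _ m0
  have v2 : Z (X + ε * -W, -W) = Z (X - ε * W, W) := by
    rw [mul_neg, ← sub_eq_add_neg]
    exact D.lv.ev _ m2
  dsimp only at k1 k2
  rw [v0, v2] at k2
  have l := BlR.ph_law k1 k2 (D.lv.law X W m2 m0 m1)
  rw [← atn_neg]
  congr 1
  simp only [sl, v0, v2]
  linear_combination deriv θ (Z (X, W)) / 2 * l

theorem Dat.st (D : Dat θ H c ε R L M L' Z) {q : ℂ × ℂ} (hq : q ∈ Low R L')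
    (hq' : (q.1 + ε * q.2, q.2) ∈ Low R L') :
    St θ H (Z q, atn (sl θ H ε Z q))
      (Z (q.1 + ε * q.2, q.2), atn (sl θ H ε Z (q.1 + ε * q.2, q.2))) := by
  obtain ⟨X, W⟩ := q
  by_cases hW : W = 0
  · subst hW
    simp [D.zero hq, Cs.St]
  obtain ⟨a1, a2, -, a4, a5⟩ := D.loc hq
  obtain ⟨c1, c2, -, -, c5⟩ := D.loc (neg_mem hq')
  have o := D.odd hq'
  have v0 : Z (X + ε * W, -W) = Z (X + ε * W, W) := D.lv.ev _ (D.mem hq' (by simp))
  have v1 : Z (X + ε * W + ε * -W, -W) = Z (X, W) := by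
    rw [mul_neg, add_neg_cancel_right]
    exact D.lv.ev _ (D.mem hq (z := X) (by simp))
  have w2 : ‖W‖ < 2 := hq.2.2
  rw [← neg_eq_iff_eq_neg] at o
  rw [← o]
  simp only [sl, v0, v1, norm_neg] at *
  exact st_of (a5 hW).1 (c5 (neg_ne_zero.2 hW)).1 (D.w.ne (by norm_num) a1)
    (D.w.ne (by norm_num) c1) (by linarith) (by linarith) a4

theorem Dat.diff (D : Dat θ H c ε R L M L' Z) :
    DifferentiableOn ℂ (fun q => atn (sl θ H ε Z q)) (Low R L') := by
  rw [low_eq]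
  have mm : ∀ x ∈ {x : ℂ | ‖x‖ < R ∧ x.im < -L'}, ∀ w ∈ ball (0 : ℂ) 2, (x, w) ∈ Low R L' :=
    fun x hx w hw => by rw [low_eq]; exact ⟨hx, hw⟩
  refine srem _ _ 2 (u_open R L') (fun x hx w hw w0 => ?_) fun x hx => ?_
  · have hq := mm x hx w hw
    obtain ⟨a1, a2, -, -, a5⟩ := D.loc hq
    have w2 : ‖w‖ < 2 := hq.2.2
    have dZ := fun z hz => D.lv.d.differentiableAt ((low_open _ _).mem_nhds (D.mem hq (z := z) hz))
    have d0 : DifferentiableAt ℂ Z (x, w) := dZ x (by simp)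
    have d1 : DifferentiableAt ℂ (fun q : ℂ × ℂ => Z (q.1 + ε * q.2, q.2)) (x, w) :=
      DifferentiableAt.comp (f := fun q : ℂ × ℂ => (q.1 + ε * q.2, q.2)) (x, w)
        (dZ (x + ε * w) (by rw [add_sub_cancel_left]; linarith [D.stp hq, D.e1])) (by fun_prop)
    have d2 := (a5 w0).2.differentiableAt.comp
      (f := fun q : ℂ × ℂ => (Z q, Z (q.1 + ε * q.2, q.2))) (x, w) (d0.prodMk d1)
    have d3 := (D.w.an a1).1.deriv.differentiableAt.comp (x, w) d0
    exact (atn_an (a2.trans (by linarith))).differentiableAt.comp (f := sl θ H ε Z) (x, w)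
      ((d2.mul_const (2 : ℂ)⁻¹).mul d3)
  · unfold ContinuousAt
    dsimp only
    rw [D.zero (mm x hx 0 (mem_ball_self two_pos))]
    refine squeeze_zero_norm' (a := fun w : ℂ => ‖w‖) ?_ tendsto_norm_zero
    filter_upwards [ball_mem_nhds (0 : ℂ) two_pos] with w hw
    have a2 := (D.loc (mm x hx w hw)).2.1
    have w2 : ‖w‖ < 2 := mem_ball_zero_iff.1 hw
    linarith [atn_le (a2.trans (by linarith)), norm_nonneg w]

end GB

open GB Filter Topology Set Metric Complex in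
theorem gb : Spec_GB := by
  intro L M M0
  refine ⟨max (L + 3) (100 * (M + 1)), 12 * M + 16, fun θ H c ε R Z w e0 e1 lv pv => ?_⟩
  have h1 := le_max_right (L + 3) (100 * (M + 1))
  have D : Dat θ H c ε R L M (max (L + 3) (100 * (M + 1))) Z :=
    ⟨w, e0, e1, lv, pv, M0, le_max_left _ _, by
      have := Real.add_one_le_exp (max (L + 3) (100 * (M + 1)))
      rw [Real.exp_neg, ← div_eq_mul_inv, div_le_iff₀ (Real.exp_pos _)]
      linarith⟩
  have s := Low_mono (show R ≤ R + 3 by linarith) (show L ≤ _ by linarith [D.LL])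
  refine ⟨fun q => (Z q, atn (sl θ H ε Z q)), by linarith, by linarith, by linarith,
    P097.Hol.analyticOnNhd_of_differentiableOn (low_open _ _) ((lv.d.mono s).prodMk D.diff),
    fun q hq => (lv.bd q (s hq)).trans (by gcongr; linarith), fun q hq => (D.loc hq).2.2.1,
    fun q hq => ?_, fun q hq => Prod.ext (lv.ev q (s hq)) (D.odd hq), fun q hq hq' => D.st hq hq'⟩
  have a2 := (D.loc hq).2.1
  have w2 := hq.2.2
  exact (atn_le (a2.trans (by linarith))).trans (by linarith)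

end Vale.Agent.P097E
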