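import Vale.Agent.P097E.GlueDefs
import Vale.Agent.P097N.Alg

/-!
# P097E: the half angle of a chord
-/

set_option linter.all false

noncomputable section

namespace Vale.Agent.P097E.GB

open Filter Topology Set Metric Complex Cs Vale.Agent.P097N

/-- the arctangent near the origin -/
def atn (s : ℂ) : ℂ := (log (1 + I * s) - log (1 + -(I * s))) / (2 * I)

theorem atn_neg (s : ℂ) : atn (-s) = -atn s := by
  simp only [atn, mul_neg, neg_neg]
  ring

theorem slit {s : ℂ} (h : ‖s‖ ≤ 1 / 2) : 1 + I * s ∈ slitPlane ∧ 1 + -(I * s) ∈ slitPlane :=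
  ⟨mem_slitPlane_of_norm_lt_one (by rw [norm_mul, norm_I]; linarith),
    mem_slitPlane_of_norm_lt_one (by rw [norm_neg, norm_mul, norm_I]; linarith)⟩

theorem atn_an {s : ℂ} (h : ‖s‖ ≤ 1 / 2) : AnalyticAt ℂ atn s :=
  (((analyticAt_const.add (analyticAt_const.mul analyticAt_id)).clog (slit h).1).sub
    ((analyticAt_const.add (analyticAt_const.mul analyticAt_id).neg).clog (slit h).2)).div_const

theorem lg {z : ℂ} (h : ‖z‖ ≤ 1 / 2) : ‖log (1 + z) - z‖ ≤ ‖z‖ ^ 2 := by
  refine (norm_log_one_add_sub_self_le (by linarith)).trans ?_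
  have : (1 - ‖z‖)⁻¹ ≤ 2 := by
    rw [inv_le_comm₀ (by linarith) two_pos]
    linarith
  nlinarith [sq_nonneg ‖z‖]

theorem atn_bd {s : ℂ} (h : ‖s‖ ≤ 1 / 2) : ‖atn s - s‖ ≤ ‖s‖ ^ 2 := by
  have n : ‖I * s‖ = ‖s‖ := by rw [norm_mul, norm_I, one_mul]
  have h1 := lg (z := I * s) (by rwa [n])
  have h2 := lg (z := -(I * s)) (by rwa [norm_neg, n])
  rw [norm_neg] at h2
  rw [n] at h1 h2
  have e : atn s - s = ((log (1 + I * s) - I * s) - (log (1 + -(I * s)) - -(I * s))) / (2 * I) := by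
    unfold atn
    field_simp
    ring
  rw [e, norm_div, norm_mul, norm_I, Complex.norm_ofNat, div_le_iff₀ (by norm_num)]
  linarith [norm_sub_le (log (1 + I * s) - I * s) (log (1 + -(I * s)) - -(I * s))]

theorem atn_le {s : ℂ} (h : ‖s‖ ≤ 1 / 2) : ‖atn s‖ ≤ 2 * ‖s‖ := by
  have := norm_add_le (atn s - s) s
  rw [sub_add_cancel] at this
  nlinarith [atn_bd h, norm_nonneg s]

theorem atn_exp {s : ℂ} (h : ‖s‖ ≤ 1 / 2) :
    exp (atn s * I) * exp (atn s * I) * (1 - I * s) = 1 + I * s := by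
  have e : atn s * I + atn s * I = log (1 + I * s) - log (1 + -(I * s)) := by
    unfold atn
    field_simp
    ring
  have n := slitPlane_ne_zero (slit h).2
  rw [← Complex.exp_add, e, Complex.exp_sub, exp_log (slitPlane_ne_zero (slit h).1), exp_log n,
    sub_eq_add_neg, div_mul_cancel₀ _ n]

theorem lines (θ h : ℂ → ℂ) {b l : ℂ} (g0 : deriv θ b ≠ 0) (hs : ‖l * deriv θ b‖ ≤ 1 / 2) :
    1 - I * l * deriv θ b ≠ 0 ∧
    LU θ (b, l) = exp ((θ b + atn (l * deriv θ b)) * (2 * I)) ∧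
    LW θ h (b, l) = pp θ h b (atn (l * deriv θ b)) * exp ((θ b + atn (l * deriv θ b)) * I) := by
  have n : 1 - I * l * deriv θ b ≠ 0 := by
    have := slitPlane_ne_zero (slit hs).2
    rwa [← sub_eq_add_neg, ← mul_assoc] at this
  have k := atn_exp hs
  generalize atn (l * deriv θ b) = d at k ⊢
  have uv : exp (d * I) * exp (-d * I) = 1 := by rw [← Complex.exp_add]; simp
  refine ⟨n, ?_, ?_⟩
  · have : exp ((θ b + d) * (2 * I)) = exp (2 * I * θ b) * (exp (d * I) * exp (d * I)) := by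
      rw [← Complex.exp_add, ← Complex.exp_add]; congr 1; ring
    rw [this, LU, div_eq_iff n]
    linear_combination (-exp (2 * I * θ b)) * k
  · have : exp ((θ b + d) * I) = exp (I * θ b) * exp (d * I) := by
      rw [← Complex.exp_add]; congr 1; ring
    have A : cos d * exp (d * I) * (1 - I * (l * deriv θ b)) = 1 := by
      rw [Complex.cos]
      linear_combination (1 / 2 : ℂ) * k + (1 - I * (l * deriv θ b)) / 2 * uv
    have B : sin d * exp (d * I) * (1 - I * (l * deriv θ b)) = l * deriv θ b := by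
      rw [Complex.sin]
      linear_combination (-I / 2) * k + I * (1 - I * (l * deriv θ b)) / 2 * uv -
        l * deriv θ b * I_sq
    have C : deriv h b / deriv θ b * deriv θ b = deriv h b := div_mul_cancel₀ _ g0
    rw [this, LW, div_eq_iff n, pp]
    linear_combination (-exp (I * θ b) * h b) * A - exp (I * θ b) * (deriv h b / deriv θ b) * B -
      exp (I * θ b) * l * C

theorem st_of {θ h : ℂ → ℂ} {b c : ℂ} (k : k1 θ h b c ≠ 0) (k' : k1 θ h c b ≠ 0)
    (g : deriv θ b ≠ 0) (g' : deriv θ c ≠ 0) (s : ‖Ph θ h (b, c) / 2 * deriv θ b‖ ≤ 1 / 4)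
    (s' : ‖Ph θ h (c, b) / 2 * deriv θ c‖ ≤ 1 / 4) (t : ‖θ c - θ b‖ ≤ 1) :
    St θ h (b, atn (Ph θ h (b, c) / 2 * deriv θ b)) (c, -atn (Ph θ h (c, b) / 2 * deriv θ c)) := by
  obtain ⟨n, u, w⟩ := lines θ h g (s.trans (by norm_num))
  obtain ⟨n', u', w'⟩ := lines θ h g' (s'.trans (by norm_num))
  obtain ⟨e, e'⟩ := salg θ h b c k k' n n'
  have a := atn_le (s.trans (by norm_num))
  have a' := atn_le (s'.trans (by norm_num))
  rw [u, u'] at e
  rw [w, w'] at e'
  generalize atn (Ph θ h (b, c) / 2 * deriv θ b) = d at *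
  generalize atn (Ph θ h (c, b) / 2 * deriv θ c) = d' at *
  obtain ⟨j, hj⟩ := exp_eq_exp_iff_exists_int.1 e
  have hj' : (j : ℂ) * Real.pi = d - d' - (θ c - θ b) :=
    mul_right_cancel₀ (mul_ne_zero two_ne_zero I_ne_zero) (by linear_combination -hj)
  have j0 : j = 0 := by
    by_contra j0
    have h1 : (1 : ℝ) ≤ |(j : ℝ)| := by exact_mod_cast Int.one_le_abs j0
    have h2 : ‖(j : ℂ) * Real.pi‖ = |(j : ℝ)| * Real.pi := by
      rw [norm_mul, norm_intCast, norm_real, Real.norm_eq_abs, abs_of_pos Real.pi_pos]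
    have h3 := norm_sub_le (d - d') (θ c - θ b)
    rw [← hj', h2] at h3
    nlinarith [norm_sub_le d d', Real.pi_gt_three]
  have e1 : θ c + d' = θ b + d := by
    rw [j0] at hj'
    push_cast at hj'
    linear_combination hj'
  refine ⟨by simpa using e1, ?_⟩
  rw [e1] at e'
  simpa using (mul_right_cancel₀ (Complex.exp_ne_zero _) e').symm

end Vale.Agent.P097E.GB
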