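import Vale.Agent.P097E.B3
import Vale.Agent.P097E.B1Br
import Vale.Agent.P097N.Bridge

/-!
# P097E: the baseline at all levels below a high level
-/

set_option linter.all false

noncomputable section

namespace Vale.Agent.P097E

open Filter Topology Set Metric Vale.Agent.P097N Vale.Agent.P097N.BlR

/-- one level: the curve, the window bound, the baseline and the law -/
structure One (θ h Q : ℂ → ℂ) (c₀ : ℂ) (r A c C : ℝ) (Z : ℂ × ℂ → ℂ) : Prop where
  cv : Cv θ h Q c₀ (St r)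
  gr : GrA θ Q r A
  A1 : 1 ≤ A
  bl : Bl Z r (c / A) (C * A ^ 2)
  law : ∀ x w : ℂ, (x - w, w) ∈ Om r (c / A) → (x, w) ∈ Om r (c / A) →
    (x + w, w) ∈ Om r (c / A) → EE θ h (Z (x - w, w)) (Z (x, w)) (Z (x + w, w)) = 0

theorem sq_le_exp {s : ℝ} (hs : 0 ≤ s) : s ≤ Real.exp (s / 2) := by
  have h1 := Real.add_one_le_exp (s / 4)
  have h2 : Real.exp (s / 2) = Real.exp (s / 4) ^ 2 := by
    rw [← Real.exp_nat_mul]
    congr 1
    push_cast
    ring
  rw [h2]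
  nlinarith [pow_le_pow_left₀ (by linarith) h1 2, sq_nonneg (1 - s / 4)]

/-- the window bound at the level `t` below `y` -/
theorem gra_lvl {θ Q : ℂ → ℂ} {P m t : ℝ} {y : ℂ} (L : Lvl (deriv θ) Q P m y) (h0 : 0 ≤ t)
    (hP : P ^ 2 ≤ Real.exp ((P - t) / 2)) :
    GrA θ Q (y.im - m * t) (m * Real.exp (P - t / 2)) := by
  intro z hz
  have hz' : |z.im| < y.im - m * t := hz
  have m0 := L.m0
  obtain ⟨s, hs⟩ : ∃ s, y.im - m * t - |z.im| = m * s := ⟨_, (mul_div_cancel₀ _ m0.ne').symm⟩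
  have s0 : 0 < s := by
    by_contra k
    nlinarith [mul_nonneg m0.le (neg_nonneg.2 (not_lt.1 k))]
  have key : ∃ E, 0 ≤ E ∧ ‖deriv θ z‖ ≤ E ∧ ‖Q z‖ ≤ E ^ 2 ∧ E * s ≤ Real.exp (P - t / 2) := by
    rcases le_total (t + s) P with k | k
    · obtain ⟨a, b⟩ := L.low z (t + s) (by linarith) (by linarith) k
      refine ⟨_, (Real.exp_pos _).le, a, b, ?_⟩
      rw [show P - t / 2 = P - (t + s) / 2 + s / 2 by ring, Real.exp_add]
      exact mul_le_mul_of_nonneg_left (sq_le_exp s0.le) (Real.exp_pos _).le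
    · obtain ⟨a, b⟩ := L.low z P (by nlinarith) (by linarith [L.P16]) le_rfl
      refine ⟨_, (Real.exp_pos _).le, a, b, ?_⟩
      rw [show P - t / 2 = P - P / 2 + (P - t) / 2 by ring, Real.exp_add]
      refine mul_le_mul_of_nonneg_left (le_trans ?_ hP) (Real.exp_pos _).le
      have := L.TP
      have := abs_nonneg z.im
      have : m * s ≤ m * P ^ 2 := by nlinarith [mul_nonneg m0.le h0]
      exact le_of_mul_le_mul_left this m0
  obtain ⟨E, E0, a, b, e⟩ := key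
  rw [hs]
  have e' : E * (m * s) ≤ m * Real.exp (P - t / 2) := by nlinarith
  refine ⟨(mul_le_mul_of_nonneg_right a (by positivity)).trans e', ?_⟩
  calc ‖Q z‖ * (m * s) ^ 2 ≤ E ^ 2 * (m * s) ^ 2 := by gcongr
    _ = (E * (m * s)) ^ 2 := by ring
    _ ≤ _ := by gcongr

/-- two baselines with the same collar agree -/
theorem agree {Y Z Z' : ℂ × ℂ → ℂ} {r r' c c' C C' η : ℝ} (η0 : 0 < η) (B : Bl Z r c C)
    (B' : Bl Z' r' c' C') (h : ∀ p ∈ Om r c, |p.1.im| < η → Z p = Y p)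
    (h' : ∀ p ∈ Om r' c', |p.1.im| < η → Z' p = Y p) {p : ℂ × ℂ} (hp : p ∈ Om r c)
    (hp' : p ∈ Om r' c') : Z p = Z' p := by
  obtain ⟨x, w⟩ := p
  have om : ∀ {r c : ℝ}, 0 < c → ∀ y : ℂ, (y, w) ∈ Om r c ↔ y ∈ St (r - ‖w‖ / c) :=
    fun {r c} c0 y => by
      show ‖w‖ < c * (r - |y.im|) ↔ |y.im| < _
      rw [← div_lt_iff₀' c0]
      constructor <;> intro k <;> linarith
  set ρ := min (r - ‖w‖ / c) (r' - ‖w‖ / c')
  have i1 : ∀ y ∈ St ρ, (y, w) ∈ Om r c := fun y hy =>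
    (om B.hc y).2 (st_mono (min_le_left _ _) hy)
  have i2 : ∀ y ∈ St ρ, (y, w) ∈ Om r' c' := fun y hy =>
    (om B'.hc y).2 (st_mono (min_le_right _ _) hy)
  have xS : x ∈ St ρ := show |x.im| < min _ _ from
    lt_min ((om B.hc x).1 hp) ((om B'.hc x).1 hp')
  have zS : (0 : ℂ) ∈ St ρ := by simpa [St] using (abs_nonneg _).trans_lt xS
  have D := (B.d.comp (f := fun y : ℂ => (y, w)) (by fun_prop) i1).analyticOnNhd (st_open ρ)
  have D' := (B'.d.comp (f := fun y : ℂ => (y, w)) (by fun_prop) i2).analyticOnNhd (st_open ρ)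
  refine D.eqOn_of_preconnected_of_eventuallyEq D' (st_convex ρ).isPreconnected zS ?_ xS
  have z2 : (0 : ℂ) ∈ St η := by simpa [St] using η0
  filter_upwards [(st_open ρ).mem_nhds zS, (st_open _).mem_nhds z2] with y hy hy'
  exact (h _ (i1 y hy) hy').trans (h' _ (i2 y hy) hy').symm

/-- a periodic entire function is bounded on strips -/
theorem strip_bd {f : ℂ → ℂ} (d : Differentiable ℂ f) (p : ∀ z, f (z + 1) = f z) (T : ℝ) :
    ∃ K : ℝ, ∀ z : ℂ, |z.im| ≤ T → ‖f z‖ ≤ K := by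
  obtain ⟨K, hK⟩ := (isCompact_closedBall (0 : ℂ) (T + 1)).exists_bound_of_continuousOn
    d.continuous.continuousOn
  refine ⟨K, fun z hz => ?_⟩
  have per : Function.Periodic f 1 := p
  have e := (per.int_mul ⌊z.re⌋).sub_eq z
  rw [← e]
  refine hK _ (mem_closedBall_zero_iff.2 ((Complex.norm_le_abs_re_add_abs_im _).trans ?_))
  have h1 := Int.floor_le z.re
  have h2 := Int.lt_floor_add_one z.re
  have h3 : |(z - (⌊z.re⌋ : ℂ) * 1).re| ≤ 1 := by
    simp only [mul_one, Complex.sub_re, Complex.intCast_re]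
    rw [abs_le]
    constructor <;> linarith
  have h4 : (z - (⌊z.re⌋ : ℂ) * 1).im = z.im := by simp
  rw [h4]
  linarith

theorem sq_ev (R : ℝ) : ∀ᶠ P : ℝ in atTop, P ^ 2 ≤ Real.exp ((P - R) / 2) := by
  have h := (Real.tendsto_exp_div_pow_atTop 2).comp (tendsto_id.atTop_div_const (r := 2) two_pos)
  filter_upwards [h.eventually_ge_atTop (4 * Real.exp (R / 2)), eventually_gt_atTop 0] with P k P0
  simp only [Function.comp_apply, id] at k
  rw [le_div_iff₀ (by positivity)] at k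
  rw [sub_div, Real.exp_sub, le_div_iff₀ (Real.exp_pos _)]
  nlinarith

/-- the baselines at all levels `0 ≤ t ≤ R` below a high level -/
theorem levels : ∃ c C : ℝ, 0 < c ∧ c ≤ 1 / 100 ∧ 1 ≤ C ∧
    ∀ (c₀ κ : ℝ) (θ H Q : ℂ → ℂ) (Y : ℂ × ℂ → ℂ), (∀ r, 0 < r → P097Top.Cur r c₀ θ H Q) →
      P097Top.Sol0 θ H κ Y → ∀ R : ℝ, ∃ P₀ : ℝ, ∀ (P m : ℝ) (y : ℂ), P₀ ≤ P →
        Lvl (deriv θ) Q P m y → ∃ Z : ℝ → ℂ × ℂ → ℂ,
          (∀ t ∈ Icc 0 R, One θ H Q c₀ (y.im - m * t) (m * Real.exp (P - t / 2)) c C (Z t)) ∧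
          ∀ t ∈ Icc 0 R, ∀ s ∈ Icc 0 R, ∀ p ∈ Om (y.im - m * t) (c / (m * Real.exp (P - t / 2))),
            p ∈ Om (y.im - m * s) (c / (m * Real.exp (P - s / 2))) → Z t p = Z s p := by
  obtain ⟨c, C, c0, c1, C1, U⟩ := ub
  refine ⟨c, C, c0, c1, C1, fun c₀ κ θ H Q Y K S R => ?_⟩
  have col : Col Y κ κ κ := ⟨S.pos, S.pos, S.an.differentiableOn, fun x hx => by
      simpa [sub_eq_zero] using S.bd (x, 0) ⟨hx, mem_ball_self S.pos⟩,
      fun x hx w hw => S.ev (x, w) ⟨hx, hw⟩, fun x hx w hw =>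
        (S.bd (x, w) ⟨hx, hw⟩).trans (mem_ball_zero_iff.1 hw).le⟩
  obtain ⟨A₀, A1, U⟩ := U θ H Y κ κ κ col (fun x hx w hw => S.per (x, w) ⟨hx, hw⟩)
    fun x hx w hw a b => (Bridge.law_eq ..).symm.trans (S.law (x, w) ⟨hx, hw⟩ a b)
  have E := ent_of_cur K
  have κ0 := S.pos
  obtain ⟨B, hB⟩ := strip_bd E.df E.perf (|R| + 1 + 2 * κ)
  obtain ⟨P₀, hP⟩ := eventually_atTop.1 ((sq_ev R).and
    ((Real.tendsto_exp_atTop.eventually_gt_atTop B).and
    ((Real.tendsto_exp_atTop.comp (tendsto_id.atTop_div_const (r := 2) two_pos)).eventually_ge_atTop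
      A₀)))
  refine ⟨P₀, fun P m y h L => ?_⟩
  obtain ⟨p1, p2, p3⟩ := hP P h
  simp only [Function.comp_apply, id] at p3
  have m0 := L.m0
  have y0 : 0 ≤ y.im := by nlinarith [L.PT, mul_pos m0 (show 0 < P by linarith [L.P16])]
  have hy : |R| + 1 + 2 * κ < y.im := by
    by_contra k
    have := hB y (by rw [abs_of_nonneg y0]; exact not_lt.1 k)
    rw [L.val] at this
    linarith
  have main : ∀ t ∈ Icc 0 R, ∃ Z : ℂ × ℂ → ℂ,
      One θ H Q c₀ (y.im - m * t) (m * Real.exp (P - t / 2)) c C Z ∧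
      ∀ p ∈ Om (y.im - m * t) (c / (m * Real.exp (P - t / 2))), |p.1.im| < κ / 2 → Z p = Y p := by
    intro t ht
    have h1 : m * t ≤ |R| := by nlinarith [L.m1, ht.1, ht.2, le_abs_self R]
    have h2 : P ^ 2 ≤ Real.exp ((P - t) / 2) :=
      p1.trans (Real.exp_le_exp.2 (by linarith [ht.2]))
    have h3 : A₀ * (y.im - m * t) ≤ m * Real.exp (P - t / 2) := by
      rw [show P - t / 2 = P / 2 + (P - t) / 2 by ring, Real.exp_add]
      have : y.im - m * t ≤ m * Real.exp ((P - t) / 2) := by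
        nlinarith [L.TP, mul_nonneg m0.le ht.1]
      calc A₀ * (y.im - m * t) ≤ Real.exp (P / 2) * (m * Real.exp ((P - t) / 2)) :=
            mul_le_mul p3 this (by linarith [abs_nonneg R]) (Real.exp_pos _).le
        _ = _ := by ring
    have r0 : 0 < y.im - m * t := by linarith
    have k := K _ r0
    have cv : Cv θ H Q c₀ (St (y.im - m * t)) := ⟨st_open _, k.dθ, k.dH, k.dQ,
      Complex.ofReal_ne_zero.2 k.cpos.ne', k.laz, k.ode⟩
    have gr := gra_lvl L ht.1 h2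
    obtain ⟨Z, b, -, e, l⟩ := U Q c₀ _ _ (by linarith) (by linarith) h3 cv gr
    exact ⟨Z, ⟨cv, gr, by nlinarith, b, l⟩, e⟩
  choose! Z z1 z2 using main
  exact ⟨Z, z1, fun t ht s hs p a b =>
    agree (half_pos κ0) (z1 t ht).bl (z1 s hs).bl (z2 t ht) (z2 s hs) a b⟩

end Vale.Agent.P097E
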