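import Vale.Agent.P097E.GlueA

/-!
# P097E: the chord function in the low part of the window
-/

set_option linter.all false

noncomputable section

namespace Vale.Agent.P097E

open Filter Topology Set Metric Vale.Agent.P097N

theorem wc_k1 {f θ H : ℂ → ℂ} (m : ℝ) (y : ℂ) (dθ : Differentiable ℂ θ) (dH : Differentiable ℂ H)
    (a b : ℂ) : k1 (wc f m y θ) (wc f m y H) a b =
      m ^ 2 * k1 θ H (y + m * (Complex.arg (f y) + a)) (y + m * (Complex.arg (f y) + b)) := by
  simp only [k1, wc_deriv m y dθ, wc_deriv m y dH, wc]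
  ring

theorem wc_ph {f θ H : ℂ → ℂ} {m : ℝ} (m0 : 0 < m) (y : ℂ) (dθ : Differentiable ℂ θ)
    (dH : Differentiable ℂ H) : Ph (wc f m y θ) (wc f m y H) = fun q =>
      Ph θ H (y + m * (Complex.arg (f y) + q.1), y + m * (Complex.arg (f y) + q.2)) * (m : ℂ)⁻¹ := by
  funext q
  have mc : (m : ℂ) ≠ 0 := Complex.ofReal_ne_zero.2 m0.ne'
  simp only [Ph, wc_k1 m y dθ dH, kk, wc_deriv m y dθ, wc_deriv m y dH, wc]
  field_simp

theorem pv {c : ℝ} {θ H Q : ℂ → ℂ} (K : ∀ r, 0 < r → P097Top.Cur r c θ H Q) (R : ℝ) :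
    ∃ P₀ : ℝ, ∀ (P m : ℝ) (y : ℂ), P₀ ≤ P → Lvl (deriv θ) Q P m y →
      Pv (wc (deriv θ) m y θ) (wc (deriv θ) m y H) (m * Real.exp P)⁻¹ R 122 5400 := by
  obtain ⟨P₀, hP⟩ := eventually_atTop.1 (sq_ev R)
  refine ⟨max P₀ (4 * R), fun P m y h L b b' h1 h2 h3 => ?_⟩
  have m0 := L.m0
  have mc : (m : ℂ) ≠ 0 := Complex.ofReal_ne_zero.2 m0.ne'
  have eP := Real.exp_pos P
  have hb : -b.im ≤ R := (neg_le_abs _).trans ((Complex.abs_im_le_norm _).trans h1.le)
  have hy : m * R ≤ y.im := by nlinarith [L.PT, (le_max_right _ _).trans h]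
  rw [wc_ph m0 y (cur_dθ K) (cur_dH K), wc_k1 m y (cur_dθ K) (cur_dH K)]
  set β : ℝ := Complex.arg (deriv θ y)
  set t := -b.im - 1 with ht
  have p2 : P ^ 2 ≤ Real.exp ((P - t) / 2) :=
    (hP P ((le_max_left _ _).trans h)).trans (Real.exp_le_exp.2 (by linarith))
  have hx : |(y + m * (β + b)).im| = y.im - m * t - m := by
    have : (y + m * (β + b)).im = y.im + m * b.im := by simp
    rw [this, abs_of_nonneg (by nlinarith), ht]
    ring
  have xS : y + m * (β + b) ∈ St (y.im - m * t) := hx.trans_lt (by linarith)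
  have k := K (y.im - m * t) ((abs_nonneg _).trans_lt xS)
  have A1 : 1 ≤ m * Real.exp (P - t / 2) := by
    have := Real.exp_le_exp.2 (show (P - t) / 2 ≤ P - t / 2 by linarith [L.P16])
    nlinarith [L.mP]
  obtain ⟨⟨s1, -⟩, s2⟩ := step θ H Q c _ _ ⟨BlR.st_open _, k.dθ, k.dH, k.dQ,
    Complex.ofReal_ne_zero.2 k.cpos.ne', k.laz, k.ode⟩ (gra_lvl L (by linarith) p2) A1
  have s1 := s1 _ xS
  have s2 := s2 _ xS
  have et := Real.exp_pos (t / 2)
  have eρ : 1 / (30 * (m * Real.exp (P - t / 2))) * (y.im - m * t - |(y + m * (β + b)).im|) =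
      Real.exp (t / 2) / (30 * Real.exp P) := by
    rw [hx, Real.exp_sub]
    field_simp
    ring
  rw [eρ] at s1 s2
  have ed : y + m * (β + b') - (y + m * (β + b)) = m * (b' - b) := by ring
  have en : ‖y + m * (β + b') - (y + m * (β + b))‖ = m * ‖b' - b‖ := by
    rw [ed, norm_mul, Complex.norm_real, Real.norm_eq_abs, abs_of_pos m0]
  have n1 : m * ‖b' - b‖ ≤ 4 / Real.exp P := by
    refine (mul_le_mul_of_nonneg_left h3 m0.le).trans_eq ?_
    field_simp
  have n2 : ‖y + m * (β + b') - (y + m * (β + b))‖ < Real.exp (t / 2) / (30 * Real.exp P) := by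
    rw [en, ← div_div]
    refine n1.trans_lt (div_lt_div_of_pos_right ?_ eP)
    linarith [sq_le_exp (show 0 ≤ t by linarith)]
  refine ⟨?_, fun ne => ?_⟩
  · have b1 := s1.2 _ n2
    rw [en, ed] at b1
    show ‖Ph θ H (y + m * (β + b), y + m * (β + b')) * (m : ℂ)⁻¹ - (b' - b)‖ ≤ _
    rw [show Ph θ H (y + m * (β + b), y + m * (β + b')) * (m : ℂ)⁻¹ - (b' - b) =
      (Ph θ H (y + m * (β + b), y + m * (β + b')) - m * (b' - b)) / m by field_simp, norm_div,
      Complex.norm_real, Real.norm_eq_abs, abs_of_pos m0, div_le_iff₀ m0]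
    refine b1.trans ?_
    have e1 : Real.exp b.im * Real.exp (t / 2) ^ 2 * Real.exp 1 = 1 := by
      rw [← Real.exp_nat_mul, ← Real.exp_add, ← Real.exp_add, ht]
      push_cast
      ring_nf
      exact Real.exp_zero
    have n3 : (m * ‖b' - b‖ * Real.exp P) ^ 2 ≤ 4 ^ 2 :=
      pow_le_pow_left₀ (by positivity) ((le_div_iff₀ eP).1 n1) 2
    have e2 : 1 ≤ 3 * (Real.exp b.im * Real.exp (t / 2) ^ 2) := by
      nlinarith [Real.exp_one_lt_d9, mul_pos (Real.exp_pos b.im) (pow_pos et 2)]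
    rw [div_le_iff₀ (by positivity), show 5400 * Real.exp b.im * ‖b' - b‖ * m *
      (8 * (Real.exp (t / 2) / (30 * Real.exp P)) ^ 2) = m * ‖b' - b‖ *
        (16 * (3 * (Real.exp b.im * Real.exp (t / 2) ^ 2)) / Real.exp P ^ 2) by field_simp; ring,
      pow_succ' _ 2]
    refine mul_le_mul_of_nonneg_left ?_ (by positivity)
    rw [le_div_iff₀ (by positivity)]
    nlinarith
  · have ne' : y + m * (β + b') ≠ y + m * (β + b) := fun e =>
      ne (sub_eq_zero.1 ((mul_eq_zero.1 (ed.symm.trans (sub_eq_zero.2 e))).resolve_left mc))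
    exact ⟨mul_ne_zero (pow_ne_zero _ mc) (s2 _ ne' n2),
      (AnalyticAt.comp (𝕜 := ℂ) (x := (b, b'))
        (f := fun q : ℂ × ℂ => (y + m * (β + q.1), y + m * (β + q.2)))
        (s1.1 _ ne' n2) ((analyticAt_const.add (analyticAt_const.mul
          (analyticAt_const.add analyticAt_fst))).prod (analyticAt_const.add
          (analyticAt_const.mul (analyticAt_const.add analyticAt_snd))))).mul analyticAt_const⟩

end Vale.Agent.P097E
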