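import Vale.Agent.P097E.ModDefs

/-!
# P097E: the fold of the circle model (row 944)
-/

set_option linter.all false

noncomputable section

namespace Vale.Agent.P097E

open Set Metric Complex ComplexConjugate

namespace ModP4

theorem lip {f : ℂ → ℂ} {U : Set ℂ} {c : ℂ} {r : ℝ} (hU : IsOpen U) (hf : DifferentiableOn ℂ f U)
    (hB : closedBall c r ⊆ U) (r0 : 0 ≤ r) (h0 : f c = 0) :
    ∃ C : ℝ, 0 ≤ C ∧ ∀ z ∈ closedBall c r, ‖f z‖ ≤ C * ‖z - c‖ := by
  obtain ⟨C, hC⟩ := (isCompact_closedBall c r).exists_bound_of_continuousOn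
    ((hf.deriv hU).continuousOn.mono hB)
  refine ⟨C, (norm_nonneg _).trans (hC c (mem_closedBall_self r0)), fun z hz => ?_⟩
  have := (convex_closedBall c r).norm_image_sub_le_of_norm_deriv_le
    (fun w hw => hf.differentiableAt (hU.mem_nhds (hB hw))) hC (mem_closedBall_self r0) hz
  rwa [h0, sub_zero] at this

theorem sub_U : closedBall (Real.pi : ℂ) (1 / 4) ⊆ Sg ∩ {0}ᶜ := by
  intro δ hδ
  rw [mem_closedBall, dist_eq_norm] at hδ
  have a := abs_le.1 ((abs_re_le_norm _).trans hδ)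
  simp only [sub_re, ofReal_re] at a
  have := Real.pi_gt_three
  have := Real.pi_lt_d2
  refine ⟨(abs_lt.2 ⟨by linarith [a.1], by linarith [a.2]⟩ : |δ.re| < 7 / 2), fun e => ?_⟩
  rw [mem_singleton_iff.1 e, zero_re] at a
  linarith [a.1]

theorem op_U : IsOpen (Sg ∩ {0}ᶜ) :=
  (isOpen_lt (continuous_abs.comp continuous_re) continuous_const).inter isOpen_compl_singleton

theorem low {δ : ℂ} (h : ‖δ - Real.pi‖ ≤ 1 / 4) : ‖δ - Real.pi‖ ^ 2 ≤ 4 * ‖1 + cos δ‖ := by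
  obtain ⟨x, rfl⟩ : ∃ x, δ = x + Real.pi := ⟨δ - Real.pi, by ring⟩
  rw [add_sub_cancel_right] at h ⊢
  rw [cos_add_pi]
  have a := Complex.cos_bound (x := x) (by linarith)
  have b : ‖x ^ 2 / 2‖ ≤ ‖1 + -cos x‖ + ‖cos x - (1 - x ^ 2 / 2)‖ :=
    (congrArg norm (by ring)).le.trans (norm_add_le _ _)
  rw [norm_div, norm_pow, Complex.norm_ofNat] at b
  have c : ‖x‖ ^ 2 ≤ 1 := by nlinarith [norm_nonneg x]
  have d : ‖x‖ ^ 4 = ‖x‖ ^ 2 * ‖x‖ ^ 2 := by ring
  nlinarith [sq_nonneg ‖x‖]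

end ModP4

open ModP4

theorem mp4 : Spec_MP4 := by
  intro sg Z M
  have hπ : (Real.pi : ℂ) ∈ Sg ∩ {0}ᶜ := sub_U (mem_closedBall_self (by norm_num))
  obtain ⟨s0, z0⟩ := M.pos Real.pi Real.pi_pos (by have := Real.pi_lt_d2; linarith)
  obtain ⟨c1, c2⟩ := M.cj _ hπ.1
  rw [conj_ofReal] at c1 c2
  have es : ((sg Real.pi).re : ℂ) = sg Real.pi := conj_eq_iff_re.1 c1.symm
  have ez : ((Z Real.pi).re : ℂ) = Z Real.pi := conj_eq_iff_re.1 c2.symm
  obtain ⟨a, ha⟩ : ∃ a : ℝ, a = (sg Real.pi).re ^ 2 / (4 * (Z Real.pi).re) := ⟨_, rfl⟩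
  have a0 : 0 < a := by rw [ha]; positivity
  have dZ : DifferentiableOn ℂ Z (Sg ∩ {0}ᶜ) := M.dZ.mono inter_subset_left
  have ds : DifferentiableOn ℂ sg (Sg ∩ {0}ᶜ) := M.dsg.mono inter_subset_left
  obtain ⟨C₁, C10, h1⟩ := lip (f := fun δ => 4 * a * Z δ / sg δ ^ 2 - 1) op_U
    (((dZ.const_mul _).div (ds.pow 2) fun δ hδ => pow_ne_zero 2 (M.ne δ hδ.1 hδ.2).1).sub_const 1)
    sub_U (by norm_num) (by
      obtain ⟨n1, n2⟩ := M.ne _ hπ.1 hπ.2
      rw [ha]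
      push_cast
      rw [es, ez]
      field_simp
      ring)
  obtain ⟨C₂, C20, h2⟩ := lip (f := sin) op_U differentiable_sin.differentiableOn sub_U
    (by norm_num) Complex.sin_pi
  refine ⟨a, C₂ * C₁, a0, fun δ hδ => ⟨?_, low hδ⟩⟩
  have hB : closedBall (Real.pi : ℂ) ‖δ - Real.pi‖ ⊆ closedBall (Real.pi : ℂ) (1 / 4) :=
    closedBall_subset_closedBall hδ
  have hd : ∀ w ∈ closedBall (Real.pi : ℂ) ‖δ - Real.pi‖,
      HasDerivWithinAt (fun w => 1 + cos w - a * (Z Real.pi - Z w))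
        (sin w * (4 * a * Z w / sg w ^ 2 - 1)) (closedBall (Real.pi : ℂ) ‖δ - Real.pi‖) w := by
    intro w hw
    have hw' := sub_U (hB hw)
    have e := M.ode w hw'.1
    have n1 := (M.ne w hw'.1 hw'.2).1
    have d1 := (dZ.differentiableAt (op_U.mem_nhds hw')).hasDerivAt
    refine (((Complex.hasDerivAt_cos w).const_add 1).sub
      ((d1.const_sub (Z Real.pi)).const_mul (a : ℂ))).hasDerivWithinAt.congr_deriv ?_
    field_simp
    linear_combination (a : ℂ) * e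
  have key := (convex_closedBall (Real.pi : ℂ) ‖δ - Real.pi‖).norm_image_sub_le_of_norm_hasDerivWithin_le
    (C := C₂ * C₁ * ‖δ - Real.pi‖ ^ 2) hd (fun w hw => by
      have b : ‖w - Real.pi‖ ≤ ‖δ - Real.pi‖ := by rwa [mem_closedBall, dist_eq_norm] at hw
      rw [norm_mul]
      calc _ ≤ C₂ * ‖δ - Real.pi‖ * (C₁ * ‖δ - Real.pi‖) :=
            mul_le_mul ((h2 w (hB hw)).trans (by gcongr)) ((h1 w (hB hw)).trans (by gcongr))
              (norm_nonneg _) (by positivity)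
        _ = _ := by ring) (mem_closedBall_self (norm_nonneg _))
    (by rw [mem_closedBall, dist_eq_norm])
  simp only [Complex.cos_pi, sub_self, mul_zero, add_neg_cancel, sub_zero] at key
  exact key.trans (le_of_eq (by ring))

end Vale.Agent.P097E
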