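import Vale.Agent.P097E.Defs
import Vale.Agent.P097E.ModP4

/-!
# P097E: the second list of properties of the model (row 954)
-/

set_option linter.all false

noncomputable section

namespace Vale.Agent.P097E

open Set Metric Complex ComplexConjugate

namespace MdlP

open ModP4

theorem fold3 {sg Z : ℂ → ℂ} (M : Mod1 sg Z) : ∃ C : ℝ, 0 ≤ C ∧ ∀ δ : ℂ, ‖δ - Real.pi‖ ≤ 1 / 4 →
    ‖1 + cos δ - sg Real.pi ^ 2 / (4 * Z Real.pi) * (Z Real.pi - Z δ)‖ ≤ C * ‖δ - Real.pi‖ ^ 3 := by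
  have hπ : (Real.pi : ℂ) ∈ Sg ∩ {0}ᶜ := sub_U (mem_closedBall_self (by norm_num))
  obtain ⟨a, ha⟩ : ∃ a : ℂ, a = sg Real.pi ^ 2 / (4 * Z Real.pi) := ⟨_, rfl⟩
  have dZ : DifferentiableOn ℂ Z (Sg ∩ {0}ᶜ) := M.dZ.mono inter_subset_left
  have ds : DifferentiableOn ℂ sg (Sg ∩ {0}ᶜ) := M.dsg.mono inter_subset_left
  obtain ⟨C₁, C10, h1⟩ := lip (f := fun δ => 4 * a * Z δ / sg δ ^ 2 - 1) op_U
    (((dZ.const_mul _).div (ds.pow 2) fun δ hδ => pow_ne_zero 2 (M.ne δ hδ.1 hδ.2).1).sub_const 1)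
    sub_U (by norm_num) (by
      obtain ⟨n1, n2⟩ := M.ne _ hπ.1 hπ.2
      rw [ha]
      field_simp
      ring)
  obtain ⟨C₂, C20, h2⟩ := lip (f := sin) op_U differentiable_sin.differentiableOn sub_U
    (by norm_num) Complex.sin_pi
  refine ⟨C₂ * C₁, by positivity, fun δ hδ => ?_⟩
  rw [← ha]
  have hB : closedBall (Real.pi : ℂ) ‖δ - Real.pi‖ ⊆ closedBall (Real.pi : ℂ) (1 / 4) :=
    closedBall_subset_closedBall hδ
  have hd : ∀ w ∈ closedBall (Real.pi : ℂ) ‖δ - Real.pi‖,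
      HasDerivWithinAt (fun w => 1 + cos w - a * (Z Real.pi - Z w))
        (sin w * (4 * a * Z w / sg w ^ 2 - 1)) (closedBall (Real.pi : ℂ) ‖δ - Real.pi‖) w := by
    intro w hw
    have hw' := sub_U (hB hw)
    have e := M.ode w hw'.1
    have n1 := (M.ne w hw'.1 hw'.2).1
    have d1 := (dZ.differentiableAt (op_U.mem_nhds hw')).hasDerivAt
    refine (((Complex.hasDerivAt_cos w).const_add 1).sub
      ((d1.const_sub (Z Real.pi)).const_mul a)).hasDerivWithinAt.congr_deriv ?_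
    field_simp
    linear_combination a * e
  have key := (convex_closedBall (Real.pi : ℂ) ‖δ - Real.pi‖).norm_image_sub_le_of_norm_hasDerivWithin_le
    (C := C₂ * C₁ * ‖δ - Real.pi‖ ^ 2) hd (fun w hw => by
      have b : ‖w - Real.pi‖ ≤ ‖δ - Real.pi‖ := by rwa [mem_closedBall, dist_eq_norm] at hw
      rw [norm_mul]
      calc _ ≤ C₂ * ‖δ - Real.pi‖ * (C₁ * ‖δ - Real.pi‖) :=
            mul_le_mul ((h2 w (hB hw)).trans (by gcongr)) ((h1 w (hB hw)).trans (by gcongr))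
              (norm_nonneg _) (by positivity)
        _ = _ := by ring) (mem_closedBall_self (norm_nonneg _))
    (by rw [mem_closedBall, dist_eq_norm])
  simp only [Complex.cos_pi, sub_self, mul_zero, add_neg_cancel, sub_zero] at key
  exact key.trans (le_of_eq (by ring))

theorem sg_of {d : ℂ} (h : |d.re| ≤ Real.pi) : d ∈ Sg := by
  have := Real.pi_lt_d2
  exact (by linarith : |d.re| < 7 / 2)

theorem op_Sg : IsOpen Sg := isOpen_lt (continuous_abs.comp continuous_re) continuous_const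

theorem arith {g h c D C α e : ℝ} (h0 : 0 ≤ h) (D0 : 0 ≤ D) (g0 : 0 ≤ g) (C0 : 0 ≤ C)
    (α0 : 0 ≤ α) (a1 : g ≤ C * h ^ 3) (a2 : h ^ 2 ≤ 4 * c) (a3 : c ≤ g + α * D)
    (a4 : h * (8 * C + 1) ≤ 1) (a5 : h * (8 * C * α + 1) ≤ e) : g ≤ e * D := by
  have b0 : 0 ≤ C * h := by positivity
  have b1 : C * h * h ^ 2 ≤ C * h * (4 * (g + α * D)) :=
    mul_le_mul_of_nonneg_left (by linarith) b0
  have b2 : 8 * C * h * g ≤ 1 * g := mul_le_mul_of_nonneg_right (by nlinarith) g0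
  have b3 : 8 * C * α * h * D ≤ e * D := mul_le_mul_of_nonneg_right (by nlinarith) D0
  nlinarith

end MdlP

open MdlP

theorem mdl_of {sg Z : ℂ → ℂ} {zs : ℝ} (M : Mod sg Z zs) : Mdl sg Z zs := by
  refine ⟨M.zs0, fun d hd => ⟨M.dsg.analyticAt (op_Sg.mem_nhds (sg_of hd)),
    M.dZ.analyticAt (op_Sg.mem_nhds (sg_of hd))⟩, fun d hd => M.odd d (sg_of hd), ?_,
    fun e e0 => ?_⟩
  · rw [M.cube _ (sg_of (by simp [abs_of_pos Real.pi_pos]))]
    simp [Sm]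
  · obtain ⟨C, C0, hC⟩ := fold3 M.toMod1
    rw [M.Zpi] at hC
    obtain ⟨α, hα⟩ : ∃ α : ℝ, α = ‖sg Real.pi ^ 2 / (4 * (zs : ℂ))‖ := ⟨_, rfl⟩
    have α0 : 0 ≤ α := hα ▸ norm_nonneg _
    obtain ⟨ρ, ρ0, hρ⟩ := M.p3 (min (min (1 / 4) (e / 2)) (min (1 / (8 * C + 1))
      (e / (8 * C * α + 1)))) (by positivity)
    refine ⟨ρ, ρ0, fun d hd hz => ?_⟩
    have h := hρ d hd (by rw [M.Zpi]; exact hz.le)
    simp only [le_min_iff] at h
    obtain ⟨⟨h1, h2⟩, h3, h4⟩ := h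
    refine ⟨by linarith, arith (norm_nonneg _) (norm_nonneg _) (norm_nonneg _) C0 α0 (hC d h1)
      (ModP4.low h1) ?_ ((le_div_iff₀ (by positivity)).1 h3) ((le_div_iff₀ (by positivity)).1 h4)⟩
    rw [hα, ← norm_mul]
    exact (congrArg norm (by ring)).le.trans (norm_add_le _ _)

theorem mdl (h : Spec_MOD) : Spec_MDL := by
  obtain ⟨sg, Z, zs, M⟩ := h
  exact ⟨sg, Z, zs, M, mdl_of M⟩

end Vale.Agent.P097E
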