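import Vale.Agent.P097E.ModM1

/-!
# P097E: the sides of the strip are mapped into the cones
-/

set_option linter.all false

noncomputable section

namespace Vale.Agent.P097E

open Set Metric Complex ComplexConjugate Filter Topology M1

namespace P1

variable {sg Z : ℂ → ℂ}

lemma mem (u : ℂ) (hu : u.im = 0) : (Real.pi + u * I : ℂ) ∈ Sg := by
  have := Real.pi_lt_d2
  simp only [Sg, mem_setOf_eq, add_re, ofReal_re, mul_re, I_re, I_im, hu]
  rw [abs_of_pos (by linarith [Real.pi_pos])]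
  linarith

lemma cone (H : Mod1 sg Z) (u : ℝ) : ∃ p q : ℝ, |q| < 2 * p ∧
    (sg (Real.pi + u * I) ^ 2)⁻¹ = p + q * I := by
  have e : ∀ t : ℝ, 0 < (sg (Real.pi + t * I)).re *
      ((sg (Real.pi + t * I)).re ^ 2 - 3 * (sg (Real.pi + t * I)).im ^ 2) := fun t => by
    have h := congrArg re (H.cube _ (mem t (by simp)))
    have h2 : (24 * Sm (Real.pi + t * I)).re = 24 * (Real.pi * Real.cosh t) := by
      simp [Sm, sin_add_mul_I, cos_add_mul_I, cosh_ofReal_re]
    rw [h2] at h
    simp only [pow_succ, pow_zero, one_mul, mul_re, mul_im] at h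
    have := mul_pos Real.pi_pos (Real.cosh_pos t)
    nlinarith
  have c : Continuous fun t : ℝ => (sg (Real.pi + t * I)).re :=
    continuous_re.comp (H.dsg.continuousOn.comp_continuous (by fun_prop) fun t => mem t (by simp))
  have a0 : 0 < (sg (Real.pi + u * I)).re := by
    by_contra hn
    obtain ⟨t, ht⟩ := intermediate_value_univ u 0 c (show (0 : ℝ) ∈ _ from ⟨not_lt.1 hn, by
      simpa using (H.pos _ Real.pi_pos (by linarith [Real.pi_lt_d2])).1.le⟩)
    have := e t
    simp only at ht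
    rw [ht] at this
    simp at this
  have h1 := (mul_pos_iff_of_pos_left a0).1 (e u)
  set w := sg (Real.pi + u * I)
  have n : 0 < normSq (w ^ 2) := normSq_pos.2 (pow_ne_zero _ fun h => by simp [h] at a0)
  refine ⟨(w ^ 2)⁻¹.re, (w ^ 2)⁻¹.im, ?_, (re_add_im _).symm⟩
  rw [inv_re, inv_im, abs_div, abs_of_pos n, ← mul_div_assoc, div_lt_div_iff_of_pos_right n,
    abs_neg, abs_lt]
  simp only [pow_succ, pow_zero, one_mul, mul_re, mul_im] at h1 ⊢
  constructor <;> nlinarith [sq_nonneg (w.re - 2 * w.im), sq_nonneg (w.re + 2 * w.im)]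

lemma up (H : Mod1 sg Z) {u : ℝ} (hu : 0 < u) : ∃ l : ℂ, |l.im| < 2 * l.re ∧
    Z (Real.pi + u * I) = Z Real.pi * exp l := by
  let V : Set ℂ := {δ : ℂ | 0 < δ.re} ∩ Sg
  have Vo : IsOpen V := (isOpen_lt continuous_const continuous_re).inter Sg_open
  have Vc : Convex ℝ V := (convex_halfSpace_re_gt _).inter Sg_convex
  have V0 : ∀ δ ∈ V, δ ≠ 0 := fun δ h e => by simpa [e] using h.1
  have Vm : ∀ t : ℝ, (Real.pi + t * I : ℂ) ∈ V := fun t =>
    ⟨by simpa using Real.pi_pos, mem t (by simp)⟩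
  have Vp : (Real.pi : ℂ) ∈ V := by simpa using Vm 0
  obtain ⟨G, hG⟩ := Vc.exists_forall_hasDerivWithinAt (f := fun δ => 4 * sin δ / sg δ ^ 2)
    ((differentiable_sin.differentiableOn.const_mul 4).div ((H.dsg.mono inter_subset_right).pow 2)
      fun δ h => pow_ne_zero _ (H.ne δ h.2 (V0 δ h)).1)
  have d : ∀ δ ∈ V, HasDerivAt (fun x => G x - G Real.pi) (4 * sin δ / sg δ ^ 2) δ := fun δ h =>
    ((hG δ h).hasDerivAt (Vo.mem_nhds h)).sub_const _
  have dq : ∀ δ ∈ V, HasDerivAt (fun x => Z x / exp (G x - G Real.pi)) 0 δ := fun δ h =>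
    ((H.dZ.differentiableAt (Sg_open.mem_nhds h.2)).hasDerivAt.div (d δ h).cexp
      (exp_ne_zero _)).congr_deriv (by
        have h1 := (H.ne δ h.2 (V0 δ h)).1
        have h2 := H.ode δ h.2
        rw [div_eq_zero_iff]
        left
        field_simp
        linear_combination exp (G δ - G Real.pi) * h2)
  have eq := Vo.eqOn_of_deriv_eq Vc.isPreconnected
    (fun δ hδ => (dq δ hδ).differentiableAt.differentiableWithinAt)
    (differentiableOn_const (Z Real.pi)) (fun δ hδ => by simp [(dq δ hδ).deriv]) Vp (by simp) (Vm u)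
  have key : ∀ c : ℂ, (∀ p q : ℝ, |q| < 2 * p → 0 < (c * (p + q * I)).re) →
      0 < (c * (G (Real.pi + u * I) - G Real.pi)).re := fun c hc => by
    have dd : ∀ t : ℝ, HasDerivAt (fun t : ℝ => (c * (G (Real.pi + t * I) - G Real.pi)).re)
        (c * (4 * sin (Real.pi + t * I) / sg (Real.pi + t * I) ^ 2 * I)).re t := fun t => by
      have h0 : HasDerivAt (fun x : ℂ => Real.pi + x * I) I t := by
        simpa using ((hasDerivAt_id (t : ℂ)).mul_const I).const_add (Real.pi : ℂ)
      exact (((d _ (Vm t)).comp (t : ℂ) h0).const_mul c).real_of_complex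
    have := strictMonoOn_of_deriv_pos (convex_Ici (0 : ℝ))
      (fun t _ => (dd t).continuousAt.continuousWithinAt) (fun t ht => by
        rw [interior_Ici] at ht
        obtain ⟨p, q, h1, h2⟩ := cone H t
        have e : c * (4 * sin (Real.pi + t * I) / sg (Real.pi + t * I) ^ 2 * I) =
            (4 * Real.sinh t : ℝ) * (c * (p + q * I)) := by
          rw [div_eq_mul_inv, h2, sin_add_mul_I]
          simp
          linear_combination (-4 * c * sinh t * (p + q * I)) * I_sq
        rw [(dd t).deriv, e, re_ofReal_mul]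
        exact mul_pos (mul_pos four_pos (Real.sinh_pos_iff.2 ht)) (hc p q h1)) self_mem_Ici hu.le hu
    simpa using this
  refine ⟨_, ?_, (div_eq_iff (exp_ne_zero _)).1 eq⟩
  have k1 := key (2 + I) fun p q h => by simp; linarith [(abs_lt.1 h).2]
  have k2 := key (2 - I) fun p q h => by simp; linarith [(abs_lt.1 h).1]
  generalize G (Real.pi + u * I) - G Real.pi = l at k1 k2
  simp at k1 k2
  rw [abs_lt]
  constructor <;> linarith

lemma Zpi (H : Mod1 sg Z) : 0 < (Z Real.pi).re ∧ Z Real.pi = ((Z Real.pi).re : ℝ) := by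
  refine ⟨(H.pos _ Real.pi_pos (by linarith [Real.pi_lt_d2])).2, (conj_eq_iff_re.1 ?_).symm⟩
  simpa using (H.cj Real.pi (by simpa using mem 0 rfl)).2.symm

lemma up' (H : Mod1 sg Z) {u : ℝ} (hu : 0 ≤ u) : Z (Real.pi + u * I) ∈ Fb (Z Real.pi).re ∧
    (u ≠ 0 → (Z Real.pi).re < ‖Z (Real.pi + u * I)‖) := by
  obtain ⟨z0, ez⟩ := Zpi H
  generalize (Z Real.pi).re = zs at z0 ez
  rcases hu.eq_or_lt with rfl | hu
  · simp [Fb, ez, abs_of_pos z0, z0.ne']
  obtain ⟨l, h1, h2⟩ := up H hu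
  have l0 : 0 < l.re := by linarith [abs_nonneg l.im]
  have n : ‖Z (Real.pi + u * I)‖ = zs * Real.exp l.re := by
    rw [h2, ez, norm_mul, norm_exp, norm_real, Real.norm_of_nonneg z0.le]
  refine ⟨?_, fun _ => ?_⟩
  · simp only [Fb, mem_setOf_eq]
    rw [n, h2, ez, mul_div_cancel_left₀ _ z0.ne', Real.log_exp, im_ofReal_mul, exp_im, abs_mul,
      abs_mul, abs_of_pos z0, abs_of_pos (Real.exp_pos _)]
    have := mul_le_mul_of_nonneg_left (Real.abs_sin_le_abs.trans h1.le)
      (mul_pos z0 (Real.exp_pos l.re)).le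
    linarith
  · rw [n]
    exact lt_mul_of_one_lt_right z0 (Real.one_lt_exp_iff.2 l0)

end P1

theorem mp1 : Spec_MP1 := by
  intro sg Z H δ hδ
  obtain ⟨h1, h2⟩ := P1.up' H (abs_nonneg δ.im)
  have m := P1.mem (|δ.im| : ℝ) (by simp)
  set w : ℂ := Real.pi + (|δ.im| : ℝ) * I with hw
  have key : |(Z δ).im| = |(Z w).im| ∧ ‖Z δ‖ = ‖Z w‖ := by
    rcases abs_cases δ.re with ⟨a, -⟩ | ⟨a, -⟩ <;> rcases abs_cases δ.im with ⟨b, -⟩ | ⟨b, -⟩
    · rw [show δ = w from Complex.ext (by simp [hw, ← hδ, a]) (by simp [hw, b])]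
      exact ⟨rfl, rfl⟩
    · rw [show δ = conj w from Complex.ext (by simp [hw, ← hδ, a]) (by simp [hw, b]), (H.cj w m).2]
      simp
    · rw [show δ = -conj w from Complex.ext (by simp [hw, ← hδ, a]) (by simp [hw, b]),
        (H.odd _ (Sg_conj m)).2, (H.cj w m).2]
      simp
    · rw [show δ = -w from Complex.ext (by simp [hw, ← hδ, a]) (by simp [hw, b]), (H.odd w m).2]
      simp
  refine ⟨?_, fun h => ?_⟩
  · simpa only [Fb, mem_setOf_eq, key.1, key.2] using h1
  · rw [key.2]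
    exact h2 (abs_ne_zero.2 h)

end Vale.Agent.P097E
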