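import Vale.Agent.P097E.ModDefs

/-!
# P097E: growth of the model function (row MP2)
-/

set_option linter.all false

noncomputable section

namespace Vale.Agent.P097E

open Set Metric Complex ComplexConjugate

namespace P2

theorem cube_re (σ : ℂ) : (σ ^ 3).re = σ.re * (σ.re ^ 2 - 3 * σ.im ^ 2) := by
  simp only [pow_succ, pow_zero, one_mul, mul_re, mul_im]
  ring

theorem cube_im (σ : ℂ) : (σ ^ 3).im = σ.im * (3 * σ.re ^ 2 - σ.im ^ 2) := by
  simp only [pow_succ, pow_zero, one_mul, mul_re, mul_im]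
  ring

theorem cone {σ : ℂ} (ha : 0 < σ.re) (h0 : 0 < (σ ^ 3).re)
    (h1 : |(σ ^ 3).im| ≤ 2 / 5 * (σ ^ 3).re) : |σ.im| ≤ 3 / 20 * σ.re := by
  rw [cube_re] at h0 h1
  rw [cube_im, abs_mul] at h1
  have h2 : 0 < σ.re ^ 2 - 3 * σ.im ^ 2 := (mul_pos_iff_of_pos_left ha).1 h0
  have h3 : 8 / 3 * σ.re ^ 2 ≤ |3 * σ.re ^ 2 - σ.im ^ 2| := le_trans (by linarith) (le_abs_self _)
  have h4 := mul_le_mul_of_nonneg_left h3 (abs_nonneg σ.im)
  have h5 : 0 ≤ σ.re * σ.im ^ 2 := by positivity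
  refine le_of_mul_le_mul_right ?_ (pow_pos ha 2)
  linarith

theorem lower {σ v q : ℂ} (ha : 0 < σ.re) (hb : |σ.im| ≤ 3 / 20 * σ.re) (v1 : ‖v‖ = 1)
    (v2 : 1 / 2 ≤ v.re) (hq : ‖q‖ ≤ 1 / 100) : 1 / 10 / ‖σ‖ ^ 2 ≤ (v * (1 - q) / σ ^ 2).re := by
  have s0 : σ ≠ 0 := fun e => by simp [e] at ha
  have n0 : 0 < ‖σ‖ := norm_pos_iff.2 s0
  have e : v * (1 - q) / σ ^ 2 = (((‖σ‖ ^ 2) ^ 2)⁻¹ : ℝ) * (v * conj σ ^ 2 - q * v * conj σ ^ 2) := by
    have c0 : conj σ ≠ 0 := (map_ne_zero _).2 s0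
    rw [Complex.sq_norm, ofReal_inv, ofReal_pow, ← mul_conj]
    field_simp
  have h1 : (q * v * conj σ ^ 2).re ≤ 1 / 100 * ‖σ‖ ^ 2 := by
    refine (re_le_norm _).trans ?_
    rw [norm_mul, norm_mul, v1, mul_one, norm_pow, norm_conj]
    exact mul_le_mul_of_nonneg_right hq (sq_nonneg _)
  have h2 : (v * conj σ ^ 2).re = v.re * (σ.re ^ 2 - σ.im ^ 2) + 2 * σ.re * (v.im * σ.im) := by
    simp only [pow_succ, pow_zero, one_mul, mul_re, mul_im, conj_re, conj_im]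
    ring
  have h3 : ‖σ‖ ^ 2 = σ.re ^ 2 + σ.im ^ 2 := by rw [Complex.sq_norm, normSq_apply]; ring
  have h4 : σ.im ^ 2 ≤ (3 / 20 * σ.re) ^ 2 := by
    rw [← sq_abs]
    exact pow_le_pow_left₀ (abs_nonneg _) hb 2
  have h5 : -(3 / 20 * σ.re) ≤ v.im * σ.im := by
    have k1 : |v.im| ≤ 1 := v1 ▸ abs_im_le_norm v
    have k2 : |v.im * σ.im| ≤ 3 / 20 * σ.re := by
      rw [abs_mul]
      exact (mul_le_of_le_one_left (abs_nonneg _) k1).trans hb
    exact (abs_le.1 k2).1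
  have h6 := mul_le_mul_of_nonneg_left h5 ha.le
  have h7 : 0 ≤ σ.re ^ 2 - σ.im ^ 2 := by nlinarith [sq_nonneg σ.re]
  have h8 := mul_le_mul_of_nonneg_right v2 h7
  have h9 : 1 / 10 * ‖σ‖ ^ 2 ≤ (v * conj σ ^ 2 - q * v * conj σ ^ 2).re := by
    rw [sub_re, h2]
    nlinarith [sq_nonneg σ.re]
  rw [e, re_ofReal_mul]
  refine le_trans (le_of_eq ?_) (mul_le_mul_of_nonneg_left h9 (by positivity))
  field_simp

/-- the normalised root -/
def sig (sg : ℂ → ℂ) (δ : ℂ) : ℂ := -I * sg δ * exp (δ * I / 3)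

theorem e3 (δ : ℂ) : exp (δ * I / 3) ^ 3 = exp (δ * I) := by
  rw [← exp_nat_mul]
  congr 1
  push_cast
  ring

theorem ab (δ : ℂ) : exp (δ * I) * exp (-δ * I) = 1 := by
  rw [← exp_add]
  simp

variable {sg Z : ℂ → ℂ} (H : Mod1 sg Z)
include H

theorem sig_cube {δ : ℂ} (h : δ ∈ Sg) :
    sig sg δ ^ 3 = 12 * ((-δ * I - 1) + exp (δ * I) ^ 2 * (1 - δ * I)) := by
  have h1 := H.cube δ h
  have h2 := ab δ
  rw [sig, mul_pow, mul_pow, e3, h1, Sm, Complex.sin, Complex.cos]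
  linear_combination (-12 * I ^ 4 + 12 * δ * I ^ 3) * h2 +
    (12 * exp (δ * I) ^ 2 * (I ^ 2 - 1) + 12 * δ * I * exp (δ * I) ^ 2 - 12 * (I ^ 2 - 1) +
      12 * δ * I) * I_sq

theorem ratio {δ : ℂ} (h : δ ∈ Sg) (h0 : δ ≠ 0) : 4 * I * sin δ / sg δ ^ 2 =
    2 * (exp (δ * I / 3))⁻¹ * (1 - exp (δ * I) ^ 2) / sig sg δ ^ 2 := by
  have s0 := (H.ne δ h h0).1
  have E0 := exp_ne_zero (δ * I / 3)
  have h2 := ab δ
  have h3 := e3 δ
  have e : sig sg δ ^ 2 = -(sg δ ^ 2 * exp (δ * I / 3) ^ 2) := by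
    rw [sig]
    linear_combination (sg δ ^ 2 * exp (δ * I / 3) ^ 2) * I_sq
  rw [e, Complex.sin]
  generalize exp (δ * I / 3) = E at *
  generalize exp (δ * I) = A at *
  generalize exp (-δ * I) = B at *
  field_simp
  rw [h3]
  linear_combination (4 * I ^ 2) * h2 + (4 * (1 - A ^ 2)) * I_sq

omit H in
theorem mem {x : ℝ} (hx : |x| ≤ Real.pi) (u : ℝ) : (x : ℂ) + u * I ∈ Sg := by
  have := Real.pi_lt_d2
  simp only [Sg, mem_setOf_eq, add_re, ofReal_re, mul_re, I_re, mul_zero, ofReal_im, I_im, mul_one,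
    sub_self, add_zero]
  linarith

omit H in
theorem q_le (x : ℝ) {u : ℝ} (hu : 10 ≤ u) : ‖exp (((x : ℂ) + u * I) * I) ^ 2‖ ≤ 1 / (2 * u ^ 2) := by
  have h1 : (((x : ℂ) + u * I) * I).re = -u := by simp
  have h2 := Real.quadratic_le_exp_of_nonneg (x := 2 * u) (by linarith)
  rw [norm_pow, norm_exp, h1, ← Real.exp_nat_mul, show ((2 : ℕ) : ℝ) * -u = -(2 * u) by simp,
    Real.exp_neg, one_div]
  exact inv_anti₀ (by positivity) (by nlinarith)

theorem est {x u : ℝ} (hx : |x| ≤ Real.pi) (hu : 10 ≤ u) :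
    0 < (sig sg (x + u * I) ^ 3).re ∧
      |(sig sg (x + u * I) ^ 3).im| ≤ 2 / 5 * (sig sg (x + u * I) ^ 3).re ∧
      ‖sig sg (x + u * I) ^ 3‖ ≤ 16 * u := by
  have p := Real.pi_lt_d2
  have h1 := q_le x hu
  set q := exp (((x : ℂ) + u * I) * I) ^ 2
  have e := sig_cube H (mem hx u)
  set w := q * (1 - ((x : ℂ) + u * I) * I) with hw
  have h2 : ‖1 - ((x : ℂ) + u * I) * I‖ ≤ 3 / 2 * u := by
    refine (norm_le_abs_re_add_abs_im _).trans ?_
    have a1 : (1 - ((x : ℂ) + u * I) * I).re = 1 + u := by simp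
    have a2 : (1 - ((x : ℂ) + u * I) * I).im = -x := by simp
    rw [a1, a2, abs_neg, abs_of_pos (by linarith)]
    linarith
  have h3 : ‖w‖ ≤ 3 / 40 := by
    rw [hw, norm_mul]
    refine (mul_le_mul h1 h2 (norm_nonneg _) (by positivity)).trans ?_
    rw [div_mul_eq_mul_div, div_le_iff₀ (by positivity)]
    nlinarith
  have r1 : (sig sg (x + u * I) ^ 3).re = 12 * (u - 1 + w.re) := by rw [e]; simp
  have r2 : (sig sg (x + u * I) ^ 3).im = 12 * (-x + w.im) := by rw [e]; simp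
  have b1 := abs_le.1 ((abs_re_le_norm w).trans h3)
  have b2 := abs_le.1 ((abs_im_le_norm w).trans h3)
  have b3 := abs_le.1 hx
  have b4 : |(sig sg (x + u * I) ^ 3).im| ≤ 12 * (3.15 + 3 / 40) := by
    rw [r2, abs_le]
    constructor <;> linarith
  refine ⟨by rw [r1]; linarith, b4.trans (by rw [r1]; linarith),
    (norm_le_abs_re_add_abs_im _).trans ?_⟩
  rw [r1, abs_of_pos (by linarith)]
  linarith

theorem re_pos {x u : ℝ} (hx : |x| ≤ Real.pi) (hu : 10 ≤ u) : 0 < (sig sg (x + u * I)).re := by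
  have ne : ∀ y : ℝ, |y| ≤ Real.pi → (sig sg (y + u * I)).re ≠ 0 := fun y hy e => by
    have := (est H hy hu).1
    rw [cube_re, e, zero_mul] at this
    exact lt_irrefl _ this
  have z0 : |(0 : ℝ)| ≤ Real.pi := by simp [Real.pi_pos.le]
  have p0 : 0 < (sig sg ((0 : ℝ) + u * I)).re := by
    have m := mem z0 u
    have h1 := (H.cj _ m).1
    have h2 := (H.odd _ m).1
    have h3 : conj (((0 : ℝ) : ℂ) + u * I) = -(((0 : ℝ) : ℂ) + u * I) := by simp
    rw [h3, h2] at h1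
    have h4 : (sg ((0 : ℝ) + u * I)).re = 0 := by
      have := congrArg Complex.re h1
      rw [neg_re, conj_re] at this
      linarith
    have h5 : (sig sg ((0 : ℝ) + u * I)).im = 0 := by
      have e : (((0 : ℝ) : ℂ) + u * I) * I / 3 = ((-u / 3 : ℝ) : ℂ) := by
        push_cast
        linear_combination (u / 3 : ℂ) * I_mul_I
      rw [sig, e, ← ofReal_exp, im_mul_ofReal, mul_im, h4]
      simp
    have h6 := (est H z0 hu).1
    rw [cube_re, h5] at h6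
    by_contra k
    nlinarith [sq_nonneg (sig sg ((0 : ℝ) + u * I)).re, not_lt.1 k]
  by_contra k
  have c : ContinuousOn (fun y : ℝ => (sig sg (y + u * I)).re) (Icc (-Real.pi) Real.pi) := by
    refine continuous_re.comp_continuousOn ((continuousOn_const.mul
      (H.dsg.continuousOn.comp (by fun_prop) fun y hy => mem (abs_le.2 hy) u)).mul (by fun_prop))
  obtain ⟨y, hy, e⟩ := isPreconnected_Icc.intermediate_value (abs_le.1 hx) (abs_le.1 z0) c
    ⟨not_lt.1 k, p0.le⟩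
  exact ne y (abs_le.2 hy) e

theorem rate {x u : ℝ} (hx : |x| ≤ Real.pi) (hu : 10 ≤ u) :
    1 / 40 ≤ (4 * I * sin ((x : ℂ) + u * I) / sg (x + u * I) ^ 2).re := by
  have h0 : (x : ℂ) + u * I ≠ 0 := fun e => by
    have := congrArg Complex.im e
    simp at this
    linarith
  obtain ⟨a1, a2, a3⟩ := est H hx hu
  have a0 := re_pos H hx hu
  have e : (exp (((x : ℂ) + u * I) * I / 3))⁻¹ =
      (Real.exp (u / 3) : ℝ) * exp (((-x / 3 : ℝ) : ℂ) * I) := by
    rw [← exp_neg, ofReal_exp, ← exp_add]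
    congr 1
    push_cast
    linear_combination (-u / 3 : ℂ) * I_mul_I
  have v2 : 1 / 2 ≤ (exp (((-x / 3 : ℝ) : ℂ) * I)).re := by
    rw [exp_ofReal_mul_I_re, ← Real.cos_abs, ← Real.cos_pi_div_three, abs_div, abs_neg,
      abs_of_pos (by norm_num : (0 : ℝ) < 3)]
    exact Real.cos_le_cos_of_nonneg_of_le_pi (by positivity) (by linarith [Real.pi_pos])
      (by linarith)
  have l := lower a0 (cone a0 a1 a2) (norm_exp_ofReal_mul_I _) v2
    ((q_le x hu).trans (one_div_le_one_div_of_le (by norm_num) (by nlinarith)))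
  set σ := sig sg (x + u * I)
  have n0 : 0 < ‖σ‖ := norm_pos_iff.2 fun e => by simp [e] at a0
  have b : ‖σ‖ ^ 2 ≤ 8 * Real.exp (u / 3) := by
    refine le_of_pow_le_pow_left₀ three_ne_zero (by positivity) ?_
    have k1 := pow_le_pow_left₀ (norm_nonneg _) a3 2
    have k2 := Real.quadratic_le_exp_of_nonneg (x := u) (by linarith)
    rw [mul_pow, ← Real.exp_nat_mul, show ((3 : ℕ) : ℝ) * (u / 3) = u by push_cast; ring]
    rw [norm_pow] at k1
    nlinarith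
  rw [ratio H (mem hx u) h0, e, show 2 * ((Real.exp (u / 3) : ℝ) * exp (((-x / 3 : ℝ) : ℂ) * I)) *
    (1 - exp (((x : ℂ) + u * I) * I) ^ 2) / σ ^ 2 = ((2 * Real.exp (u / 3) : ℝ) : ℂ) *
    (exp (((-x / 3 : ℝ) : ℂ) * I) * (1 - exp (((x : ℂ) + u * I) * I) ^ 2) / σ ^ 2) by
      push_cast; ring, re_ofReal_mul]
  refine le_trans ?_ (mul_le_mul_of_nonneg_left l (by positivity))
  rw [← mul_div_assoc, le_div_iff₀ (by positivity)]
  linarith

theorem grow {x u : ℝ} (hx : |x| ≤ Real.pi) (hu : 10 ≤ u) :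
    ‖Z (x + (10 : ℝ) * I)‖ ^ 2 * ((u - 10) / 20) ≤ ‖Z (x + u * I)‖ ^ 2 := by
  have op : IsOpen Sg := isOpen_lt (continuous_abs.comp continuous_re) continuous_const
  have d : ∀ t : ℝ, HasDerivAt (fun t : ℝ => ‖Z (x + t * I)‖ ^ 2 * Real.exp (-(t / 20)))
      ((2 * inner ℝ (Z (x + t * I)) (deriv Z (x + t * I) * I) - ‖Z (x + t * I)‖ ^ 2 / 20) *
        Real.exp (-(t / 20))) t := fun t => by
    have d1 := (H.dZ.differentiableAt (op.mem_nhds (mem hx t))).hasDerivAt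
    have d2 : HasDerivAt (fun w : ℂ => (x : ℂ) + w * I) I (t : ℂ) := by
      simpa using ((hasDerivAt_id (t : ℂ)).mul_const I).const_add (x : ℂ)
    have d3 := (HasDerivAt.comp (t : ℂ) (h₂ := Z) d1 d2).comp_ofReal.norm_sq
    have d4 := ((hasDerivAt_id t).div_const 20).neg.exp
    exact (d3.mul d4).congr_deriv (by simp only [Function.comp, id, Pi.neg_apply]; ring)
  have m : MonotoneOn (fun t : ℝ => ‖Z (x + t * I)‖ ^ 2 * Real.exp (-(t / 20))) (Ici 10) := by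
    refine monotoneOn_of_deriv_nonneg (convex_Ici _)
      (fun t _ => (d t).continuousAt.continuousWithinAt)
      (fun t _ => (d t).differentiableAt.differentiableWithinAt) fun t ht => ?_
    have ht' : 10 ≤ t := interior_subset ht
    have h0 : (x : ℂ) + t * I ≠ 0 := fun e => by
      have := congrArg Complex.im e
      simp at this
      linarith
    have s0 := (H.ne _ (mem hx t) h0).1
    have e : deriv Z (x + t * I) * I * conj (Z (x + t * I)) = ((‖Z (x + t * I)‖ ^ 2 : ℝ) : ℂ) *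
        (4 * I * sin ((x : ℂ) + t * I) / sg (x + t * I) ^ 2) := by
      rw [Complex.sq_norm, ← mul_conj]
      field_simp
      linear_combination (conj (Z (x + t * I))) * H.ode _ (mem hx t)
    rw [(d t).deriv, Complex.inner, e, re_ofReal_mul]
    refine mul_nonneg ?_ (Real.exp_pos _).le
    nlinarith [mul_le_mul_of_nonneg_left (rate H hx ht') (sq_nonneg ‖Z (x + t * I)‖)]
  have h1 := m (mem_Ici.2 le_rfl) (mem_Ici.2 hu) hu
  have h2 := Real.add_one_le_exp ((u - 10) / 20)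
  have h3 : Real.exp (-((10 : ℝ) / 20)) = Real.exp ((u - 10) / 20) * Real.exp (-(u / 20)) := by
    rw [← Real.exp_add]
    congr 1
    ring
  simp only at h1
  rw [h3, ← mul_assoc] at h1
  have h4 := le_of_mul_le_mul_right h1 (Real.exp_pos _)
  exact (mul_le_mul_of_nonneg_left (by linarith) (sq_nonneg _)).trans h4

end P2

open P2 in
theorem mp2 : Spec_MP2 := by
  intro sg Z H R
  have c : ContinuousOn (fun y : ℝ => ‖Z (y + (10 : ℝ) * I)‖ ^ 2) (Icc (-Real.pi) Real.pi) :=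
    (H.dZ.continuousOn.comp (by fun_prop) fun y hy => mem (abs_le.2 hy) 10).norm.pow 2
  obtain ⟨y, hy, hm⟩ := isCompact_Icc.exists_isMinOn
    (nonempty_Icc.2 (by linarith [Real.pi_pos])) c
  have m0 : 0 < ‖Z (y + (10 : ℝ) * I)‖ ^ 2 := pow_pos (norm_pos_iff.2
    (H.ne _ (mem (abs_le.2 hy) 10) fun e => by simpa using congrArg Complex.im e).2) 2
  set m := ‖Z (y + (10 : ℝ) * I)‖ ^ 2
  have key : ∀ δ : ℂ, |δ.re| ≤ Real.pi → ‖Z δ‖ ≤ R → δ.im ≤ 10 + 20 * R ^ 2 / m := fun δ h1 h2 => by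
    have p : 0 ≤ 20 * R ^ 2 / m := by positivity
    rcases le_total δ.im 10 with k | k
    · linarith
    have h3 := grow H h1 k
    rw [re_add_im] at h3
    have h4 : m ≤ ‖Z (δ.re + (10 : ℝ) * I)‖ ^ 2 := hm (abs_le.1 h1)
    have h5 := pow_le_pow_left₀ (norm_nonneg _) h2 2
    have h6 := mul_le_mul_of_nonneg_right h4 (show 0 ≤ (δ.im - 10) / 20 by linarith)
    rw [← sub_le_iff_le_add', le_div_iff₀ m0]
    linarith
  refine ⟨10 + 20 * R ^ 2 / m, fun δ h1 h2 => abs_le.2 ⟨?_, key δ h1 h2⟩⟩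
  have hS : δ ∈ Sg := lt_of_le_of_lt h1 (by linarith [Real.pi_lt_d2])
  have := key (conj δ) (by simpa using h1) (by rw [(H.cj δ hS).2, norm_conj]; exact h2)
  rw [conj_im] at this
  linarith

end Vale.Agent.P097E
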