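import Vale.Agent.P097E.ModDefs

/-!
# P097E: the source of the circle model has one preimage
-/

set_option linter.all false

noncomputable section

namespace Vale.Agent.P097E

open Set Metric Complex ComplexConjugate Filter Topology

namespace P3

variable {sg Z : ℂ → ℂ}

lemma opn : IsOpen Sg := isOpen_lt (by fun_prop) continuous_const

lemma mem {δ : ℂ} (h : |δ.re| ≤ Real.pi) : δ ∈ Sg :=
  h.trans_lt (by linarith [Real.pi_lt_d2])

lemma memr {x : ℝ} (h : |x| ≤ Real.pi) : (x : ℂ) ∈ Sg := mem (by simpa using h)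

variable (H : Mod1 sg Z)
include H

lemma an {δ : ℂ} (h : δ ∈ Sg) : AnalyticAt ℂ Z δ := H.dZ.analyticAt (opn.mem_nhds h)

lemma dne {δ : ℂ} (h : |δ.re| < Real.pi) : deriv Z δ ≠ 0 := by
  by_cases e : δ = 0
  · rw [e, H.d0.2]; exact two_ne_zero
  intro h0
  have h1 := H.ode δ (mem h.le)
  rw [h0, zero_mul] at h1
  have h2 : sin δ = 0 := by
    simpa [(H.ne δ (mem h.le) e).2] using h1.symm
  obtain ⟨k, rfl⟩ := Complex.sin_eq_zero_iff.1 h2
  have h3 : |(k : ℝ)| * Real.pi < 1 * Real.pi := by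
    simpa [abs_mul, abs_of_pos Real.pi_pos] using h
  have h4 : |k| < 1 := by exact_mod_cast lt_of_mul_lt_mul_right h3 Real.pi_pos.le
  exact e (by simp [Int.abs_lt_one_iff.1 h4])

lemma real {x : ℝ} (h : |x| ≤ Real.pi) : (sg x).im = 0 ∧ (Z x).im = 0 := by
  have := H.cj x (memr h)
  rw [conj_ofReal] at this
  exact ⟨conj_eq_iff_im.1 this.1.symm, conj_eq_iff_im.1 this.2.symm⟩

lemma mono : StrictMonoOn (fun x : ℝ => (Z x).re) (Icc 0 Real.pi) := by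
  have hd : ∀ x ∈ Icc 0 Real.pi, HasDerivAt (fun x : ℝ => (Z x).re) (deriv Z x).re x :=
    fun x hx => (an H (memr (by rw [abs_of_nonneg hx.1]; exact hx.2))).differentiableAt.hasDerivAt.real_of_complex
  refine strictMonoOn_of_deriv_pos (convex_Icc _ _)
    (fun x hx => (hd x hx).continuousAt.continuousWithinAt) fun x hx => ?_
  rw [interior_Icc] at hx
  rw [(hd x (Ioo_subset_Icc_self hx)).deriv]
  have h0 : |x| ≤ Real.pi := by rw [abs_of_pos hx.1]; exact hx.2.le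
  obtain ⟨r1, r2⟩ := real H h0
  obtain ⟨p1, p2⟩ := H.pos x hx.1 (by linarith [Real.pi_lt_d2, hx.2])
  have h1 := congrArg re (H.ode x (memr h0))
  have h2 := Real.sin_pos_of_pos_of_lt_pi hx.1 hx.2
  rw [← ofReal_sin] at h1
  simp only [sq, mul_re, mul_im, r1, r2, ofReal_re, ofReal_im, mul_zero, zero_mul, sub_zero,
    add_zero, re_ofNat, im_ofNat] at h1
  exact (mul_pos_iff_of_pos_right (mul_pos p1 p1)).1 (by rw [h1]; positivity)

lemma neg {x : ℝ} (h : |x| ≤ Real.pi) (h0 : x ≤ 0) : (Z x).re ≤ 0 ∧ (x ≠ 0 → (Z x).re < 0) := by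
  have h1 := congrArg re (H.odd x (memr h)).2
  rw [neg_re] at h1
  have h2 : x ≠ 0 → (Z x).re < 0 := fun e => by
    have := (H.pos (-x) (by simpa using lt_of_le_of_ne h0 e)
      (by linarith [Real.pi_lt_d2, neg_abs_le x])).2
    rw [ofReal_neg] at this
    linarith
  refine ⟨?_, h2⟩
  by_cases e : x = 0
  · subst e; simp only [ofReal_zero, neg_zero] at h1 ⊢; linarith
  · exact (h2 e).le

lemma down {δ : ℂ} (h : |δ.re| < Real.pi) (hi : δ.im ≠ 0) (hr : (Z δ).im = 0)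
    (h0 : 0 ≤ (Z δ).re) : ∃ δ' : ℂ, |δ'.re| ≤ Real.pi ∧ δ'.im ≠ 0 ∧ (Z δ').im = 0 ∧
      0 ≤ (Z δ').re ∧ (Z δ').re < (Z δ).re := by
  have p : 0 < (Z δ).re := lt_of_le_of_ne h0 fun e =>
    (H.ne δ (mem h.le) fun e => hi (by simp [e])).2 (Complex.ext e.symm hr)
  have hU : {z : ℂ | |z.re| < Real.pi ∧ z.im ≠ 0} ∈ 𝓝 δ :=
    ((isOpen_lt (f := fun z : ℂ => |z.re|) (by fun_prop) continuous_const).inter
      (isOpen_ne_fun continuous_im continuous_const)).mem_nhds ⟨h, hi⟩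
  have h1 := image_mem_map (m := Z) hU
  rw [(an H (mem h.le)).hasStrictDerivAt.map_nhds_eq (dne H h),
    show Z δ = ((Z δ).re : ℝ) from Complex.ext rfl hr] at h1
  have h2 : ∀ᶠ t : ℝ in 𝓝[<] (Z δ).re, (t : ℂ) ∈ Z '' {z : ℂ | |z.re| < Real.pi ∧ z.im ≠ 0} :=
    nhdsWithin_le_nhds (continuous_ofReal.continuousAt.preimage_mem_nhds h1)
  obtain ⟨t, ⟨z, hz, e⟩, ht⟩ := (h2.and (Ioo_mem_nhdsLT p)).exists
  exact ⟨z, hz.1.le, hz.2, by simp [e], by simpa [e] using ht.1.le, by simpa [e] using ht.2⟩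

lemma cpt (h2 : MP2 Z) {T : Set ℂ} (hT : IsCompact T) :
    IsCompact ({δ : ℂ | |δ.re| ≤ Real.pi} ∩ Z ⁻¹' T) := by
  obtain ⟨R, hR⟩ := hT.isBounded.exists_norm_le
  obtain ⟨M, hM⟩ := h2 R
  refine isCompact_of_isClosed_isBounded
    ((H.dZ.continuousOn.mono fun _ => mem).preimage_isClosed_of_isClosed
      (isClosed_le (f := fun z : ℂ => |z.re|) (by fun_prop) continuous_const) hT.isClosed)
    (isBounded_iff_forall_norm_le.2 ⟨Real.pi + M, fun δ hδ => ?_⟩)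
  exact (norm_le_abs_re_add_abs_im δ).trans (add_le_add hδ.1 (hM δ hδ.1 (hR _ hδ.2)))

lemma loc {δ : ℂ} (h : |δ.re| < Real.pi) (hi : δ.im = 0) :
    ∀ᶠ z in 𝓝 δ, Z (conj z) = Z z → conj z = z := by
  have h1 := (an H (mem h.le)).hasStrictDerivAt.eventually_left_inverse (dne H h)
  have h2 : Tendsto (fun z : ℂ => conj z) (𝓝 δ) (𝓝 δ) := by
    simpa [conj_eq_iff_im.2 hi] using continuous_conj.tendsto δ
  filter_upwards [h1, h2.eventually h1] with z a b e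
  rw [← b, e, a]

lemma uniq (h1 : MP1 Z) (h2 : MP2 Z) {δ : ℂ} (h : |δ.re| ≤ Real.pi) (e : Z δ = Z Real.pi) :
    δ = Real.pi := by
  have pi1 : |Real.pi| ≤ Real.pi := (abs_of_pos Real.pi_pos).le
  have z0 := (H.pos _ Real.pi_pos (by linarith [Real.pi_lt_d2])).2
  have ins : ∀ z : ℂ, |z.re| ≤ Real.pi → z.im ≠ 0 → (Z z).im = 0 → 0 ≤ (Z z).re →
      (Z z).re ≤ (Z Real.pi).re → |z.re| < Real.pi := fun z a b c d f => lt_of_le_of_ne a fun g => by
    have := (h1 z g).2 b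
    rw [← abs_re_eq_norm.2 c, abs_of_nonneg d] at this
    linarith
  by_cases hi : δ.im = 0
  · obtain ⟨x, rfl⟩ : ∃ x : ℝ, δ = x := ⟨δ.re, Complex.ext rfl hi⟩
    rw [ofReal_re] at h
    have x0 : 0 ≤ x := by
      by_contra hx
      have := (neg H h (not_le.1 hx).le).1
      rw [e] at this; linarith
    rw [(mono H).injOn ⟨x0, (le_abs_self x).trans h⟩ ⟨Real.pi_pos.le, le_rfl⟩ (congrArg re e)]
  exfalso
  have r := (real H pi1).2
  obtain ⟨δ₁, a1, a2, a3, a4, a5⟩ := down H (ins δ h hi (by rw [e, r]) (by rw [e]; exact z0.le)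
    (by rw [e])) hi (by rw [e, r]) (by rw [e]; exact z0.le)
  rw [e] at a5
  have hT : IsCompact ((fun t : ℝ => (t : ℂ)) '' Icc 0 (Z δ₁).re) :=
    isCompact_Icc.image continuous_ofReal
  have mT : ∀ w : ℂ, w ∈ (fun t : ℝ => (t : ℂ)) '' Icc 0 (Z δ₁).re ↔
      w.im = 0 ∧ 0 ≤ w.re ∧ w.re ≤ (Z δ₁).re := fun w =>
    ⟨by rintro ⟨t, ht, rfl⟩; exact ⟨rfl, ht⟩, fun h => ⟨w.re, h.2, Complex.ext rfl h.1.symm⟩⟩
  have hB := (cpt H h2 hT).diff (isOpen_interior (s := {z | Z (conj z) = Z z → conj z = z}))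
  have inB : ∀ z : ℂ, |z.re| ≤ Real.pi → z.im ≠ 0 → (Z z).im = 0 → 0 ≤ (Z z).re →
      (Z z).re ≤ (Z δ₁).re → z ∈ ({δ : ℂ | |δ.re| ≤ Real.pi} ∩ Z ⁻¹'
        ((fun t : ℝ => (t : ℂ)) '' Icc 0 (Z δ₁).re)) \
          interior {z | Z (conj z) = Z z → conj z = z} := fun z a b c d f =>
    ⟨⟨a, (mT _).2 ⟨c, d, f⟩⟩, fun g => b (conj_eq_iff_im.1 (interior_subset g
      (by rw [(H.cj z (mem a)).2, conj_eq_iff_im.2 c])))⟩
  obtain ⟨w, ⟨⟨w1, w2⟩, w3⟩, hw⟩ := hB.exists_isMinOn ⟨δ₁, inB δ₁ a1 a2 a3 a4 le_rfl⟩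
    (f := fun z => (Z z).re)
    (continuous_re.comp_continuousOn (H.dZ.continuousOn.mono fun z hz => mem hz.1.1))
  obtain ⟨b1, b2, b3⟩ := (mT _).1 w2
  have wi : w.im ≠ 0 := fun g => by
    refine w3 (mem_interior_iff_mem_nhds.2 (loc H (lt_of_le_of_ne w1 fun k => ?_) g))
    obtain ⟨x, rfl⟩ : ∃ x : ℝ, w = x := ⟨w.re, Complex.ext rfl g⟩
    rw [ofReal_re] at k
    rcases (abs_eq Real.pi_pos.le).1 k with rfl | rfl
    · linarith
    · linarith [(neg H k.le (by linarith [Real.pi_pos])).2 (by linarith [Real.pi_pos])]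
  obtain ⟨δ₂, c1, c2, c3, c4, c5⟩ := down H (ins w w1 wi b1 b2 (by linarith)) wi b1 b2
  exact absurd (hw (inB δ₂ c1 c2 c3 c4 (by linarith))) (not_le.2 c5)

end P3

open P3 in
theorem mp3 : Spec_MP3 := by
  intro sg Z H h1 h2 η hη
  have hK := (cpt H h2 (isCompact_closedBall (Z Real.pi) 1)).diff
    (isOpen_ball (x := (Real.pi : ℂ)) (ε := η))
  obtain ⟨m, m0, hm⟩ := hK.exists_forall_le' (f := fun δ => ‖Z δ - Z Real.pi‖) (a := 0)
    ((H.dZ.continuousOn.mono fun z hz => mem hz.1.1).sub continuousOn_const).norm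
    fun δ hδ => norm_pos_iff.2 (sub_ne_zero.2 fun e => hδ.2 (by
      rw [uniq H h1 h2 hδ.1.1 e]; exact mem_ball_self hη))
  refine ⟨min 1 (m / 2), by positivity, fun δ a b => ?_⟩
  by_contra c
  have := hm δ ⟨⟨a, mem_closedBall_iff_norm.2 (b.trans (min_le_left _ _))⟩,
    fun d => c (mem_ball_iff_norm.1 d).le⟩
  linarith [b.trans (min_le_right _ _)]

end Vale.Agent.P097E
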