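import Vale.Agent.P097E.ModP0
import Vale.Agent.P097E.ModP1
import Vale.Agent.P097E.ModP2
import Vale.Agent.P097E.ModP3
import Vale.Agent.P097E.ModP4

/-!
# P097E: the model exists
-/

set_option linter.all false

namespace Vale.Agent.P097E

theorem md : Spec_MOD := by
  obtain ⟨sg, Z, H⟩ := m1
  exact ⟨sg, Z, _, H, (P1.Zpi H).1, (P1.Zpi H).2, mp0 sg Z H, fun δ h => (mp1 sg Z H δ h).1,
    mp2 sg Z H, mp3 sg Z H (mp1 sg Z H) (mp2 sg Z H), mp4 sg Z H⟩

end Vale.Agent.P097E
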