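import Vale.Agent.P097E.ModDefs

/-!
# P097E: construction of the model
-/

set_option linter.all false

noncomputable section

namespace Vale.Agent.P097E

open Set Metric Complex ComplexConjugate Filter Topology

namespace M1

lemma Sg_open : IsOpen Sg := isOpen_lt (by fun_prop) continuous_const

lemma Sg_convex : Convex ℝ Sg := by
  have : Sg = {δ : ℂ | -(7 / 2) < δ.re} ∩ {δ : ℂ | δ.re < 7 / 2} := by
    ext; simp [Sg, abs_lt]
  rw [this]
  exact (convex_halfSpace_re_gt _).inter (convex_halfSpace_re_lt _)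

lemma Sg_zero : (0 : ℂ) ∈ Sg := by simp [Sg]

lemma Sg_neg {δ : ℂ} (h : δ ∈ Sg) : -δ ∈ Sg := by simpa [Sg] using h

lemma Sg_conj {δ : ℂ} (h : δ ∈ Sg) : conj δ ∈ Sg := by simpa [Sg] using h

lemma Sm_der (δ : ℂ) : HasDerivAt Sm (δ * sin δ) δ :=
  ((Complex.hasDerivAt_sin δ).sub ((hasDerivAt_id δ).mul (Complex.hasDerivAt_cos δ))).congr_deriv
    (by simp)

lemma real_pos {x : ℝ} (h0 : 0 < x) (h1 : x < 7 / 2) : x * Real.cos x < Real.sin x := by
  rcases lt_or_ge x (Real.pi / 2) with h | h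
  · have := Real.lt_tan h0 h
    rwa [Real.tan_eq_sin_div_cos, lt_div_iff₀ (Real.cos_pos_of_mem_Ioo ⟨by linarith, h⟩)] at this
  rcases lt_or_ge x Real.pi with h' | h'
  · have h2 := Real.sin_pos_of_pos_of_lt_pi h0 h'
    have h3 := Real.cos_nonpos_of_pi_div_two_le_of_le h (by linarith)
    nlinarith
  · have p := Real.pi_gt_three
    have e1 : Real.sin x = -Real.sin (x - Real.pi) := by simp
    have e2 : Real.cos x = -Real.cos (x - Real.pi) := by simp
    have h2 := Real.sin_le (show 0 ≤ x - Real.pi by linarith)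
    have h3 := Real.one_sub_sq_div_two_le_cos (x := x - Real.pi)
    have h4 : (x - Real.pi) ^ 2 ≤ 1 / 4 := by nlinarith
    rw [e1, e2]
    nlinarith

lemma hyp_pos {y : ℝ} (h0 : 0 < y) : Real.sinh y < y * Real.cosh y := by
  have d : ∀ t : ℝ, HasDerivAt (fun t => t * Real.cosh t - Real.sinh t) (t * Real.sinh t) t :=
    fun t => (((hasDerivAt_id t).mul (Real.hasDerivAt_cosh t)).sub
      (Real.hasDerivAt_sinh t)).congr_deriv (by simp)
  have := strictMonoOn_of_deriv_pos (convex_Ici (0 : ℝ))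
    (f := fun t => t * Real.cosh t - Real.sinh t) (by fun_prop) (fun t ht => by
      rw [interior_Ici] at ht
      rw [(d t).deriv]
      exact mul_pos ht (Real.sinh_pos_iff.2 ht)) self_mem_Ici h0.le h0
  simpa using this

lemma Sm_ne' {x y : ℝ} (hx : 0 ≤ x) (hx' : x < 7 / 2) (hy : 0 ≤ y) (h : 0 < x ∨ 0 < y) :
    Sm (x + y * I) ≠ 0 := by
  intro e
  have e1 := congrArg re e
  have e2 := congrArg im e
  simp [Sm, sin_add_mul_I, cos_add_mul_I, sin_ofReal_re, cos_ofReal_re, sinh_ofReal_re,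
    cosh_ofReal_re] at e1 e2
  rcases hy.eq_or_lt with rfl | hy
  · have := real_pos (h.resolve_right (lt_irrefl _)) hx'
    simp at e1
    linarith
  rcases hx.eq_or_lt with rfl | hx
  · have := hyp_pos hy
    simp at e2
    linarith
  have a1 := Real.sin_sq_add_cos_sq x
  have a2 := Real.cosh_sq y
  have a3 : y * (Real.sin x * Real.cos x) = x * (Real.sinh y * Real.cosh y) := by
    have b1 := congrArg (· * (y * (Real.cos x * Real.cosh y) - x * (Real.sin x * Real.sinh y))) e1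
    have b2 := congrArg (· * (y * (Real.sin x * Real.sinh y) + x * (Real.cos x * Real.cosh y))) e2
    simp only [zero_mul] at b1 b2
    linear_combination b1 - b2 - y * Real.sin x * Real.cos x * a2
      + x * Real.sinh y * Real.cosh y * a1
  have a4 : Real.sin x * Real.cos x < x := by
    have := Real.sin_lt (show 0 < 2 * x by linarith)
    rw [Real.sin_two_mul] at this
    linarith
  have a5 : y < Real.sinh y * Real.cosh y := by
    have := Real.self_lt_sinh_iff.2 hy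
    nlinarith [Real.one_le_cosh y]
  nlinarith [mul_lt_mul_of_pos_left a4 hy, mul_lt_mul_of_pos_left a5 hx]

lemma Sm_neg (δ : ℂ) : Sm (-δ) = -Sm δ := by simp [Sm]; ring

lemma Sm_conj (δ : ℂ) : Sm (conj δ) = conj (Sm δ) := by simp [Sm, sin_conj, cos_conj]

lemma Sm_ne {δ : ℂ} (h : δ ∈ Sg) (h0 : δ ≠ 0) : Sm δ ≠ 0 := by
  have h1 : Sm ((|δ.re| : ℝ) + (|δ.im| : ℝ) * I) ≠ 0 :=
    Sm_ne' (abs_nonneg _) h (abs_nonneg _) (by
      by_contra hn
      simp only [abs_pos, ne_eq, not_or, not_not] at hn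
      exact h0 (Complex.ext hn.1 hn.2))
  intro e
  apply h1
  have c : Sm (conj δ) = 0 := by rw [Sm_conj, e, map_zero]
  rcases abs_cases δ.re with ⟨a, -⟩ | ⟨a, -⟩ <;> rcases abs_cases δ.im with ⟨b, -⟩ | ⟨b, -⟩ <;>
    rw [a, b]
  · rw [re_add_im, e]
  · rw [← c]; congr 1; apply Complex.ext <;> simp
  · rw [← neg_eq_zero, ← Sm_neg, ← c]; congr 1; apply Complex.ext <;> simp
  · rw [← neg_eq_zero, ← Sm_neg, ← e]; congr 1; apply Complex.ext <;> simp

/-- holomorphic on the strip, with parity `e`, real on the real line -/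
structure Sy (e : ℂ) (F : ℂ → ℂ) : Prop where
  d : DifferentiableOn ℂ F Sg
  p : ∀ δ ∈ Sg, F (-δ) = e * F δ
  c : ∀ δ ∈ Sg, F (conj δ) = conj (F δ)

variable {e : ℂ} {F : ℂ → ℂ}

lemma Sy.at (h : Sy e F) {δ : ℂ} (hδ : δ ∈ Sg) : HasDerivAt F (deriv F δ) δ :=
  (h.d.differentiableAt (Sg_open.mem_nhds hδ)).hasDerivAt

lemma Sy.der (h : Sy e F) : Sy (-e) (deriv F) := by
  refine ⟨h.d.deriv Sg_open, fun δ hδ => ?_, fun δ hδ => ?_⟩
  · have h1 := (h.at (Sg_neg hδ)).comp δ (hasDerivAt_neg δ)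
    have h2 := ((h.at hδ).const_mul e).congr_of_eventuallyEq
      (f₁ := F ∘ Neg.neg) (Eventually.mono (Sg_open.mem_nhds hδ) h.p)
    linear_combination -h1.unique h2
  · refine HasDerivAt.deriv (((h.at hδ).conj_conj).congr_of_eventuallyEq ?_)
    filter_upwards [Sg_open.mem_nhds (Sg_conj hδ)] with x hx
    simp [h.c x hx]

lemma Sy.dsl (h : Sy e F) : Sy (-e) (dslope F 0) := by
  refine ⟨(differentiableOn_dslope (Sg_open.mem_nhds Sg_zero)).2 h.d, fun δ hδ => ?_,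
    fun δ hδ => ?_⟩
  · rcases eq_or_ne δ 0 with rfl | h0
    · simpa using h.der.p 0 Sg_zero
    · have h1 := h.p 0 Sg_zero
      rw [neg_zero] at h1
      rw [dslope_of_ne _ h0, dslope_of_ne _ (neg_ne_zero.2 h0), slope_def_field, slope_def_field,
        h.p δ hδ, sub_zero, sub_zero, div_neg]
      linear_combination δ⁻¹ * h1
  · rcases eq_or_ne δ 0 with rfl | h0
    · simpa using h.der.c 0 Sg_zero
    · have h1 := h.c 0 Sg_zero
      rw [map_zero] at h1
      rw [dslope_of_ne _ h0, dslope_of_ne _ ((map_ne_zero _).2 h0), slope_def_field,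
        slope_def_field, h.c δ hδ]
      simp [← h1]

lemma Sy.prim (h : Sy (-1) F) :
    ∃ L : ℂ → ℂ, Sy 1 L ∧ L 0 = 0 ∧ ∀ δ ∈ Sg, HasDerivAt L (F δ) δ := by
  obtain ⟨G, hG⟩ := Sg_convex.exists_forall_hasDerivWithinAt h.d
  have d : ∀ δ ∈ Sg, HasDerivAt (fun x => G x - G 0) (F δ) δ := fun δ hδ =>
    ((hG δ hδ).hasDerivAt (Sg_open.mem_nhds hδ)).sub_const _
  have u : ∀ G' : ℂ → ℂ, (∀ δ ∈ Sg, HasDerivAt G' (F δ) δ) → G' 0 = 0 →
      EqOn G' (fun x => G x - G 0) Sg := fun G' h1 h2 =>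
    Sg_open.eqOn_of_deriv_eq Sg_convex.isPreconnected
      (fun δ hδ => (h1 δ hδ).differentiableAt.differentiableWithinAt)
      (fun δ hδ => (d δ hδ).differentiableAt.differentiableWithinAt)
      (fun δ hδ => (h1 δ hδ).deriv.trans (d δ hδ).deriv.symm) Sg_zero (by simp [h2])
  refine ⟨_, ⟨fun δ hδ => (d δ hδ).differentiableAt.differentiableWithinAt, fun δ hδ => ?_,
    fun δ hδ => ?_⟩, by simp, d⟩
  · rw [one_mul]
    exact u (fun x => G (-x) - G 0) (fun x hx =>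
      ((d _ (Sg_neg hx)).comp x (hasDerivAt_neg x)).congr_deriv (by simp [h.p x hx])) (by simp) hδ
  · have := u (conj ∘ (fun x => G x - G 0) ∘ conj) (fun x hx => by
      simpa [h.c x hx] using (d _ (Sg_conj hx)).conj_conj) (by simp) hδ
    simpa using congrArg conj this

lemma fac (F : ℂ → ℂ) (h : F 0 = 0) (δ : ℂ) : F δ = δ * dslope F 0 δ := by
  simpa [h] using (sub_smul_dslope F 0 δ).symm

lemma sy_Sm : Sy (-1) Sm :=
  ⟨fun δ _ => (Sm_der δ).differentiableAt.differentiableWithinAt, fun δ _ => by simp [Sm_neg],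
    fun δ _ => Sm_conj δ⟩

lemma sy_sin : Sy (-1) sin :=
  ⟨differentiable_sin.differentiableOn, fun δ _ => by simp, fun δ _ => sin_conj δ⟩

lemma exB : ∃ A B : ℂ → ℂ, Sy 1 A ∧ Sy 1 B ∧ A 0 = 1 ∧ B 0 = 1 ∧ (∀ δ, sin δ = δ * A δ) ∧
    ∀ δ, 3 * Sm δ = δ ^ 3 * B δ := by
  have s1 := sy_Sm.dsl
  have s2 := s1.dsl
  have s3 := s2.dsl
  have sA := sy_sin.dsl
  simp only [neg_neg] at s1 s2 s3 sA
  set S3 := dslope (dslope (dslope Sm 0) 0) 0
  set A := dslope sin 0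
  have A0 : A 0 = 1 := by simp [A]
  have eA := fac sin sin_zero
  have e : ∀ δ, Sm δ = δ ^ 3 * S3 δ := fun δ => by
    rw [fac Sm (by simp [Sm]) δ, fac (dslope Sm 0) (by simp [(Sm_der 0).deriv]) δ,
      fac (dslope (dslope Sm 0) 0) (by linear_combination (1 / 2 : ℂ) * (by
        simpa using s2.p 0 Sg_zero : dslope (dslope Sm 0) 0 0 = -dslope (dslope Sm 0) 0 0)) δ]
    ring
  have n := Sg_open.mem_nhds Sg_zero
  have e3 : A =ᶠ[𝓝[≠] 0] fun δ => 3 * S3 δ + δ * deriv S3 δ := by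
    filter_upwards [mem_nhdsWithin_of_mem_nhds n, self_mem_nhdsWithin] with δ hδ h0
    have h1 := ((hasDerivAt_pow 3 δ).mul (s3.at hδ)).congr_of_eventuallyEq
      (f₁ := Sm) (.of_forall e)
    have h2 := h1.unique (Sm_der δ)
    rw [eA δ] at h2
    refine mul_left_cancel₀ (pow_ne_zero 2 h0) ?_
    simp only [Nat.cast_ofNat, Nat.add_one_sub_one] at h2
    linear_combination -h2
  have c1 : ContinuousAt A 0 := (sA.at Sg_zero).continuousAt
  have c2 : ContinuousAt (fun δ => 3 * S3 δ + δ * deriv S3 δ) 0 :=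
    (continuousAt_const.mul (s3.at Sg_zero).continuousAt).add
      (continuousAt_id.mul (s3.der.at Sg_zero).continuousAt)
  have := tendsto_nhds_unique_of_eventuallyEq (c1.tendsto.mono_left nhdsWithin_le_nhds)
    (c2.tendsto.mono_left nhdsWithin_le_nhds) e3
  refine ⟨A, fun δ => 3 * S3 δ, sA, ⟨s3.d.const_mul 3, fun δ hδ => by simp [s3.p δ hδ],
    fun δ hδ => by simp [s3.c δ hδ, map_ofNat]⟩, A0, by simpa [A0] using this.symm, eA,
    fun δ => by rw [e]; ring⟩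

lemma two_exp {L : ℂ → ℂ} (h : Sy 1 L) (h0 : L 0 = 0) :
    DifferentiableOn ℂ (fun δ => 2 * δ * exp (L δ)) Sg ∧
    (∀ δ ∈ Sg, 2 * (-δ) * exp (L (-δ)) = -(2 * δ * exp (L δ))) ∧
    (∀ δ ∈ Sg, 2 * conj δ * exp (L (conj δ)) = conj (2 * δ * exp (L δ))) ∧
    (∀ δ ∈ Sg, deriv (fun δ => 2 * δ * exp (L δ)) δ = 2 * exp (L δ) * (1 + δ * deriv L δ)) ∧
    ∀ x : ℝ, 0 < x → x < 7 / 2 → 0 < (2 * x * exp (L x)).re := by
  refine ⟨(differentiableOn_id.const_mul 2).mul h.d.cexp, fun δ hδ => by simp [h.p δ hδ],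
    fun δ hδ => by simp [h.c δ hδ, exp_conj, map_ofNat], fun δ hδ => ?_, fun x h1 h2 => ?_⟩
  · refine ((((hasDerivAt_id δ).const_mul 2).mul (h.at hδ).cexp).congr_deriv ?_).deriv
    simp only [id]
    ring
  · have : L x = conj (L x) := by
      simpa using h.c x (by simpa [Sg, abs_of_pos h1] using h2)
    rw [← (conj_eq_iff_re.1 this.symm)]
    norm_cast
    positivity

end M1

open M1

theorem m1 : Spec_M1 := by
  obtain ⟨A, B, sA, sB, A0, B0, eA, eB⟩ := exB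
  have Bn : ∀ δ ∈ Sg, B δ ≠ 0 := fun δ hδ e => by
    rcases eq_or_ne δ 0 with rfl | h0
    · simp [B0] at e
    · exact Sm_ne hδ h0 (by simpa [e] using eB δ)
  obtain ⟨L, sL, L0, dL⟩ := Sy.prim (F := fun δ => deriv B δ / (3 * B δ))
    ⟨sB.der.d.div (sB.d.const_mul 3) fun δ hδ => mul_ne_zero three_ne_zero (Bn δ hδ),
      fun δ hδ => by simp [sB.der.p δ hδ, sB.p δ hδ, neg_div],
      fun δ hδ => by simp [sB.der.c δ hδ, sB.c δ hδ, map_ofNat]⟩
  have dq : ∀ δ ∈ Sg, HasDerivAt (fun x => exp (L x) ^ 3 / B x) 0 δ := fun δ hδ =>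
    (((dL δ hδ).cexp.pow 3).div (sB.at hδ) (Bn δ hδ)).congr_deriv (by
      have := Bn δ hδ
      simp only [Pi.pow_apply]
      field_simp
      push_cast
      ring)
  have eL : ∀ δ ∈ Sg, exp (L δ) ^ 3 = B δ := fun δ hδ => by
    have := Sg_open.eqOn_of_deriv_eq Sg_convex.isPreconnected
      (fun δ hδ => (dq δ hδ).differentiableAt.differentiableWithinAt)
      (differentiableOn_const (1 : ℂ)) (fun δ hδ => by simp [(dq δ hδ).deriv]) Sg_zero
      (by simp [L0, B0]) hδ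
    exact (div_eq_one_iff_eq (Bn δ hδ)).1 this
  have sG : Sy 1 fun δ => A δ / exp (L δ) ^ 2 :=
    ⟨sA.d.div (sL.d.cexp.pow 2) fun δ _ => pow_ne_zero _ (exp_ne_zero _),
      fun δ hδ => by simp [sA.p δ hδ, sL.p δ hδ],
      fun δ hδ => by simp [sA.c δ hδ, sL.c δ hδ, exp_conj]⟩
  obtain ⟨P, sP, P0, dP⟩ := sG.dsl.prim
  obtain ⟨a1, a2, a3, a4, a5⟩ := two_exp sL L0
  obtain ⟨b1, b2, b3, b4, b5⟩ := two_exp sP P0
  refine ⟨fun δ => 2 * δ * exp (L δ), fun δ => 2 * δ * exp (P δ), a1, b1, fun δ hδ => ?_,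
    fun δ _ h0 => ⟨by simp [h0], by simp [h0]⟩, fun δ hδ => ?_, fun δ hδ => ⟨a2 δ hδ, b2 δ hδ⟩,
    fun δ hδ => ⟨a3 δ hδ, b3 δ hδ⟩, ⟨by simp [a4 0 Sg_zero, L0], by simp [b4 0 Sg_zero, P0]⟩,
    fun x h1 h2 => ⟨a5 x h1 h2, b5 x h1 h2⟩⟩
  · linear_combination 8 * δ ^ 3 * eL δ hδ - 8 * eB δ
  · have h1 := sub_smul_dslope (fun δ => A δ / exp (L δ) ^ 2) 0 δ
    simp only [sub_zero, smul_eq_mul, A0, L0, exp_zero, one_pow, div_one] at h1
    rw [b4 δ hδ, (dP δ hδ).deriv, h1, eA δ]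
    have := exp_ne_zero (L δ)
    field_simp
    ring

end Vale.Agent.P097E
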