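import Vale.Agent.P097E.ModDefs

/-!
# P097E: one step of the circle map almost conserves the two integrals
-/

set_option linter.all false

noncomputable section

namespace Vale.Agent.P097E

open Set Metric Complex ComplexConjugate

namespace OneAux

/-- uniform Taylor estimate of the first order near a compact set -/
theorem tay {U K : Set ℂ} (hU : IsOpen U) (hK : IsCompact K) (hs : K ⊆ U) {F : ℂ → ℂ}
    (hF : DifferentiableOn ℂ F U) : ∃ ρ C : ℝ, 0 < ρ ∧ 0 ≤ C ∧ ∀ δ ∈ K, ‖deriv F δ‖ ≤ C ∧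
      ∀ δ', ‖δ' - δ‖ ≤ ρ → δ' ∈ U ∧ ‖F δ' - F δ - deriv F δ * (δ' - δ)‖ ≤ C * ‖δ' - δ‖ ^ 2 := by
  obtain ⟨ρ, r0, hρ⟩ := hK.exists_cthickening_subset_open hU hs
  have d1 : DifferentiableOn ℂ (deriv F) U := hF.deriv hU
  have d2 : DifferentiableOn ℂ (deriv (deriv F)) U := d1.deriv hU
  obtain ⟨M, hM⟩ := (hK.cthickening (r := ρ)).exists_bound_of_continuousOn
    (d2.continuousOn.mono hρ)
  obtain ⟨M', hM'⟩ := hK.exists_bound_of_continuousOn (d1.continuousOn.mono hs)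
  refine ⟨ρ, |M| + |M'|, r0, by positivity, fun δ hδ => ⟨?_, fun δ' h => ?_⟩⟩
  · linarith [hM' δ hδ, le_abs_self M', abs_nonneg M]
  have sb : closedBall δ ‖δ' - δ‖ ⊆ cthickening ρ K :=
    (closedBall_subset_closedBall h).trans (closedBall_subset_cthickening hδ ρ)
  have m1 : δ' ∈ closedBall δ ‖δ' - δ‖ := by rw [mem_closedBall, dist_eq_norm]
  have m0 : δ ∈ closedBall δ ‖δ' - δ‖ := mem_closedBall_self (norm_nonneg _)
  refine ⟨hρ (sb m1), ?_⟩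
  have a1 : ∀ z ∈ closedBall δ ‖δ' - δ‖, ‖deriv F z - deriv F δ‖ ≤ |M| * ‖δ' - δ‖ := by
    intro z hz
    refine ((convex_closedBall δ _).norm_image_sub_le_of_norm_deriv_le (C := |M|)
      (fun x hx => d1.differentiableAt (hU.mem_nhds (hρ (sb hx))))
      (fun x hx => (hM x (sb hx)).trans (le_abs_self M)) m0 hz).trans ?_
    rw [mem_closedBall, dist_eq_norm] at hz
    exact mul_le_mul_of_nonneg_left hz (abs_nonneg M)
  have a2 := (convex_closedBall δ ‖δ' - δ‖).norm_image_sub_le_of_norm_hasDerivWithin_le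
    (f := fun z => F z - deriv F δ * z) (f' := fun z => deriv F z - deriv F δ)
    (C := |M| * ‖δ' - δ‖) (fun x hx => (HasDerivAt.congr_deriv
      ((hF.differentiableAt (hU.mem_nhds (hρ (sb hx)))).hasDerivAt.sub
        ((hasDerivAt_id' x).const_mul (deriv F δ))) (by rw [mul_one])).hasDerivWithinAt) a1 m0 m1
  have e : F δ' - F δ - deriv F δ * (δ' - δ) =
      F δ' - deriv F δ * δ' - (F δ - deriv F δ * δ) := by ring
  rw [e]
  refine a2.trans ?_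
  have := mul_nonneg (abs_nonneg M') (sq_nonneg ‖δ' - δ‖)
  nlinarith

theorem prod_le {a E₁ E₃ : ℂ} {A d e : ℝ} (A0 : 0 ≤ A) (d0 : 0 ≤ d) (d1 : d ≤ 1) (e0 : 0 ≤ e)
    (e1 : e ≤ 1) (ha : ‖a‖ ≤ A * e) (h1 : ‖E₁‖ ≤ A * ((d + e) * e))
    (h3 : ‖E₃‖ ≤ A * ((d + e) * e)) :
    ‖(1 - a + E₃) * (1 + a + E₁) - 1‖ ≤ (5 * A ^ 2 + 2 * A) * ((d + e) * e) := by
  obtain ⟨t, ht⟩ : ∃ t, t = (d + e) * e := ⟨_, rfl⟩
  rw [← ht] at h1 h3 ⊢
  have t0 : 0 ≤ t := by rw [ht]; positivity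
  have t2 : t ≤ 2 := by rw [ht]; nlinarith
  have t3 : e ^ 2 ≤ t := by rw [ht]; nlinarith
  have a1 : ‖a‖ ≤ A := ha.trans (mul_le_of_le_one_right A0 e1)
  have a3 : ‖E₃‖ ≤ 2 * A := h3.trans (by nlinarith)
  have id : (1 - a + E₃) * (1 + a + E₁) - 1 = -a ^ 2 + E₁ * (1 - a + E₃) + E₃ * (1 + a) := by
    ring
  have b1 : ‖-a ^ 2‖ ≤ A ^ 2 * t := by
    rw [norm_neg, norm_pow]
    calc _ ≤ (A * e) ^ 2 := pow_le_pow_left₀ (norm_nonneg _) ha 2
      _ = A ^ 2 * e ^ 2 := by ring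
      _ ≤ _ := mul_le_mul_of_nonneg_left t3 (sq_nonneg A)
  have b2 : ‖E₁ * (1 - a + E₃)‖ ≤ A * t * (1 + 3 * A) := by
    rw [norm_mul]
    refine mul_le_mul h1 ?_ (norm_nonneg _) (by positivity)
    have := norm_add_le (1 - a) E₃
    have := norm_sub_le 1 a
    rw [norm_one] at this
    linarith
  have b3 : ‖E₃ * (1 + a)‖ ≤ A * t * (1 + A) := by
    rw [norm_mul]
    refine mul_le_mul h3 ?_ (norm_nonneg _) (by positivity)
    have := norm_add_le 1 a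
    rw [norm_one] at this
    linarith
  rw [id]
  refine (norm_add₃_le).trans ?_
  linarith

theorem Sg_open : IsOpen Sg := isOpen_lt (by fun_prop) continuous_const

theorem dsg {sg Z : ℂ → ℂ} (m : Mod1 sg Z) {δ : ℂ} (h : δ ∈ Sg) :
    3 * sg δ ^ 2 * deriv sg δ = 24 * (δ * sin δ) := by
  have a1 : HasDerivAt (fun z => sg z ^ 3) (3 * sg δ ^ 2 * deriv sg δ) δ :=
    ((m.dsg.differentiableAt (Sg_open.mem_nhds h)).hasDerivAt.pow 3).congr_deriv (by norm_num)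
  have a2 : HasDerivAt (fun z => 24 * Sm z) (24 * (δ * sin δ)) δ :=
    (((hasDerivAt_sin δ).sub ((hasDerivAt_id' δ).mul (hasDerivAt_cos δ))).const_mul
      24).congr_deriv (by ring)
  exact a1.unique (a2.congr_of_eventuallyEq
    (Filter.eventually_of_mem (Sg_open.mem_nhds h) fun z hz => m.cube z hz))

end OneAux

open OneAux in
theorem one : Spec_ONE := by
  intro sg Z m K hK hs hsin B B0
  have hU : IsOpen (Sg \ {0}) := Sg_open.sdiff isClosed_singleton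
  have k0 : ∀ δ ∈ K, δ ≠ 0 := fun δ h e => hsin δ h (by rw [e, sin_zero])
  have sU : K ⊆ Sg \ {0} := fun δ h => ⟨hs h, k0 δ h⟩
  have dF : DifferentiableOn ℂ (fun z => (sg z)⁻¹) (Sg \ {0}) :=
    (m.dsg.mono diff_subset).inv fun z hz => (m.ne z hz.1 hz.2).1
  obtain ⟨ρ₁, C₁, r1, c1, t1⟩ := tay hU hK sU dF
  obtain ⟨ρ₂, C₂, r2, c2, t2⟩ := tay hU hK sU (m.dZ.mono diff_subset)
  obtain ⟨M₁, m1⟩ := hK.exists_bound_of_continuousOn (m.dsg.continuousOn.mono hs)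
  obtain ⟨M₂, m2⟩ := hK.exists_bound_of_continuousOn ((m.dZ.continuousOn.mono hs).inv₀
    fun z hz => (m.ne z (hs hz) (k0 z hz)).2)
  obtain ⟨M₃, m3⟩ := hK.exists_bound_of_continuousOn (f := fun z => z) continuousOn_id
  obtain ⟨M₄, m4⟩ := hK.exists_bound_of_continuousOn (f := fun z => Sm z / sin z)
    (ContinuousOn.div (by unfold Sm; fun_prop) (by fun_prop) hsin)
  obtain ⟨M, hM⟩ : ∃ M, M = 1 + C₁ + C₂ + |M₁| + |M₂| + |M₃| + |M₄| := ⟨_, rfl⟩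
  have := abs_nonneg M₁
  have := abs_nonneg M₂
  have := abs_nonneg M₃
  have := abs_nonneg M₄
  have M1 : 1 ≤ M := by linarith
  have M0 : 0 ≤ M := by linarith
  obtain ⟨D, hD⟩ : ∃ D, D = 6 * B * M + 1 := ⟨_, rfl⟩
  have BM : 0 ≤ B * M := mul_nonneg B0 M0
  have D1 : 1 ≤ D := by linarith
  have D0 : 0 < D := by linarith
  obtain ⟨A, hA⟩ : ∃ A, A = M ^ 2 * D ^ 2 := ⟨_, rfl⟩
  have M2 : 1 ≤ M ^ 2 := one_le_pow₀ M1
  have D2 : D ≤ D ^ 2 := le_self_pow₀ D1 (by norm_num)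
  have A1 : D ^ 2 ≤ A := by rw [hA]; exact le_mul_of_one_le_left (sq_nonneg D) M2
  have A2 : M ^ 2 ≤ A := by rw [hA]; exact le_mul_of_one_le_right (sq_nonneg M) (by linarith)
  have A0 : 0 ≤ A := by linarith
  have AC : A ≤ 5 * A ^ 2 + 2 * A := by nlinarith
  refine ⟨5 * A ^ 2 + 2 * A, min 1 (min ρ₁ ρ₂) / D, by linarith, by positivity, ?_⟩
  intro d e y δ y' δ' d0 d1 e0 e1 hδ hy hS
  obtain ⟨s1, s2⟩ := hS
  rw [le_div_iff₀ D0] at e1
  have eD1 : e * D ≤ 1 := e1.trans (min_le_left _ _)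
  have eD2 : e * D ≤ ρ₁ := e1.trans ((min_le_right _ _).trans (min_le_left _ _))
  have eD3 : e * D ≤ ρ₂ := e1.trans ((min_le_right _ _).trans (min_le_right _ _))
  have e1' : e ≤ 1 := (le_mul_of_one_le_right e0 D1).trans eD1
  have de : d * e ≤ e := mul_le_of_le_one_left e0 d1
  have de0 : 0 ≤ d * e := mul_nonneg d0 e0
  obtain ⟨q, hq⟩ : ∃ q : ℂ, q = e * exp (I * y) := ⟨_, rfl⟩
  have nq : ‖q‖ ≤ e * B := by
    rw [hq, norm_mul, norm_real, Real.norm_of_nonneg e0]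
    exact mul_le_mul_of_nonneg_left hy e0
  have n1 : ‖sg δ‖ ≤ M := by linarith [m1 δ hδ, le_abs_self M₁]
  have n2 : ‖(Z δ)⁻¹‖ ≤ M := by
    have : ‖(Z δ)⁻¹‖ ≤ M₂ := m2 δ hδ
    linarith [le_abs_self M₂]
  have n3 : ‖δ‖ ≤ M := by linarith [m3 δ hδ, le_abs_self M₃]
  have n4 : ‖Sm δ / sin δ‖ ≤ M := by linarith [m4 δ hδ, le_abs_self M₄]
  obtain ⟨r₁, hr₁⟩ : ∃ r₁, r₁ = y' - y - 2 * q * δ := ⟨_, rfl⟩
  obtain ⟨r₂, hr₂⟩ : ∃ r₂, r₂ = δ' - δ + 6 * I * q * (Sm δ / sin δ) := ⟨_, rfl⟩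
  have s1' : ‖r₁‖ ≤ d * e := by
    rw [hr₁, hq]
    exact (congrArg norm (by ring)).trans_le s1
  have s2' : ‖r₂‖ ≤ d * e := by
    rw [hr₂, hq]
    exact (congrArg norm (by ring)).trans_le s2
  have eB : 0 ≤ e * B := mul_nonneg e0 B0
  have na : ‖2 * I * q * δ‖ ≤ 2 * (e * B * M) := by
    rw [norm_mul, norm_mul, norm_mul, norm_I, norm_ofNat, mul_one, mul_assoc]
    exact mul_le_mul_of_nonneg_left (mul_le_mul nq n3 (norm_nonneg _) eB) zero_le_two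
  have nb : ‖6 * I * q * (Sm δ / sin δ)‖ ≤ 6 * (e * B * M) := by
    rw [norm_mul, norm_mul, norm_mul, norm_I, norm_ofNat, mul_one, mul_assoc]
    exact mul_le_mul_of_nonneg_left (mul_le_mul nq n4 (norm_nonneg _) eB) (by norm_num)
  have eBM : 0 ≤ e * B * M := mul_nonneg eB M0
  have eD : e * D = 6 * (e * B * M) + e := by rw [hD]; ring
  have nh : ‖δ' - δ‖ ≤ e * D := by
    have : δ' - δ = r₂ - 6 * I * q * (Sm δ / sin δ) := by rw [hr₂]; ring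
    rw [this]
    linarith [norm_sub_le r₂ (6 * I * q * (Sm δ / sin δ))]
  have nh2 : ‖δ' - δ‖ ^ 2 ≤ D ^ 2 * e ^ 2 := by
    calc _ ≤ (e * D) ^ 2 := pow_le_pow_left₀ (norm_nonneg _) nh 2
      _ = _ := by ring
  have eu : -(I * (y' - y)) = -(2 * I * q * δ) - I * r₁ := by rw [hr₁]; ring
  have nI : ‖I * r₁‖ ≤ d * e := by rwa [norm_mul, norm_I, one_mul]
  have nu : ‖-(I * (y' - y))‖ ≤ e * D := by
    rw [eu]
    have := norm_sub_le (-(2 * I * q * δ)) (I * r₁)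
    rw [norm_neg] at this
    linarith
  obtain ⟨u1, u2⟩ := t1 δ hδ
  obtain ⟨v1, v2⟩ := t2 δ hδ
  obtain ⟨u3, u4⟩ := u2 δ' (nh.trans eD2)
  obtain ⟨-, v4⟩ := v2 δ' (nh.trans eD3)
  obtain ⟨z1, z2⟩ := m.ne δ (hs hδ) (k0 δ hδ)
  have sn := hsin δ hδ
  have cb := m.cube δ (hs hδ)
  have e2 : 0 ≤ e ^ 2 := sq_nonneg e
  have key : ∀ (p g E : ℂ) (c : ℝ), 0 ≤ c → c ≤ M → ‖p‖ ≤ M → ‖g‖ ≤ c → ‖E‖ ≤ c * ‖δ' - δ‖ ^ 2 →
      ‖p * (g * r₂ + E)‖ ≤ A * ((d + e) * e) := by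
    intro p g E c c0 cM hp hg hE
    have a1 : ‖g * r₂‖ ≤ M * (d * e) := by
      rw [norm_mul]
      exact mul_le_mul (hg.trans cM) s2' (norm_nonneg _) M0
    have a2 : ‖E‖ ≤ M * (D ^ 2 * e ^ 2) := hE.trans (mul_le_mul cM nh2 (sq_nonneg _) M0)
    rw [norm_mul]
    refine (mul_le_mul hp ((norm_add_le _ _).trans (add_le_add a1 a2)) (norm_nonneg _) M0).trans ?_
    have a3 := mul_le_mul_of_nonneg_right A2 de0
    calc _ = M ^ 2 * (d * e) + A * e ^ 2 := by rw [hA]; ring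
      _ ≤ A * (d * e) + A * e ^ 2 := by linarith
      _ = _ := by ring
  have t0 : 0 ≤ (d + e) * e := by positivity
  refine ⟨u3.1, u3.2, nh.trans ?_, ?_, ?_⟩
  · rw [mul_comm]
    exact mul_le_mul_of_nonneg_right (by linarith) e0
  · have k1 := key (sg δ) _ _ C₁ c1 (by linarith) n1 u1 u4
    have k2 := norm_exp_sub_one_sub_id_le (nu.trans eD1)
    have k3 : ‖exp (-(I * (y' - y))) - 1 - -(I * (y' - y)) - I * r₁‖ ≤ A * ((d + e) * e) := by
      refine (norm_sub_le _ _).trans ?_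
      have b1 : ‖-(I * (y' - y))‖ ^ 2 ≤ (e * D) ^ 2 := pow_le_pow_left₀ (norm_nonneg _) nu 2
      have b2 := mul_le_mul_of_nonneg_right A1 e2
      have b3 := mul_le_mul_of_nonneg_right (show 1 ≤ A by linarith) de0
      have b4 : (e * D) ^ 2 = D ^ 2 * e ^ 2 := by ring
      have b5 : A * ((d + e) * e) = A * e ^ 2 + A * (d * e) := by ring
      linarith only [b1, b2, b3, b4, b5, k2, nI]
    have k5 : 2 * (e * B * M) ≤ A * e := by
      have b1 := mul_le_mul_of_nonneg_left (D2.trans A1) e0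
      linarith only [b1, eD, eBM, e0]
    have k4 := prod_le (a := 2 * I * q * δ) A0 d0 d1 e0 e1' (na.trans k5) k1 k3
    rw [mul_assoc]
    refine (congrArg norm ?_).trans_le k4
    have dv : deriv (fun z => (sg z)⁻¹) δ = -deriv sg δ / sg δ ^ 2 :=
      ((m.dsg.differentiableAt (Sg_open.mem_nhds (hs hδ))).hasDerivAt.inv z1).deriv
    have ds : deriv sg δ = 8 * (δ * sin δ) / sg δ ^ 2 := by
      rw [eq_div_iff (pow_ne_zero 2 z1)]
      linear_combination (1 / 3 : ℂ) * dsg m (hs hδ)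
    have sm : Sm δ = sg δ ^ 3 / 24 := by rw [cb]; ring
    have f1 : 1 - 2 * I * q * δ + (exp (-(I * (y' - y))) - 1 - -(I * (y' - y)) - I * r₁) =
        exp (-(I * (y' - y))) := by rw [hr₁]; ring
    rw [f1, mul_div_assoc, dv, ds, hr₂, sm]
    congr 2
    field_simp
    ring
  · have k1 := key (Z δ)⁻¹ _ _ C₂ c2 (by linarith) n2 v1 v4
    rw [mul_assoc (5 * A ^ 2 + 2 * A)]
    refine ((congrArg norm ?_).trans_le k1).trans (mul_le_mul_of_nonneg_right AC t0)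
    have dz : deriv Z δ = 4 * sin δ * Z δ / sg δ ^ 2 := by
      rw [eq_div_iff (pow_ne_zero 2 z1)]
      exact m.ode δ (hs hδ)
    have sm : Sm δ = sg δ ^ 3 / 24 := by rw [cb]; ring
    rw [dz, hr₂, sm, mul_assoc I, ← hq]
    field_simp
    ring

end Vale.Agent.P097E
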