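import Vale.Agent.P097E.ModDefs

/-!
# P097E: the model near the origin (row **MP0**)
-/

set_option linter.all false

noncomputable section

namespace Vale.Agent.P097E

open Set Metric Complex Filter Topology

namespace MP0A

/-- Schwarz for an even function -/
theorem schwarz {f : ℂ → ℂ} {k M : ℝ} (hd : DifferentiableOn ℂ f (ball 0 k))
    (ev : ∀ w ∈ ball (0 : ℂ) k, f (-w) = f w) (hM : ∀ w ∈ ball (0 : ℂ) k, ‖f w - f 0‖ ≤ M)
    {w : ℂ} (hw : w ∈ ball (0 : ℂ) k) : ‖f w - f 0‖ ≤ M * (‖w‖ / k) ^ 2 := by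
  have k0 : 0 < k := nonempty_ball.1 ⟨w, hw⟩
  have h1 : HasDerivAt f (deriv f 0) 0 := (hd.differentiableAt (ball_mem_nhds 0 k0)).hasDerivAt
  have h2 : HasDerivAt (fun w => f (-w)) (deriv f 0 * -1) 0 :=
    HasDerivAt.comp_of_eq 0 h1 (hasDerivAt_neg 0) neg_zero.symm
  have h3 : HasDerivAt f (deriv f 0 * -1) 0 := by
    refine h2.congr_of_eventuallyEq ?_
    filter_upwards [ball_mem_nhds 0 k0] with z hz using (ev z hz).symm
  have h4 : deriv f 0 = 0 := by
    have := h1.unique h3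
    linear_combination this / 2
  rw [h4] at h1
  have h5 := Complex.dist_le_mul_div_pow_of_mapsTo_ball_of_isLittleO (n := 1) (R₂ := M) hd
    (fun z hz => mem_closedBall_iff_norm.2 (hM z hz)) (by
      have := h1.isLittleO.norm_right
      simpa using this) hw
  simpa [dist_eq_norm] using h5

theorem odd3 {F : ℂ → ℂ} (hd : DifferentiableOn ℂ F Sg) (odd : ∀ δ ∈ Sg, F (-δ) = -F δ)
    (d0 : deriv F 0 = 2) : ∃ C : ℝ, 0 ≤ C ∧ ∀ δ : ℂ, ‖δ‖ ≤ 1 → ‖F δ - 2 * δ‖ ≤ C * ‖δ‖ ^ 3 := by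
  have sub : ball (0 : ℂ) 3 ⊆ Sg := fun z hz => by
    have := (Complex.abs_re_le_norm z).trans_lt (mem_ball_zero_iff.1 hz)
    show |z.re| < 7 / 2
    linarith
  have F0 : F 0 = 0 := by
    have := odd 0 (sub (mem_ball_self (by norm_num)))
    rw [neg_zero] at this
    linear_combination this / 2
  have g3 : DifferentiableOn ℂ (dslope F 0) (ball 0 3) :=
    (differentiableOn_dslope (ball_mem_nhds 0 (by norm_num))).2 (hd.mono sub)
  have e : ∀ w, F w = w * dslope F 0 w := fun w => by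
    have := sub_smul_dslope F 0 w
    rw [sub_zero, F0, sub_zero, smul_eq_mul] at this
    exact this.symm
  obtain ⟨M, hM⟩ := (isCompact_closedBall (0 : ℂ) 2).exists_bound_of_continuousOn
    ((g3.continuousOn.mono (closedBall_subset_ball (by norm_num))).sub
      (continuousOn_const (c := dslope F 0 0)))
  refine ⟨|M|, abs_nonneg M, fun δ hδ => ?_⟩
  have := schwarz (k := 2) (M := |M|) (g3.mono (ball_subset_ball (by norm_num))) (fun w hw => by
      rcases eq_or_ne w 0 with rfl | h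
      · rw [neg_zero]
      · have h1 := odd w (sub (ball_subset_ball (by norm_num) hw))
        rw [e (-w), e w] at h1
        exact mul_left_cancel₀ h (by linear_combination -h1))
    (fun w hw => (hM w (ball_subset_closedBall hw)).trans (le_abs_self M))
    (w := δ) (mem_ball_zero_iff.2 (by linarith))
  rw [dslope_same, d0] at this
  rw [e δ, show δ * dslope F 0 δ - 2 * δ = δ * (dslope F 0 δ - 2) by ring, norm_mul]
  have h1 := mul_le_mul_of_nonneg_left this (norm_nonneg δ)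
  have h2 : 0 ≤ |M| * ‖δ‖ ^ 3 := by positivity
  nlinarith

end MP0A

theorem mp0 : Spec_MP0 := by
  intro sg Z h
  obtain ⟨C, C0, hC⟩ := MP0A.odd3 h.dsg (fun δ hδ => (h.odd δ hδ).1) h.d0.1
  obtain ⟨D, D0, hD⟩ := MP0A.odd3 h.dZ (fun δ hδ => (h.odd δ hδ).2) h.d0.2
  refine ⟨C + D, fun δ hδ => ?_⟩
  have h1 : 0 ≤ C * ‖δ‖ ^ 3 := by positivity
  have h2 : 0 ≤ D * ‖δ‖ ^ 3 := by positivity
  constructor <;> linarith [hC δ hδ, hD δ hδ]

end Vale.Agent.P097E
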