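import Vale.Agent.P097E.ModP3
import Vale.Agent.P097E.ModOne

/-!
# P097E: shadowing by the two integrals of the model
-/

set_option linter.all false

noncomputable section

namespace Vale.Agent.P097E

open Set Metric Complex Filter Topology

namespace Sh

lemma nu_step {ν ρ μ τ : ℂ} {b e : ℝ} (hb : b ≤ 1 / 128) (he : 0 ≤ e) (he' : e ≤ b / 16)
    (hτ : ‖τ‖ ≤ 2 * e) (hμ : ‖μ - 1‖ ≤ 2 * b) (hν : ‖ν - 1‖ ≤ 1 / 2)
    (hρ : ‖ρ - (1 - I * τ / μ)‖ ≤ b * e) : ‖ν * ρ * exp (I * τ) - ν‖ ≤ 32 * b * e := by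
  have b0 : 0 ≤ b := by linarith
  have m1 : 1 / 2 ≤ ‖μ‖ := by
    have := norm_sub_norm_le (1 : ℂ) μ
    rw [norm_sub_rev, norm_one] at this
    linarith
  have m0 : μ ≠ 0 := norm_pos_iff.1 (by linarith)
  have n1 : ‖ν‖ ≤ 3 / 2 := by
    have := norm_sub_norm_le ν 1
    rw [norm_one] at this
    linarith
  have t1 : ‖I * τ‖ ≤ 2 * e := by simpa using hτ
  have t0 := norm_nonneg (I * τ)
  have r3 : ‖exp (I * τ) - 1 - I * τ‖ ≤ 4 * e ^ 2 :=
    (norm_exp_sub_one_sub_id_le (t1.trans (by linarith))).trans (by nlinarith)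
  have x2 : ‖exp (I * τ)‖ ≤ 2 := by
    have := norm_add₃_le (a := exp (I * τ) - 1 - I * τ) (b := 1) (c := I * τ)
    rw [norm_one, show exp (I * τ) - 1 - I * τ + 1 + I * τ = exp (I * τ) by ring] at this
    nlinarith
  have r2 : ‖ρ - (1 - I * τ / μ) + I * τ * ((μ - 1) / μ)‖ ≤ 9 * b * e := by
    have h1 : ‖(μ - 1) / μ‖ ≤ 4 * b := by
      rw [norm_div, div_le_iff₀ (by linarith)]
      nlinarith
    have h2 : ‖I * τ * ((μ - 1) / μ)‖ ≤ 2 * e * (4 * b) := by
      rw [norm_mul]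
      gcongr
    exact (norm_add_le _ _).trans (by linarith)
  have o1 : ‖1 - I * τ‖ ≤ 2 := (norm_sub_le _ _).trans (by rw [norm_one]; linarith)
  have e1 : ν * ρ * exp (I * τ) - ν = ν * (-(I * τ * (I * τ)) + (1 - I * τ) *
      (exp (I * τ) - 1 - I * τ) + (ρ - (1 - I * τ / μ) + I * τ * ((μ - 1) / μ)) * exp (I * τ)) := by
    field_simp
    ring
  have h3 : ‖-(I * τ * (I * τ)) + (1 - I * τ) * (exp (I * τ) - 1 - I * τ) +
      (ρ - (1 - I * τ / μ) + I * τ * ((μ - 1) / μ)) * exp (I * τ)‖ ≤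
      2 * e * (2 * e) + 2 * (4 * e ^ 2) + 9 * b * e * 2 := by
    refine norm_add₃_le.trans ?_
    rw [norm_neg, norm_mul (I * τ), norm_mul (1 - I * τ), norm_mul _ (exp _)]
    gcongr
  rw [e1, norm_mul]
  refine (mul_le_mul n1 h3 (norm_nonneg _) (by norm_num)).trans ?_
  nlinarith [mul_nonneg b0 he]

end Sh

theorem shad : Spec_SHAD := by
  intro sg Z zs H K η hK η0 η1 hF
  let K' := (fun p : ℂ × ℂ => p.1 * p.2) '' (K ×ˢ closedBall 1 η)
  let Kd := {δ : ℂ | |δ.re| ≤ Real.pi} ∩ Z ⁻¹' K'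
  have cK : IsCompact Kd := P3.cpt H.toMod1 H.p2
    ((hK.prod (isCompact_closedBall _ _)).image (by fun_prop))
  have sK : Kd ⊆ Sg := fun δ h => P3.mem h.1
  have nF : ∀ δ ∈ Kd, Z δ ∉ Fb zs := by
    rintro δ ⟨-, p, hp, e⟩
    rw [← e]
    exact hF _ hp.1 _ (mem_closedBall_iff_norm.1 hp.2)
  have F0 : (0 : ℂ) ∈ Fb zs := by simp [Fb]
  have lt : ∀ δ ∈ Kd, |δ.re| < Real.pi := fun δ h =>
    lt_of_le_of_ne h.1 fun e => nF δ h (H.p1 δ e)
  have n0 : ∀ δ ∈ Kd, δ ≠ 0 := by
    rintro δ h rfl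
    have := (H.odd 0 (sK h)).2
    rw [neg_zero] at this
    exact nF 0 h (by rwa [show Z 0 = 0 by linear_combination (1 / 2 : ℂ) * this])
  have ns : ∀ δ ∈ Kd, sin δ ≠ 0 := fun δ h e => by
    obtain ⟨k, rfl⟩ := sin_eq_zero_iff.1 e
    have h1 := lt _ h
    have h2 : (k : ℂ) ≠ 0 := left_ne_zero_of_mul (n0 _ h)
    have h3 : (1 : ℝ) ≤ |(k : ℝ)| := by exact_mod_cast Int.one_le_abs (by exact_mod_cast h2)
    simp only [mul_re, intCast_re, ofReal_re, intCast_im, ofReal_im, mul_zero, sub_zero, abs_mul,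
      abs_of_pos Real.pi_pos] at h1
    nlinarith [Real.pi_pos]
  obtain ⟨c₁, c0, hc⟩ := cK.exists_forall_le' (a := 0)
    (f := fun δ => min (Real.pi - |δ.re|) (min ‖sin δ‖ ‖sg δ‖))
    (fun δ h => Tendsto.min (Continuous.continuousWithinAt (by fun_prop))
      (Tendsto.min (Continuous.continuousWithinAt (by fun_prop))
        ((H.dsg.continuousOn.mono sK).norm δ h)))
    fun δ h => lt_min (sub_pos.2 (lt δ h)) (lt_min (norm_pos_iff.2 (ns δ h))
      (norm_pos_iff.2 (H.ne δ (sK h) (n0 δ h)).1))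
  simp only [le_min_iff] at hc
  obtain ⟨M, M0, hM⟩ := cK.isBounded.exists_pos_norm_le
  obtain ⟨C, e₁, C0, e10, hO⟩ := one sg Z H.toMod1 Kd cK sK ns (4 / c₁) (by positivity)
  set T := 2 * M * (4 / c₁) + 1 + M with hT
  have T0 : 0 < T := by positivity
  have cT : T ≤ (min c₁ T⁻¹)⁻¹ := le_inv_of_le_inv₀ (by positivity) (min_le_right _ _)
  have MT : M ≤ T := by rw [hT]; exact le_add_of_nonneg_left (by positivity)
  refine ⟨min c₁ T⁻¹, by positivity, fun L L0 => ?_⟩
  set b := η / (64 * (1 + L)) with hb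
  have b0 : 0 < b := by positivity
  have bη : b * (64 * (1 + L)) = η := by rw [hb]; field_simp
  have b1 : b ≤ 1 / 128 := by nlinarith [mul_nonneg b0.le L0]
  set t := b / (16 * ((C + 1) * (1 + L))) with ht
  have t0 : 0 < t := by positivity
  have tb : t * (16 * ((C + 1) * (1 + L))) = b := by rw [ht]; field_simp
  have tC := mul_nonneg t0.le C0
  have tL := mul_nonneg t0.le L0
  have tCL := mul_nonneg tC L0
  have tb' : 16 * (t * C * L + t * C + t * L + t) = b := by rw [← tb]; ring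
  have bL := mul_nonneg b0.le L0
  have t1 : t ≤ 1 := by linarith
  clear_value t b
  clear ht hb tb
  refine ⟨t, min (min e₁ (c₁ / (C + 1))) t, t0, by positivity, ?_⟩
  intro e W X₀ y₀ δ₀ N R e0 he hW hN hK' R0 h0 hμ hν st
  simp only [le_min_iff] at he
  obtain ⟨⟨he1, he2⟩, he3⟩ := he
  have zn : ∀ j ≤ N, W * exp (-(I * (X₀ + j * e * W))) ≠ 0 := fun j hj e =>
    hF _ (hK' j hj) 1 (by simpa using η0.le) (by rwa [e, zero_mul])
  have mk : ∀ j ≤ N, ∀ δ : ℂ, |δ.re| ≤ Real.pi →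
      ‖Z δ / (W * exp (-(I * (X₀ + j * e * W)))) - 1‖ ≤ η → δ ∈ Kd := fun j hj δ h1 h2 =>
    ⟨h1, (_, _), ⟨hK' j hj, mem_closedBall_iff_norm.2 h2⟩, mul_div_cancel₀ _ (zn j hj)⟩
  have je : ∀ j ≤ N, (j : ℝ) * e ≤ L := fun j hj =>
    (mul_le_mul_of_nonneg_right (Nat.cast_le.2 hj) e0).trans hN
  have fin : ∀ j ≤ N, j * e * T ≤ L / min c₁ T⁻¹ ∧ b + j * e * (4 * C * t) ≤ 2 * b ∧
      η / 2 + j * e * (32 * b) ≤ η := fun j hj => by
    have := je j hj
    have h1 : j * e * (4 * C * t) ≤ L * (4 * C * t) := by gcongr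
    have h2 : j * e * (32 * b) ≤ L * (32 * b) := by gcongr
    exact ⟨by rw [div_eq_mul_inv]; gcongr, by linarith, by linarith⟩
  have main : ∀ j ≤ N, ∃ y δ, R j y δ ∧ δ ∈ Kd ∧ ‖y - y₀‖ ≤ j * e * T ∧
      ‖W * exp (-(I * y)) / sg δ - 1‖ ≤ b + j * e * (4 * C * t) ∧
      ‖Z δ / (W * exp (-(I * (X₀ + j * e * W)))) - 1‖ ≤ η / 2 + j * e * (32 * b) := by
    intro j
    induction j with
    | zero =>
      intro hj
      exact ⟨y₀, δ₀, R0, mk 0 hj _ h0 (by simpa using hν.trans (by linarith)), by simp,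
        by simpa using hμ, by simpa using hν⟩
    | succ j ih =>
      intro hj
      obtain ⟨y, δ, r1, r2, r3, r4, r5⟩ := ih (by omega)
      obtain ⟨f1, f2, f3⟩ := fin j (by omega)
      obtain ⟨k1, k2, k3⟩ := hc δ r2
      obtain ⟨y', δ', r1', s⟩ := st j (by omega) y δ r1 ((min_le_left _ _).trans k2)
        ((hM δ r2).trans (MT.trans cT)) (r3.trans f1)
      have s0 : sg δ ≠ 0 := norm_pos_iff.1 (c0.trans_le k3)
      have Z0 := (H.ne δ (sK r2) (n0 δ r2)).2
      set μ := W * exp (-(I * y)) / sg δ with hμ'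
      have m1 : 1 / 2 ≤ ‖μ‖ := by
        have := norm_sub_norm_le (1 : ℂ) μ
        rw [norm_sub_rev, norm_one] at this
        linarith
      have m2 : ‖μ‖ ≤ 2 := by
        have := norm_sub_norm_le μ 1
        rw [norm_one] at this
        linarith
      have m0 : μ ≠ 0 := norm_pos_iff.1 (by linarith)
      have eE : exp (I * y) * sg δ * μ = W := by
        rw [hμ', exp_neg]
        field_simp
      have hE : ‖exp (I * y)‖ ≤ 4 / c₁ := by
        rw [← eE, norm_mul, norm_mul] at hW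
        have : ‖exp (I * y)‖ * c₁ * (1 / 2) ≤ ‖exp (I * y)‖ * ‖sg δ‖ * ‖μ‖ := by gcongr
        rw [le_div_iff₀ c0]
        linarith
      obtain ⟨o1, o2, o3, o4, o5⟩ := hO t e y δ y' δ' t0.le t1 e0 he1 r2 hE s
      have s0' := (H.ne δ' o1 o2).1
      have Ce : C * (t + e) * e ≤ 2 * C * t * e :=
        mul_le_mul_of_nonneg_right (by linarith [mul_le_mul_of_nonneg_left he3 C0]) e0
      have q5 : ‖Z δ' / (W * exp (-(I * (X₀ + (j + 1 : ℕ) * e * W)))) - 1‖ ≤
          η / 2 + (j + 1 : ℕ) * e * (32 * b) := by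
        have h1 := Sh.nu_step (τ := e * W) (ρ := Z δ' / Z δ) b1 e0 (by linarith)
          (by rw [norm_mul, norm_real, Real.norm_of_nonneg e0, mul_comm]; gcongr) (r4.trans f2)
          (r5.trans (f3.trans η1)) (by
            rw [show I * (e * W) / μ = I * e * exp (I * y) * sg δ by rw [← eE]; field_simp]
            exact o5.trans (Ce.trans (mul_le_mul_of_nonneg_right (by linarith) e0)))
        have W0 : W ≠ 0 := left_ne_zero_of_mul (zn j (by omega))
        have h2 : Z δ' / (W * exp (-(I * (X₀ + (j + 1 : ℕ) * e * W)))) =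
            Z δ / (W * exp (-(I * (X₀ + j * e * W)))) * (Z δ' / Z δ) * exp (I * (e * W)) := by
          rw [show -(I * (X₀ + (j + 1 : ℕ) * e * W)) = -(I * (X₀ + j * e * W)) - I * (e * W) by
            push_cast; ring, exp_sub]
          field_simp
        rw [h2]
        refine (norm_sub_le_norm_sub_add_norm_sub _ _ _).trans ((add_le_add h1 r5).trans ?_)
        push_cast
        linarith
      refine ⟨y', δ', r1', mk _ hj _ ?_ (q5.trans (fin _ hj).2.2), ?_, ?_, q5⟩
      · have h1 := (abs_re_le_norm (δ' - δ)).trans o3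
        have h2 := abs_sub_abs_le_abs_sub δ'.re δ.re
        rw [le_div_iff₀ (by positivity)] at he2
        rw [sub_re] at h1
        linarith
      · have h1 : ‖2 * e * δ * exp (I * y)‖ ≤ 2 * e * M * (4 / c₁) := by
          rw [norm_mul, norm_mul, norm_mul, norm_real, Real.norm_of_nonneg e0, Complex.norm_two]
          gcongr
          exact hM δ r2
        have h2 := norm_add₃_le (a := y' - y - 2 * e * δ * exp (I * y))
          (b := 2 * e * δ * exp (I * y)) (c := y - y₀)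
        rw [show y' - y - 2 * e * δ * exp (I * y) + 2 * e * δ * exp (I * y) + (y - y₀) = y' - y₀ by
          ring] at h2
        have h3 : t * e ≤ 1 * e := by gcongr
        have h4 := mul_nonneg e0 M0.le
        have h5 : e * T = 2 * e * M * (4 / c₁) + e + e * M := by rw [hT]; ring
        have := s.1
        push_cast
        linarith
      · have h2 : W * exp (-(I * y')) / sg δ' - μ =
            μ * (exp (-(I * (y' - y))) * sg δ / sg δ' - 1) := by
          rw [hμ', show -(I * (y' - y)) = -(I * y') - -(I * y) by ring, exp_sub]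
          field_simp
        have h3 : ‖W * exp (-(I * y')) / sg δ' - μ‖ ≤ 2 * (2 * C * t * e) := by
          rw [h2, norm_mul]
          exact mul_le_mul m2 (o4.trans Ce) (norm_nonneg _) two_pos.le
        refine (norm_sub_le_norm_sub_add_norm_sub _ μ _).trans ((add_le_add h3 r4).trans ?_)
        push_cast
        linarith
  intro j hj
  obtain ⟨y, δ, r1, r2, r3, r4, r5⟩ := main j hj
  obtain ⟨f1, f2, f3⟩ := fin j hj
  obtain ⟨k1, k2, k3⟩ := hc δ r2
  exact ⟨y, δ, r1, by linarith [min_le_left c₁ T⁻¹], (min_le_left _ _).trans k2,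
    (hM δ r2).trans (MT.trans cT), r3.trans f1,
    r4.trans (f2.trans (by linarith)), r5.trans f3⟩

end Vale.Agent.P097E
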