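import Vale.Agent.P097E.ShA
import Vale.Agent.P097E.CsC
import Vale.Agent.P097E.Shad

/-!
# P097E: shadowing along non-real directions
-/

set_option linter.all false

noncomputable section

namespace Vale.Agent.P097E

open Filter Topology Set Metric Complex Cs

namespace Sh

/-- moving back along the direction `W` -/
theorem back {X W : ℂ} {a s L' : ℝ} (h1 : ‖X‖ ≤ a) (h2 : ‖W‖ ≤ 2) (h3 : 0 ≤ s) (h4 : s ≤ L') :
    ‖X - s * W‖ ≤ a + 2 * L' ∧ (X - s * W).im = X.im - s * W.im := by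
  refine ⟨(norm_sub_le _ _).trans ?_, by simp⟩
  rw [norm_mul, Complex.norm_real, Real.norm_eq_abs, abs_of_nonneg h3]
  have := mul_le_mul h4 h2 (norm_nonneg _) (h3.trans h4)
  linarith

/-- one step of the baseline is one step of `T` -/
theorem chain {θ H : ℂ → ℂ} {ε R L M a ρ L' s : ℝ} {Z : ℂ × ℂ → ℂ × ℂ} (b : Bas θ H ε R L M Z)
    (hε : 0 < ε) (ε1 : ε ≤ 1 / 4) (ε2 : (2 * M + 3) * (2 * ε) ≤ min (1 / 8) ρ)
    (hR : a + 2 * L' + 1 ≤ R) {q : ℂ × ℂ} (h1 : ‖q.1‖ ≤ a) (h2 : q.1.im < -L - 1)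
    (h3 : 0 ≤ q.2.im) (h4 : ‖q.2‖ < 2) (s1 : ε ≤ s) (s2 : s ≤ L') {t : ℂ × ℂ}
    (hT : ∀ p : ℂ × ℂ, St θ H (Z (q.1 - s * q.2, q.2)) p →
      ‖p.1 - (Z (q.1 - s * q.2, q.2)).1‖ ≤ 1 / 8 → ‖p.2 - (Z (q.1 - s * q.2, q.2)).2‖ ≤ ρ → p = t) :
    t = Z (q.1 - (s - ε : ℝ) * q.2, q.2) := by
  obtain ⟨k1, k2⟩ := back h1 h4.le (hε.le.trans s1) s2
  obtain ⟨k3, k4⟩ := back (s := s - ε) h1 h4.le (by linarith) (show s - ε ≤ L' by linarith)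
  have k5 := mul_nonneg (hε.le.trans s1) h3
  have k6 := mul_nonneg (sub_nonneg.2 s1) h3
  have e : q.1 - (s - ε : ℝ) * q.2 = q.1 - s * q.2 + ε * q.2 := by push_cast; ring
  have l1 : (q.1 - s * q.2, q.2) ∈ Low R L :=
    ⟨by show ‖q.1 - s * q.2‖ < R; linarith, by show (q.1 - s * q.2).im < -L; linarith, h4⟩
  have l2 : (q.1 - (s - ε : ℝ) * q.2, q.2) ∈ Low R L :=
    ⟨by show ‖q.1 - (s - ε : ℝ) * q.2‖ < R; linarith,
      by show (q.1 - (s - ε : ℝ) * q.2).im < -L; linarith, h4⟩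
  have n : ‖q.1 - (s - ε : ℝ) * q.2 - (q.1 - s * q.2)‖ ≤ 2 * ε := by
    rw [e, add_sub_cancel_left, norm_mul, Complex.norm_real, Real.norm_eq_abs, abs_of_pos hε]
    nlinarith
  have lp := lipZ b (X := q.1 - s * q.2) (X' := q.1 - (s - ε : ℝ) * q.2) (W := q.2)
    (by linarith) (by linarith) h4 (by linarith)
  have M0 := b.M0
  have lp2 := (lp.trans (mul_le_mul_of_nonneg_left n (by linarith))).trans ε2
  refine (hT _ ?_ ?_ ?_).symm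
  · rw [e] at l2 ⊢
    exact b.stp _ l1 l2
  · exact ((norm_fst_le _).trans lp2).trans (min_le_left _ _)
  · exact ((norm_snd_le _).trans lp2).trans (min_le_right _ _)

theorem nxt {θ H : ℂ → ℂ} {ε R L M a ρ L' s r E M' μ : ℝ} {Z G T : ℂ × ℂ → ℂ × ℂ}
    (b : Bas θ H ε R L M Z)
    (hε : 0 < ε) (ε1 : ε ≤ 1 / 4) (ε2 : (2 * M + 3) * (2 * ε) ≤ min (1 / 8) ρ)
    (hR : a + 1 + 2 * L' + 1 ≤ R) {q : ℂ × ℂ} (h1 : ‖q.1‖ ≤ a) (h2 : q.1.im < -L - 1)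
    (h3 : 0 < q.2.im) (h4 : ‖q.2‖ < 2) (s1 : ε ≤ s) (s2 : s ≤ L') (cF : ContinuousAt G q)
    (hG : G =ᶠ[𝓝 q] fun q => Z (q.1 - s * q.2, q.2))
    (b1 : ‖(G q).1‖ < r) (b2 : ‖exp (I * (G q).1)‖ < E) (b3 : ‖(G q).2‖ < M')
    (b4 : μ < ‖sin (G q).2‖)
    (hT : ∀ p : ℂ × ℂ, ‖p.1‖ < r → ‖exp (I * p.1)‖ < E → ‖p.2‖ < M' → μ < ‖sin p.2‖ →
      ∀ p' : ℂ × ℂ, St θ H p p' → ‖p'.1 - p.1‖ ≤ 1 / 8 → ‖p'.2 - p.2‖ ≤ ρ → p' = T p) :
    (fun q => T (G q)) =ᶠ[𝓝 q] fun q => Z (q.1 - (s - ε : ℝ) * q.2, q.2) := by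
  have v1 := cF.fst.norm.eventually (gt_mem_nhds b1)
  have c2 : ContinuousAt (fun q => ‖exp (I * (G q).1)‖) q :=
    (continuousAt_const.mul cF.fst).cexp.norm
  have v2 := c2.eventually (gt_mem_nhds b2)
  have v3 := cF.snd.norm.eventually (gt_mem_nhds b3)
  have c4 : ContinuousAt (fun q => ‖sin (G q).2‖) q :=
    (Complex.continuous_sin.continuousAt.comp cF.snd).norm
  have v4 := c4.eventually (lt_mem_nhds b4)
  have d1 : ContinuousAt (fun p : ℂ × ℂ => ‖p.1‖) q := by fun_prop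
  have d2 : ContinuousAt (fun p : ℂ × ℂ => p.1.im) q := by fun_prop
  have d3 : ContinuousAt (fun p : ℂ × ℂ => p.2.im) q := by fun_prop
  have d4 : ContinuousAt (fun p : ℂ × ℂ => ‖p.2‖) q := by fun_prop
  have u1 := d1.eventually (gt_mem_nhds (show ‖q.1‖ < a + 1 by linarith))
  have u2 := d2.eventually (gt_mem_nhds h2)
  have u3 := d3.eventually (lt_mem_nhds h3)
  have u4 := d4.eventually (gt_mem_nhds h4)
  filter_upwards [hG, v1, v2, v3, v4, u1, u2, u3, u4] with p z0 z1 z2 z3 z4 z5 z6 z7 z8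
  have tt := hT _ z1 z2 z3 z4
  rw [z0] at tt ⊢
  exact chain b hε ε1 ε2 hR z5.le z6 z7.le z8 s1 s2 tt

theorem err {A η' η₂ L₀ R₀ κ : ℝ} (A1 : 1 ≤ A) (L0 : 0 ≤ L₀) (η0 : 0 < η')
    (L2 : (2 + L₀) * Real.exp (-(κ * L₀)) ≤ η' / (128 * A * Real.exp R₀)) :
    A * (Real.exp (R₀ - κ * L₀) + min (η' / (128 * A * (2 + L₀))) η₂) ≤
      η' / (64 * (1 + (L₀ + 1))) ∧ η' / (64 * (1 + (L₀ + 1))) ≤ η' / 2 := by
  have eR := Real.exp_pos R₀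
  have k1 : A * Real.exp (R₀ - κ * L₀) ≤ η' / (128 * (2 + L₀)) := by
    rw [le_div_iff₀ (by positivity)] at L2 ⊢
    rw [sub_eq_add_neg, Real.exp_add]
    linarith
  have k2 : A * min (η' / (128 * A * (2 + L₀))) η₂ ≤ η' / (128 * (2 + L₀)) := by
    refine (mul_le_mul_of_nonneg_left (min_le_left _ _) (by linarith)).trans (le_of_eq ?_)
    field_simp
  have k3 : η' / (64 * (1 + (L₀ + 1))) = η' / (128 * (2 + L₀)) + η' / (128 * (2 + L₀)) := by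
    field_simp; ring
  exact ⟨by linarith, div_le_div_of_nonneg_left η0.le (by norm_num) (by linarith)⟩

theorem low {X W : ℂ} {κ a : ℝ} (h1 : κ ≤ ‖W‖) (h2 : ‖X‖ ≤ a) :
    κ * Real.exp (-a) ≤ ‖W * exp (-(X * I))‖ := by
  rw [norm_mul, norm_exp]
  refine mul_le_mul h1 (Real.exp_le_exp.2 ?_) (by positivity) (norm_nonneg _)
  have := neg_abs_le (-(X * I)).re
  have k2 := abs_re_le_norm (-(X * I))
  rw [norm_neg, norm_mul, norm_I, mul_one] at k2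
  linarith

theorem cls {sg Zm : ℂ → ℂ} {zs β η η' S B : ℝ} {q : ℂ × ℂ} {y δ : ℂ} (zs0 : 0 < zs) (hβ : 0 < β)
    (hβ' : β ≤ 1 / 300) (η0 : 0 < η') (η1 : η' ≤ β / 2) (η2 : η' * (2 * zs + S) ≤ η) (S1 : 1 ≤ S)
    (hS : ∀ δ : ℂ, |δ.re| ≤ Real.pi → ‖Zm δ‖ ≤ 4 * zs → ‖sg δ‖ ≤ S)
    (kN : ‖q.2 * exp (-(I * q.1))‖ ≤ zs * Real.exp (11 * β)) (o1 : |δ.re| ≤ Real.pi)
    (o4 : ‖y - q.1‖ ≤ B) (o5 : ‖q.2 * exp (-(I * y)) / sg δ - 1‖ ≤ η')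
    (o6 : ‖Zm δ / (q.2 * exp (-(I * q.1))) - 1‖ ≤ η') : Cls sg Zm η B q (y, δ) := by
  have zq : ‖q.2 * exp (-(I * q.1))‖ ≤ 2 * zs := by
    have k1 : Real.exp (11 * β) ≤ 2 := by
      have := Real.exp_bound' (x := 11 * β) (by linarith) (by linarith) (n := 1) one_pos
      simp at this
      linarith
    nlinarith
  have s6 := n_sub (by linarith) o6
  have s5 := n_sub (by linarith) o5
  have s7 : η' * ‖q.2 * exp (-(I * q.1))‖ ≤ η' * (2 * zs) := mul_le_mul_of_nonneg_left zq η0.le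
  have zb : ‖Zm δ‖ ≤ 4 * zs := by
    have := norm_add_le (q.2 * exp (-(I * q.1))) (Zm δ - q.2 * exp (-(I * q.1)))
    rw [add_sub_cancel] at this
    nlinarith
  have s8 : η' * ‖sg δ‖ ≤ η' * S := mul_le_mul_of_nonneg_left (hS δ o1 zb) η0.le
  refine ⟨o1, o4, ?_, ?_⟩
  · show ‖Zm δ - q.2 * exp (-(q.1 * I))‖ ≤ η
    rw [mul_comm q.1 I]
    nlinarith
  · show ‖sg δ - q.2 * exp (-(y * I))‖ ≤ η
    rw [mul_comm y I, norm_sub_rev]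
    nlinarith

end Sh

open Sh

theorem sh : Spec_SH := by
  intro sg Zm zs m β κ η R₀ L M hβ hβ' hκ hη
  by_cases M0 : 0 ≤ M
  swap
  · exact ⟨0, 0, 1, 1, one_pos, one_pos, fun θ H c ε Z _ _ _ b => (M0 b.M0).elim⟩
  by_cases R0 : 0 ≤ R₀
  swap
  · exact ⟨0, 0, 1, 1, one_pos, one_pos, fun θ H c ε Z _ _ _ b =>
      ⟨Z, fun q h => (R0 ((norm_nonneg _).trans h)).elim⟩⟩
  have zs0 := m.zs0
  obtain ⟨S, S1, hS⟩ := sg_bd m (4 * zs)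
  obtain ⟨η', η0, η1, η2⟩ : ∃ η' : ℝ, 0 < η' ∧ η' ≤ β / 2 ∧ η' * (2 * zs + S) ≤ η :=
    ⟨min (β / 2) (η / (2 * zs + S)), lt_min (by linarith) (by positivity), min_le_left _ _,
      (le_div_iff₀ (by linarith)).1 (min_le_right _ _)⟩
  obtain ⟨A, A1, hA⟩ := bc m.p0 M M0
  have eR := Real.exp_pos R₀
  obtain ⟨L₀, L0, L1, L2⟩ := depth (A := η' / (128 * A * Real.exp R₀)) (D := R₀ + L) hκ
    (by positivity)
  have c10 : 0 < κ * Real.exp (-(R₀ + 2 * (L₀ + 1))) := by positivity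
  obtain ⟨c, c0, hc⟩ := shad sg Zm zs m (KK zs β (κ * Real.exp (-(R₀ + 2 * (L₀ + 1))))) η'
    (KK_cpt _ _ _) η0 (by linarith) (KK_off zs0 hβ hβ' c10 η1)
  obtain ⟨d, e₀, d0, e0, hc⟩ := hc (L₀ + 1) (by linarith)
  have Lc : 0 ≤ (L₀ + 1) / c := by positivity
  obtain ⟨R₁, hR₁⟩ : ∃ R₁, R₁ = R₀ + 2 * (L₀ + 1) + M + (L₀ + 1) / c := ⟨_, rfl⟩
  obtain ⟨ρ, ρ0, hT⟩ := step (Real.exp R₁ + 1) (c⁻¹ + 1) (c / 2) (by positivity) (by linarith)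
  obtain ⟨η₂, ε₂, η20, ε20, hT⟩ := hT d d0
  have mρ : 0 < min (1 / 8) ρ := lt_min (by norm_num) ρ0
  refine ⟨(L₀ + 1) / c + M + 2 * (L₀ + 1), R₁ + 2 + 1,
    min (min e₀ ε₂) (min (1 / 4) (min (1 / 8) ρ / (2 * (2 * M + 3)))),
    min (η' / (128 * A * (2 + L₀))) η₂, lt_min (lt_min e0 ε20) (lt_min (by norm_num) (by positivity)),
    lt_min (by positivity) η20, fun θ H c' ε Z w hε hε₀ b => ?_⟩
  have ε1 : ε ≤ e₀ := hε₀.trans ((min_le_left _ _).trans (min_le_left _ _))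
  have ε2 : ε ≤ ε₂ := hε₀.trans ((min_le_left _ _).trans (min_le_right _ _))
  have ε3 : ε ≤ 1 / 4 := hε₀.trans ((min_le_right _ _).trans (min_le_left _ _))
  have ε4 : (2 * M + 3) * (2 * ε) ≤ min (1 / 8) ρ := by
    have := (le_div_iff₀ (by positivity)).1 (hε₀.trans ((min_le_right _ _).trans (min_le_right _ _)))
    linarith
  obtain ⟨T, hT⟩ := hT θ H c' ε (R₁ + 2) _ hε ε2 (min_le_right _ _) w
  obtain ⟨N, N1, N2⟩ : ∃ N : ℕ, L₀ ≤ N * ε ∧ N * ε ≤ L₀ + 1 := by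
    refine ⟨⌈L₀ / ε⌉₊, (div_le_iff₀ hε).1 (Nat.le_ceil _), ?_⟩
    have := mul_le_mul_of_nonneg_right (Nat.ceil_lt_add_one (div_nonneg L0 hε.le)).le hε.le
    rw [add_mul, div_mul_cancel₀ _ hε.ne'] at this
    linarith
  obtain ⟨F, hF⟩ : ∃ F : ℕ → ℂ × ℂ → ℂ × ℂ,
      F = fun j q => T^[j] (Z (q.1 - ((N : ℝ) * ε : ℝ) * q.2, q.2)) := ⟨_, rfl⟩
  have F0 : F 0 = fun q => Z (q.1 - ((N : ℝ) * ε : ℝ) * q.2, q.2) := by rw [hF]; rfl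
  have FS : ∀ j, F (j + 1) = fun q => T (F j q) := fun j => by
    rw [hF]; funext q; exact Function.iterate_succ_apply' _ _ _
  refine ⟨F N, fun q q1 q2 q3 q4 => ?_⟩
  have W2 : ‖q.2‖ ≤ 2 := by linarith
  have Wκ : κ ≤ ‖q.2‖ := q2.trans ((le_abs_self _).trans (abs_im_le_norm _))
  have W0 : q.2 ≠ 0 := norm_pos_iff.1 (hκ.trans_le Wκ)
  have Nε : (0 : ℝ) ≤ N * ε := by positivity
  obtain ⟨x1, x2⟩ := back q1 W2 Nε N2
  have x3 : (q.1 - ((N : ℝ) * ε : ℝ) * q.2).im ≤ R₀ - κ * L₀ := by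
    have := mul_le_mul q2 N1 L0 (by linarith)
    have := (le_abs_self _).trans (abs_im_le_norm q.1)
    rw [x2]
    linarith
  have L3 := b.L3
  have lo : (q.1 - ((N : ℝ) * ε : ℝ) * q.2, q.2) ∈ Low (R₁ + 2 + 1) L :=
    ⟨by show ‖q.1 - ((N : ℝ) * ε : ℝ) * q.2‖ < _; linarith,
      by show (q.1 - ((N : ℝ) * ε : ℝ) * q.2).im < -L; linarith, by show ‖q.2‖ < 2; linarith⟩
  obtain ⟨X₀, hX⟩ : ∃ X₀, X₀ = q.1 - ((N : ℝ) * ε : ℝ) * q.2 := ⟨_, rfl⟩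
  have Fq : F 0 q = Z (X₀, q.2) := by rw [F0, hX]
  rw [← hX] at lo x1 x3
  have ex : Real.exp X₀.im ≤ Real.exp (R₀ - κ * L₀) := Real.exp_le_exp.2 x3
  have ex1 : Real.exp (R₀ - κ * L₀) ≤ 1 := Real.exp_le_one_iff.2 (by linarith)
  have y1 : ‖(Z (X₀, q.2)).1 - X₀‖ ≤ M * Real.exp (R₀ - κ * L₀) :=
    (b.bY _ lo).trans (mul_le_mul_of_nonneg_left ex M0)
  have y2 : ‖(Z (X₀, q.2)).1 - X₀‖ ≤ M := y1.trans (mul_le_of_le_one_right M0 ex1)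
  have y3 : ‖(Z (X₀, q.2)).1‖ ≤ R₀ + 2 * (L₀ + 1) + M := by
    have := norm_add_le X₀ ((Z (X₀, q.2)).1 - X₀)
    rw [add_sub_cancel] at this
    linarith
  obtain ⟨er, er2⟩ := err (η₂ := η₂) A1 L0 η0 L2
  obtain ⟨i1, i2⟩ := hA X₀ q.2 (Z (X₀, q.2)).1 (Z (X₀, q.2)).2 (ε * deriv θ (Z (X₀, q.2)).1) _ _
    W0 W2 (er.trans (by linarith)) ex y1
    (by
      have k := b.bD _ lo
      have e : q.2 * (ε * deriv θ (Z (X₀, q.2)).1) = ε * q.2 * deriv θ (Z (X₀, q.2)).1 := by ring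
      rw [e]
      exact k.trans (mul_le_mul_of_nonneg_right (mul_le_mul_of_nonneg_left ex M0) (norm_nonneg _)))
    (w.wv _ (mem_ball_zero_iff.2 (by linarith))) (b.sm _ lo)
  have pt : ∀ j : ℕ, X₀ + j * ε * q.2 = q.1 - (((N : ℝ) - j) * ε : ℝ) * q.2 := fun j => by
    rw [hX]; push_cast; ring
  have sj : ∀ j : ℕ, j ≤ N → 0 ≤ ((N : ℝ) - j) * ε ∧ ((N : ℝ) - j) * ε ≤ L₀ + 1 := fun j hj => by
    have k : (j : ℝ) ≤ N := Nat.cast_le.2 hj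
    have k2 : (0 : ℝ) ≤ j * ε := by positivity
    exact ⟨mul_nonneg (by linarith) hε.le, by linarith⟩
  have inK : ∀ j ≤ N, q.2 * exp (-(I * (X₀ + j * ε * q.2))) ∈
      KK zs β (κ * Real.exp (-(R₀ + 2 * (L₀ + 1)))) := fun j hj => by
    obtain ⟨s1, s2⟩ := sj j hj
    rw [pt, mul_comm I]
    exact KK_adm zs0 hβ (q4 _ s1) (low Wκ (back q1 W2 s1 s2).1)
  have p3 := Real.pi_gt_three
  obtain ⟨y, δ, ⟨r1, r2, r3⟩, o1, o2, o3, o4, o5, o6⟩ := hc ε q.2 X₀ (Z (X₀, q.2)).1 (Z (X₀, q.2)).2 N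
    (fun j y δ => F j q = (y, δ) ∧ AnalyticAt ℂ (F j) q ∧ (q.1.im < -L - 1 →
      F j =ᶠ[𝓝 q] fun q => Z (q.1 - (((N : ℝ) - j) * ε : ℝ) * q.2, q.2)))
    hε.le ε1 W2 N2 inK
    ⟨Fq, by
      rw [F0]
      refine (b.an _ lo).comp_of_eq ((analyticAt_fst.sub (analyticAt_const.mul analyticAt_snd)).prod
        analyticAt_snd) (by rw [hX]), fun _ => by rw [F0]; simp⟩
    ((abs_re_le_norm _).trans ((b.sm _ lo).trans (by linarith))) (i1.trans er)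
    (i2.trans (er.trans er2))
    (fun j hj y δ r a1 a2 a3 => by
      obtain ⟨r1, r2, r3⟩ := r
      have ny : ‖y‖ ≤ R₁ := by
        have := norm_add_le (Z (X₀, q.2)).1 (y - (Z (X₀, q.2)).1)
        rw [add_sub_cancel] at this
        linarith
      have b1 : ‖(F j q).1‖ < R₁ + 2 := by rw [r1]; show ‖y‖ < _; linarith
      have b2 : ‖exp (I * (F j q).1)‖ < Real.exp R₁ + 1 := by
        rw [r1]
        have := norm_exp_le_exp_norm (I * y)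
        rw [norm_mul, norm_I, one_mul] at this
        have := Real.exp_le_exp.2 ny
        show ‖exp (I * y)‖ < _
        linarith
      have b3 : ‖(F j q).2‖ < c⁻¹ + 1 := by rw [r1]; show ‖δ‖ < _; linarith
      have b4 : c / 2 < ‖sin (F j q).2‖ := by rw [r1]; show _ < ‖sin δ‖; linarith
      obtain ⟨t1, -, t3, t4, -⟩ := hT _ b1 b2 b3 b4
      refine ⟨(T (F j q)).1, (T (F j q)).2, ⟨by rw [FS], ?_, fun hq => ?_⟩, ?_⟩
      · rw [FS]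
        exact t1.comp r2
      · have k : (j : ℝ) + 1 ≤ N := by exact_mod_cast hj
        have e : ((N : ℝ) - ((j + 1 : ℕ) : ℝ)) * ε = ((N : ℝ) - j) * ε - ε := by push_cast; ring
        rw [FS, e]
        exact nxt b hε ε3 ε4 (show R₀ + 1 + 2 * (L₀ + 1) + 1 ≤ _ by linarith) q1 hq
          (hκ.trans_le q2) lo.2.2 (le_mul_of_one_le_left hε.le (by linarith)) (sj j hj.le).2
          r2.continuousAt (r3 hq) b1 b2 b3 b4 fun p z1 z2 z3 z4 => (hT p z1 z2 z3 z4).2.2.2.2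
      · rw [r1] at t3 t4 ⊢
        exact ⟨t3, t4⟩) N le_rfl
  have eN : X₀ + N * ε * q.2 = q.1 := by rw [pt]; simp
  have kN := (inK N le_rfl).2.1
  rw [eN] at o6 kN
  refine ⟨r2, ?_, fun hq => (r3 hq).trans (by simp)⟩
  rw [r1]
  refine cls zs0 hβ hβ' η0 η1 η2 S1 hS kN (by linarith) ?_ o5 o6
  have e : y - q.1 = (y - (Z (X₀, q.2)).1) + ((Z (X₀, q.2)).1 - X₀) +
      (0 - ((N : ℝ) * ε : ℝ) * q.2) := by rw [hX]; ring
  have k := (back (X := 0) (a := 0) (by simp) W2 Nε N2).1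
  rw [e]
  exact norm_add₃_le.trans (by linarith)

end Vale.Agent.P097E
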