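import Vale.Agent.P097E.N1Pre
import Vale.Agent.P097E.Sh
import Vale.Agent.P097E.Gap
import Vale.Agent.P097E.GlueW

/-!
# P097E: the entire case
-/

namespace Vale.Agent.P097E

theorem win : Spec_WIN := by
  obtain ⟨sg, Zm, zs, m, m'⟩ := mdl md
  exact fin sg Zm zs m m' (gap sg Zm zs m m' (sh sg Zm zs m))

theorem n1 : P097Top.Spec_N1 := n1_pre sh gap gw

end Vale.Agent.P097E
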