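import Vale.Agent.P097E.B1
import Vale.Agent.P097E.Mod
import Vale.Agent.P097E.Mdl
import Vale.Agent.P097E.Fin
import Vale.Agent.P097E.GlueA
import Vale.Agent.P097E.GlueB

/-!
# P097E: the entire case from the three last blocks
-/

namespace Vale.Agent.P097E

theorem n1_pre (sh : Spec_SH) (gap : Spec_GAP) (gw : Spec_GW) : P097Top.Spec_N1 :=
  n1_asm b1 (mdl md) sh gap fin (glue_of ga gw gb)

end Vale.Agent.P097E
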