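import Vale.Agent.P097E.PolyB1
import Vale.Agent.P097N.K

/-!
# P097E: the window and the chord function at a level of a finite strip
-/

set_option linter.all false

noncomputable section

namespace Vale.Agent.P097E

open Filter Topology Set Metric Complex Cs Vale.Agent.P097N

namespace PW

variable {c r p P m : ℝ} {θ H Q f F : ℂ → ℂ} {y X : ℂ}

/-- the window coordinate -/
def xc (f : ℂ → ℂ) (m : ℝ) (y X : ℂ) : ℂ := y + m * (arg (f y) + X)

theorem xc_der (f : ℂ → ℂ) (m : ℝ) (y X : ℂ) : HasDerivAt (xc f m y) (m * 1) X :=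
  (((hasDerivAt_id X).const_add _).const_mul _).const_add _

theorem xc_op (f : ℂ → ℂ) (m : ℝ) (y : ℂ) (r : ℝ) : IsOpen (xc f m y ⁻¹' St r) :=
  (PB.op r).preimage (continuous_iff_continuousAt.2 fun X => (xc_der f m y X).continuousAt)

theorem dwc (hF : DifferentiableOn ℂ F (St r)) :
    DifferentiableOn ℂ (wc f m y F) (xc f m y ⁻¹' St r) :=
  hF.comp (fun X _ => (xc_der f m y X).differentiableAt.differentiableWithinAt) fun _ h => h

theorem der (hF : DifferentiableOn ℂ F (St r)) (k : ℂ) {G : ℂ → ℂ}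
    (e : ∀ X ∈ xc f m y ⁻¹' St r, G X = k * wc f m y F X) :
    ∀ X ∈ xc f m y ⁻¹' St r, deriv G X = k * m * wc f m y (deriv F) X := fun X hX => by
  have e' : G =ᶠ[𝓝 X] fun X => k * wc f m y F X := by
    filter_upwards [(xc_op f m y r).mem_nhds hX] with u hu using e u hu
  rw [e'.deriv_eq]
  refine (((hF.differentiableAt ((PB.op r).mem_nhds hX)).hasDerivAt.comp X
    (xc_der f m y X)).const_mul k).deriv.trans ?_
  simp only [wc, xc]
  ring

theorem d1 (hF : DifferentiableOn ℂ F (St r)) : ∀ X ∈ xc f m y ⁻¹' St r,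
    deriv (wc f m y F) X = 1 * m * wc f m y (deriv F) X := der hF 1 fun _ _ => (one_mul _).symm

theorem d2 (hF : DifferentiableOn ℂ F (St r)) : ∀ X ∈ xc f m y ⁻¹' St r,
    deriv (deriv (wc f m y F)) X = 1 * m * m * wc f m y (deriv (deriv F)) X :=
  der (hF.deriv (PB.op r)) _ (d1 hF)

theorem d3 (hF : DifferentiableOn ℂ F (St r)) : ∀ X ∈ xc f m y ⁻¹' St r,
    deriv (deriv (deriv (wc f m y F))) X =
      1 * m * m * m * wc f m y (deriv (deriv (deriv F))) X :=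
  der ((hF.deriv (PB.op r)).deriv (PB.op r)) _ (d2 hF)

theorem cv (C : P097Top.Cur r c θ H Q) (m0 : 0 < m) {U : Set ℂ} (hU : IsOpen U)
    (s : U ⊆ xc f m y ⁻¹' St r) :
    Cv (wc f m y θ) (wc f m y H) (fun X => m ^ 2 * wc f m y Q X) (m ^ 3 * c) U := by
  refine ⟨hU, (dwc C.dθ).mono s, (dwc C.dH).mono s, ((dwc C.dQ).const_mul _).mono s,
    mul_ne_zero (pow_ne_zero _ (ofReal_ne_zero.2 m0.ne')) (ofReal_ne_zero.2 C.cpos.ne'),
    fun X hX => ?_, fun X hX => ?_⟩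
  · rw [d2 C.dH X (s hX), d2 C.dθ X (s hX), d1 C.dH X (s hX), d1 C.dθ X (s hX),
      ← C.laz _ (s hX)]
    simp only [wc, xc]
    ring
  · rw [d3 C.dθ X (s hX), d1 C.dθ X (s hX)]
    have := C.ode _ (s hX)
    simp only [wc, xc] at this ⊢
    rw [this]
    ring

theorem y0 (l : Lvp f Q r p P m y) : 0 ≤ y.im := by
  nlinarith [l.PT, mul_pos l.m0 (show 0 < P by linarith [l.p16, l.pP])]

theorem mem (l : Lvp f Q r p P m y) (hX : ‖X‖ < p) : X ∈ xc f m y ⁻¹' St r := by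
  have u1 := mul_lt_mul_of_pos_left ((abs_im_le_norm X).trans_lt hX) l.m0
  have u2 := abs_add_le y.im (m * X.im)
  rw [abs_mul, abs_of_pos l.m0, abs_of_nonneg (y0 l)] at u2
  show |(xc f m y X).im| < r
  rw [show (xc f m y X).im = y.im + m * X.im by simp [xc]]
  linarith [l.top]

theorem wv (dθ : DifferentiableOn ℂ θ (St r)) (l : Lvp (deriv θ) Q r p P m y) {ρ : ℝ}
    (hr : 16 * ρ ^ 2 ≤ p) (hX : ‖X‖ + 4 ≤ ρ) :
    ‖(((m * Real.exp P)⁻¹ : ℝ) : ℂ) * deriv (wc (deriv θ) m y θ) X *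
      exp (X * I) - 1‖ ≤ 64 * ρ ^ 2 / p := by
  have k := l.wv (arg (deriv θ y) + X) ρ (by
    have h1 := norm_add_le ((arg (deriv θ y) : ℝ) : ℂ) X
    rw [norm_real, Real.norm_eq_abs] at h1
    linarith [abs_arg_le_pi (deriv θ y), Real.pi_le_four]) hr
  refine le_of_eq_of_le ?_ k
  have e := norm_mul_exp_arg_mul_I (deriv θ y)
  rw [l.val] at e
  have m0 : (m : ℂ) ≠ 0 := ofReal_ne_zero.2 l.m0.ne'
  have e0 : ((Real.exp P : ℝ) : ℂ) ≠ 0 := ofReal_ne_zero.2 (Real.exp_pos P).ne'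
  rw [d1 dθ X (mem l (by nlinarith [norm_nonneg X])), add_mul, Complex.exp_add]
  simp only [wc]
  generalize deriv θ (y + m * (arg (deriv θ y) + X)) = u
  have e1 := Complex.exp_ne_zero (arg (deriv θ y) * I)
  generalize exp (arg (deriv θ y) * I) = v at e e1
  rw [← e, ofReal_inv, ofReal_mul]
  congr 2
  field_simp

theorem qb (l : Lvp (deriv θ) Q r p P m y) {z : ℂ} (h1 : z.im ≤ 0) (h2 : 4 * -z.im ≤ p) :
    ‖(m : ℂ) ^ 2 * wc (deriv θ) m y Q z‖ ≤ Real.exp z.im / (m * Real.exp P)⁻¹ ^ 2 := by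
  have m0 := l.m0
  have i1 : (y + m * (arg (deriv θ y) + z)).im = y.im - m * -z.im := by simp
  have i2 : m * -z.im ≤ y.im := by
    linarith [l.PT, mul_le_mul_of_nonneg_left (h2.trans l.pP) m0.le]
  have i3 := (l.low (y + m * (arg (deriv θ y) + z)) (-z.im)
    (by rw [i1, abs_of_nonneg (sub_nonneg.2 i2)]) (by linarith) (by linarith)).2
  rw [norm_mul, norm_pow, norm_real, Real.norm_eq_abs, abs_of_pos m0, inv_pow,
    div_inv_eq_mul, mul_pow, mul_left_comm]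
  refine mul_le_mul_of_nonneg_left (i3.trans_eq ?_) (by positivity)
  rw [← Real.exp_nat_mul, ← Real.exp_nat_mul, ← Real.exp_add]
  congr 1
  push_cast
  ring

theorem ar {x E : ℝ} (h0 : 0 < x) (h1 : x ≤ 2 * E) (h2 : E ≤ 1 / 3600) :
    x + (2 * x) ^ 2 ≤ 10 * E ∧ 36 * x ^ 2 ≤ 72 * E := by
  constructor <;> nlinarith

theorem pv {c : ℂ} {ε R : ℝ} (V : Cv θ H Q c (ball 0 (R + 3))) (ε0 : 0 < ε) (ε2 : ε ≤ 1 / 16)
    (g1 : ∀ z : ℂ, ‖z‖ ≤ R + 2 → ‖deriv θ z‖ ≤ 2 * Real.exp z.im / ε)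
    (q1 : ∀ z : ℂ, ‖z‖ ≤ R + 1 → z.im ≤ 0 → ‖Q z‖ ≤ Real.exp z.im / ε ^ 2) :
    Pv θ H ε R 3600 3600 := by
  intro b c' h1 h2 h3
  set E := Real.exp b.im with hE
  have E0 : 0 < E := Real.exp_pos _
  have E1 : E ≤ 1 / 3600 := by
    have h4 := Real.add_one_le_exp (-b.im)
    rw [Real.exp_neg] at h4
    rw [one_div, le_inv_comm₀ E0 (by norm_num)]
    linarith
  have x2 : Real.exp (1 / 4) ≤ 2 := by
    have := Real.exp_bound_div_one_sub_of_interval (x := 1 / 4) (by norm_num) (by norm_num)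
    linarith [show (1 : ℝ) / (1 - 1 / 4) ≤ 2 by norm_num]
  have nb : ‖b - c'‖ ≤ 4 * ε := by rwa [norm_sub_rev]
  have zz : ∀ z ∈ segment ℝ c' b, ‖z - b‖ ≤ 1 / 4 := fun z hz =>
    mem_closedBall_iff_norm.1 ((convex_closedBall b (1 / 4)).segment_subset
      (mem_closedBall_iff_norm.2 (by linarith)) (mem_closedBall_self (by norm_num)) hz)
  have sg : segment ℝ c' b ⊆ ball 0 (R + 3) := fun z hz =>
    mem_ball_zero_iff.2 (by linarith [norm_sub_norm_le z b, zz z hz])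
  have k : ∀ z ∈ segment ℝ c' b, ‖Q z - deriv θ z ^ 2‖ ≤ 10 * E / ε ^ 2 ∧
      ‖3 * deriv θ z * deriv (deriv θ) z‖ ≤ 72 * E / ε ^ 2 := fun z hz => by
    have z1 := zz z hz
    have z2 : ‖z‖ ≤ R + 1 := by linarith [norm_sub_norm_le z b]
    have z3 := abs_le.1 ((abs_im_le_norm (z - b)).trans z1)
    rw [sub_im] at z3
    have z5 : Real.exp z.im ≤ 2 * E := by
      rw [show z.im = (z.im - b.im) + b.im by ring, Real.exp_add]
      exact mul_le_mul_of_nonneg_right ((Real.exp_le_exp.2 z3.2).trans x2) E0.le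
    have z6 := Real.exp_pos z.im
    have a1 := g1 z (by linarith)
    have a2 : ‖deriv (deriv θ) z‖ ≤ 2 * (3 * Real.exp z.im) / ε / 1 :=
      norm_deriv_le_of_forall_mem_sphere_norm_le one_pos
        ((V.dθ.deriv isOpen_ball).diffContOnCl_ball (closedBall_subset_ball' (by
          rw [dist_zero_right]; linarith))) fun u hu => by
          have u1 := mem_sphere_iff_norm.1 hu
          have u2 := (abs_le.1 ((abs_im_le_norm (u - z)).trans u1.le)).2
          rw [sub_im] at u2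
          refine (g1 u (by linarith [norm_sub_norm_le u z])).trans ?_
          rw [show u.im = (u.im - z.im) + z.im by ring, Real.exp_add]
          have := (Real.exp_le_exp.2 u2).trans Real.exp_one_lt_three.le
          gcongr
    have a4 : ‖deriv θ z‖ ^ 2 ≤ (2 * Real.exp z.im / ε) ^ 2 := by gcongr
    constructor
    · refine (norm_sub_le _ _).trans ?_
      rw [norm_pow]
      refine (add_le_add (q1 z z2 (by linarith [z3.2])) a4).trans ?_
      rw [div_pow, ← add_div]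
      exact div_le_div_of_nonneg_right (ar z6 z5 E1).1 (by positivity)
    · rw [norm_mul, norm_mul, Complex.norm_ofNat]
      refine (mul_le_mul (mul_le_mul_of_nonneg_left a1 (by norm_num)) a2 (norm_nonneg _)
        (by positivity)).trans ?_
      rw [show 3 * (2 * Real.exp z.im / ε) * (2 * (3 * Real.exp z.im) / ε / 1) =
        36 * Real.exp z.im ^ 2 / ε ^ 2 by ring]
      exact div_le_div_of_nonneg_right (ar z6 z5 E1).2 (by positivity)
  have k2 : 10 * E / ε ^ 2 * ‖b - c'‖ ^ 2 ≤ 300 * E :=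
    calc _ ≤ 10 * E / ε ^ 2 * (4 * ε) ^ 2 := by gcongr
      _ = 160 * E := by field_simp; ring
      _ ≤ _ := by linarith
  have k3 : 72 * E / ε ^ 2 * ‖b - c'‖ ^ 3 ≤ 300 * E :=
    calc _ ≤ 72 * E / ε ^ 2 * (4 * ε) ^ 3 := by gcongr
      _ = 4608 * (E * ε) := by field_simp; ring
      _ ≤ _ := by linarith [mul_le_mul_of_nonneg_left ε2 E0.le]
  obtain ⟨s1, s2⟩ := sk _ _ _ _ _ V
  obtain ⟨t1, t2⟩ := s2 b c' _ _ _ sg k k2 k3 (by linarith)
  exact ⟨t1.trans_eq (by ring), fun n =>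
    ⟨t2 n.symm, (s1 b (sg (right_mem_segment _ _ _)) c' (sg (left_mem_segment _ _ _))).2.2 (t2 n.symm)⟩⟩

end PW

open PW

theorem pw : Spec_PW := by
  refine ⟨3600, 3600, by norm_num, fun R η₀ k0 => ?_⟩
  obtain ⟨ρ, r6, hr⟩ : ∃ r : ℝ, 6 ≤ r ∧ R + 6 ≤ r :=
    ⟨|R| + 6, by linarith [abs_nonneg R], by linarith [le_abs_self R]⟩
  have n1 : 0 ≤ 64 * ρ ^ 2 / η₀ := by positivity
  have n3 : 6 * ρ ≤ ρ ^ 2 := by nlinarith
  refine ⟨64 * ρ ^ 2 / η₀ + 64 * ρ ^ 2, fun r c p P m θ H Q y C hP b l => ?_⟩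
  have m0 := l.m0
  have P0 : 0 < p := by linarith [l.p16]
  have P1 : 64 * ρ ^ 2 ≤ p := by linarith
  have P2 : 16 * ρ ^ 2 ≤ p := by linarith
  have V := cv (f := deriv θ) (y := y) C l.m0 (isOpen_ball (x := 0) (ε := R + 3)) fun X hX =>
    mem l (by linarith [mem_ball_zero_iff.1 hX])
  have s := ball_subset_ball (x := (0 : ℂ)) (show R ≤ R + 3 by linarith)
  have ε0 : 0 < (m * Real.exp P)⁻¹ := by positivity
  refine ⟨⟨V.dθ.mono s, V.dh.mono s, V.c0, fun X hX => V.ode X (s hX), fun X hX =>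
    (wv C.dθ l P2 (by linarith [mem_ball_zero_iff.1 hX])).trans ?_⟩,
    pv V ε0 ?_ (fun z hz => ?_) fun z h1 h2 => qb l h2 ?_⟩
  · rw [div_le_comm₀ P0 k0]
    linarith
  · rw [one_div]
    exact inv_anti₀ (by norm_num) (by linarith)
  · have k := (wv C.dθ l P2 (X := z) (by linarith)).trans ((div_le_one P0).2 P1)
    generalize (m * Real.exp P)⁻¹ = ε at k ε0
    have k1 := norm_sub_norm_le ((ε : ℂ) * deriv (wc (deriv θ) m y θ) z * exp (z * I)) 1
    rw [norm_mul, norm_mul, norm_real, Real.norm_eq_abs, abs_of_pos ε0, Complex.norm_exp,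
      norm_one, show (z * I).re = -z.im by simp, Real.exp_neg] at k1
    rw [le_div_iff₀ ε0, ← div_le_iff₀ (Real.exp_pos _), div_eq_mul_inv]
    linarith
  · linarith [(abs_le.1 ((abs_im_le_norm z).trans h1)).1]

end Vale.Agent.P097E
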