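import Vale.Agent.P097E.GlueLv
import Vale.Agent.P097E.PolyW2

/-!
# P097E: the vertex map at a level of a finite strip
-/

set_option linter.all false

noncomputable section

namespace Vale.Agent.P097E

open Filter Topology Set Metric Vale.Agent.P097N Vale.Agent.P097N.BlR

/-- the uniform baseline, for strips of any width -/
theorem ub2 : ∃ c C : ℝ, 0 < c ∧ c ≤ 1 / 100 ∧ 1 ≤ C ∧
  ∀ (θ h : ℂ → ℂ) (Y : ℂ × ℂ → ℂ) (η ε M : ℝ), Col Y η ε M →
    (∀ x ∈ St η, ∀ w ∈ ball (0 : ℂ) ε, Y (x + 1, w) = Y (x, w) + 1) →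
    (∀ x ∈ St η, ∀ w ∈ ball (0 : ℂ) ε, x - w ∈ St η → x + w ∈ St η →
      EE θ h (Y (x - w, w)) (Y (x, w)) (Y (x + w, w)) = 0) →
    ∃ A₀ : ℝ, 1 ≤ A₀ ∧ ∀ (Q : ℂ → ℂ) (c₀ : ℂ) (r₀ A : ℝ), A₀ ≤ A → 2 * η ≤ r₀ → A₀ * r₀ ≤ A →
      Cv θ h Q c₀ (St r₀) → GrA θ Q r₀ A → ∃ Z : ℂ × ℂ → ℂ, Bl Z r₀ (c / A) (C * A ^ 2) ∧
        (∀ p : ℂ × ℂ, Z (p.1 + 1, p.2) = Z p + 1) ∧
        (∀ p ∈ Om r₀ (c / A), |p.1.im| < η / 2 → Z p = Y p) ∧
        ∀ x w : ℂ, (x - w, w) ∈ Om r₀ (c / A) → (x, w) ∈ Om r₀ (c / A) →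
          (x + w, w) ∈ Om r₀ (c / A) → EE θ h (Z (x - w, w)) (Z (x, w)) (Z (x + w, w)) = 0 := by
  obtain ⟨c, C, c0, c1, C1, cC, hb⟩ := b2
  refine ⟨c / 8, 16 * C, by positivity, by linarith, by linarith, ?_⟩
  intro θ h Y η ε M col per law
  have η0 := col.hη
  have ε0 := col.hε
  obtain ⟨C₀, C0, hC⟩ := scol Y η ε M col
  have p1 : 0 < 1 / ε := by positivity
  have p2 : 0 < 4 / η := by positivity
  refine ⟨1 + 1 / ε + 4 / η + C₀, by linarith, fun Q c₀ r₀ A r1 hη hA cv G => ?_⟩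
  have r0 : 0 < r₀ := by linarith
  have a0 : r₀ ≤ A := by nlinarith
  have A1 : 1 ≤ A := by linarith
  have A0 : 0 < A := by linarith
  have a1 : C₀ * r₀ ≤ A := by nlinarith
  have a2 : C₀ * r₀ ≤ A ^ 2 := by nlinarith
  have a3 : C₀ * r₀ ^ 2 ≤ A ^ 2 := by nlinarith
  have e0 : r₀ / (A / c) = c * (r₀ / A) := by field_simp
  have q0 : 0 < r₀ / A := by positivity
  have q1 : r₀ / A ≤ ε := by
    rw [div_le_iff₀ A0]
    have : 1 / ε * r₀ ≤ A := by nlinarith
    rwa [one_div_mul_eq_div, div_le_iff₀' ε0] at this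
  have q2 : r₀ / A ≤ η / 4 := by
    rw [div_le_iff₀ A0]
    have : 4 / η * r₀ ≤ A := by nlinarith
    rw [div_mul_eq_mul_div, div_le_iff₀' η0] at this
    linarith
  have b1 : ∀ w ∈ ball (0 : ℂ) (r₀ / (A / c)), ‖w‖ < c * (r₀ / A) ∧ w ∈ ball (0 : ℂ) ε :=
    fun w hw => by
      rw [mem_ball_zero_iff, e0] at hw
      exact ⟨hw, mem_ball_zero_iff.2 (by nlinarith)⟩
  have sb : St (η / 2) ⊆ St η := st_mono (by linarith)
  have H : HD (fun p => Y p - p.1) r₀ (A / c) (η / 2) (C * c * A) := by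
    refine ⟨by linarith, by positivity, by positivity, by positivity,
      (col.d.mono (prod_mono sb fun w hw => (b1 w hw).2)).sub differentiableOn_fst,
      fun x hx w hw => ?_, fun x hx w hw => ?_, fun x hx w hw => ?_, fun w hw s => ?_⟩
    · simp only [per x (sb hx) w (b1 w hw).2]
      ring
    · simp only [col.ev x (sb hx) w (b1 w hw).2]
    · refine ((hC w (b1 w hw).2).1 x (sb hx)).trans ?_
      rw [sq, ← mul_assoc]
      refine mul_le_mul_of_nonneg_right ?_ (norm_nonneg _)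
      have k1 : C₀ * (r₀ / A) ≤ 1 := by rw [← mul_div_assoc, div_le_one A0]; exact a1
      have k2 := mul_le_mul_of_nonneg_left (b1 w hw).1.le C0
      have k3 : 1 ≤ C * A := by nlinarith
      nlinarith
    · by_cases w0 : w = 0
      · subst w0
        exact ⟨fun _ => 0, differentiableOn_const _,
          fun x hx => by simp [col.zero x (sb hx)], fun x _ => by simp⟩
      obtain ⟨k1, k2⟩ := b1 w hw
      obtain ⟨z, dz, ez, bz⟩ := hb θ h Q c₀ r₀ A (η / 2) C₀ w (fun x => Y (x, w)) cv G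
        (by linarith) (by linarith) (by linarith) a2 a3 w0 s (by nlinarith)
        (Base.slice col.d fun x hx => ⟨sb hx, k2⟩) (fun x hx => (hC w k2).1 x (sb hx)) (hC w k2).2
        fun x a b => law x (by
          have a1 := abs_lt.1 (show |(x - w).im| < η / 2 from a)
          have a2 := abs_lt.1 (show |(x + w).im| < η / 2 from b)
          rw [Complex.sub_im] at a1
          rw [Complex.add_im] at a2
          show |x.im| < η
          rw [abs_lt]
          constructor <;> linarith [a1.1, a2.1, a1.2, a2.2]) w k2 (sb a) (sb b)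
      rw [show A * ‖w‖ / c = A / c * ‖w‖ by ring] at dz bz
      refine ⟨fun x => z x - x, dz.sub differentiableOn_id, fun x hx => by simp only [ez hx],
        fun x hx => (bz x hx).trans ?_⟩
      have k3 : A / c * ‖w‖ < r₀ - |x.im| := by linarith [show |x.im| < _ from hx]
      rw [div_le_iff₀ (lt_of_le_of_lt (by positivity) k3)]
      calc C * A ^ 2 * ‖w‖ ^ 2 = C * c * A * ‖w‖ * (A / c * ‖w‖) := by field_simp
        _ ≤ _ := by gcongr
  obtain ⟨G', dG, pG, hG⟩ := hull H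
  rw [show 1 / (8 * (A / c)) = c / 8 / A by field_simp] at dG hG
  have B : Bl (fun p => G' p + p.1) r₀ (c / 8 / A) (16 * C * A ^ 2) := by
    refine ⟨by positivity, by positivity, dG.add differentiableOn_fst,
      fun p hp => by simp only [(hG p hp).1], fun p hp => ?_, ?_⟩
    · rw [add_sub_cancel_right]
      exact (hG p hp).2.2.trans_eq (by field_simp)
    · rw [show 16 * C * A ^ 2 * (c / 8 / A) ^ 2 = C * c ^ 2 / 4 by field_simp; ring]
      linarith
  have zy : ∀ p ∈ Om r₀ (c / 8 / A), |p.1.im| < η / 2 → G' p + p.1 = Y p := fun p hp k => by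
    rw [(hG p hp).2.1 k, sub_add_cancel]
  have e1 : c / 8 / A * r₀ = c / 8 * (r₀ / A) := by ring
  exact ⟨_, B, fun p => by simp only [pG]; ring, zy, fun x w => law_cone cv B η0
    (by rw [e1]; nlinarith) (by rw [e1]; nlinarith) zy law⟩

/-- the baselines at all levels `0 ≤ t ≤ R` below a high level -/
theorem levels2 : ∃ c C : ℝ, 0 < c ∧ c ≤ 1 / 100 ∧ 1 ≤ C ∧
    ∀ (r c₀ κ : ℝ) (θ H Q : ℂ → ℂ) (Y : ℂ × ℂ → ℂ), P097Top.Cur r c₀ θ H Q →
      P097Top.Sol0 θ H κ Y → 2 * κ ≤ r → ∀ R : ℝ, 0 ≤ R → ∃ Λ : ℝ, ∀ (p P m : ℝ) (y : ℂ), R ≤ p →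
        Λ ≤ P → Λ ≤ m * Real.exp P → Lvp (deriv θ) Q r p P m y → ∃ Z : ℝ → ℂ × ℂ → ℂ,
          (∀ t ∈ Icc 0 R, One θ H Q c₀ (y.im - m * t) (2 * m * Real.exp (P - t / 2)) c C (Z t)) ∧
          ∀ t ∈ Icc 0 R, ∀ s ∈ Icc 0 R,
            ∀ p ∈ Om (y.im - m * t) (c / (2 * m * Real.exp (P - t / 2))),
            p ∈ Om (y.im - m * s) (c / (2 * m * Real.exp (P - s / 2))) → Z t p = Z s p := by
  obtain ⟨c, C, c0, c1, C1, U⟩ := ub2
  refine ⟨c, C, c0, c1, C1, fun r c₀ κ θ H Q Y K S hκ R R0 => ?_⟩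
  have κ0 := S.pos
  have col : Col Y κ κ κ := ⟨S.pos, S.pos, S.an.differentiableOn, fun x hx => by
      simpa [sub_eq_zero] using S.bd (x, 0) ⟨hx, mem_ball_self S.pos⟩,
      fun x hx w hw => S.ev (x, w) ⟨hx, hw⟩, fun x hx w hw =>
        (S.bd (x, w) ⟨hx, hw⟩).trans (mem_ball_zero_iff.1 hw).le⟩
  have sb : St (κ / 2) ⊆ St κ := st_mono (by linarith)
  obtain ⟨A₀, A1, U⟩ := U θ H Y (κ / 2) κ κ (col_mono col (by linarith) (by linarith) κ0 le_rfl)
    (fun x hx w hw => S.per (x, w) ⟨sb hx, hw⟩)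
    fun x hx w hw a b => (Bridge.law_eq ..).symm.trans (S.law (x, w) ⟨sb hx, hw⟩ (sb a) (sb b))
  have E := PB.fn_of_cur K
  have r0 := K.rpos
  have s0 : {z : ℂ | |z.im| ≤ 3 / 4 * r} ⊆ P097T.Strip r := fun z hz =>
    lt_of_le_of_lt hz (by linarith : 3 / 4 * r < r)
  obtain ⟨z₀, -, hB⟩ := PB.max_strip (g := fun z => ‖deriv θ z‖) (S := 3 / 4 * r) (by linarith)
    (E.df.continuousOn.mono s0).norm fun z hz => by rw [E.perf z (s0 hz)]
  have n1 := norm_nonneg (deriv θ z₀)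
  have n2 : 0 ≤ A₀ * (1 + r) * Real.exp (R / 2) := by positivity
  refine ⟨‖deriv θ z₀‖ + 16 * R + A₀ * (1 + r) * Real.exp (R / 2), fun p P m y hp h h' L => ?_⟩
  have m0 := L.m0
  have y0 := PW.y0 L
  have P0 : 0 < P := by linarith [L.p16, L.pP]
  have yr : y.im ≤ r := by nlinarith [L.top, L.p16]
  have hy : 3 / 4 * r < y.im := by
    by_contra k
    have := hB y (by rw [abs_of_nonneg y0]; exact not_lt.1 k)
    rw [L.val] at this
    linarith [Real.add_one_le_exp P]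
  have mR : m * R ≤ r / 4 := by nlinarith [L.PT]
  have main : ∀ t ∈ Icc 0 R, ∃ Z : ℂ × ℂ → ℂ,
      One θ H Q c₀ (y.im - m * t) (2 * m * Real.exp (P - t / 2)) c C Z ∧
      ∀ p ∈ Om (y.im - m * t) (c / (2 * m * Real.exp (P - t / 2))), |p.1.im| < κ / 2 / 2 →
        Z p = Y p := by
    intro t ht
    have h0 := mul_nonneg m0.le ht.1
    have h1 : m * t ≤ r / 4 := (mul_le_mul_of_nonneg_left ht.2 m0.le).trans mR
    have h3 : A₀ * (1 + r) ≤ 2 * m * Real.exp (P - t / 2) := by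
      have k1 : A₀ * (1 + r) * Real.exp (R / 2) ≤ m * Real.exp (P - t / 2) * Real.exp (R / 2) := by
        rw [mul_assoc m, ← Real.exp_add]
        have := mul_le_mul_of_nonneg_left
          (Real.exp_le_exp.2 (show P ≤ P - t / 2 + R / 2 by linarith [ht.2])) m0.le
        linarith
      have k2 := le_of_mul_le_mul_right k1 (Real.exp_pos _)
      have k3 : 0 < m * Real.exp (P - t / 2) := by positivity
      linarith
    have s1 : St (y.im - m * t) ⊆ P097T.Strip r := st_mono (by linarith)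
    have cv : Cv θ H Q c₀ (St (y.im - m * t)) := ⟨st_open _, K.dθ.mono s1, K.dH.mono s1,
      K.dQ.mono s1, Complex.ofReal_ne_zero.2 K.cpos.ne', fun z hz => K.laz z (s1 hz),
      fun z hz => K.ode z (s1 hz)⟩
    have gr : GrA θ Q (y.im - m * t) (2 * m * Real.exp (P - t / 2)) :=
      L.gr t ht.1 (ht.2.trans hp)
    obtain ⟨Z, b, -, e, l⟩ := U Q c₀ _ _ (by nlinarith) (by linarith) (by nlinarith) cv gr
    exact ⟨Z, ⟨cv, gr, by nlinarith, b, l⟩, e⟩
  choose! Z z1 z2 using main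
  exact ⟨Z, z1, fun t ht s hs p a b =>
    agree (by positivity) (z1 t ht).bl (z1 s hs).bl (z2 t ht) (z2 s hs) a b⟩

theorem wc_ee2 {f θ H : ℂ → ℂ} {r : ℝ} (m : ℝ) (y : ℂ) (dθ : DifferentiableOn ℂ θ (St r))
    (dH : DifferentiableOn ℂ H (St r)) {a b c : ℂ} (ha : a ∈ PW.xc f m y ⁻¹' St r)
    (hb : b ∈ PW.xc f m y ⁻¹' St r) (hc : c ∈ PW.xc f m y ⁻¹' St r) :
    EE (wc f m y θ) (wc f m y H) a b c = m ^ 3 *
      EE θ H (y + m * (Complex.arg (f y) + a)) (y + m * (Complex.arg (f y) + b))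
        (y + m * (Complex.arg (f y) + c)) := by
  simp only [EE, kk, k1, PW.d1 dθ _ ha, PW.d1 dθ _ hb, PW.d1 dθ _ hc, PW.d1 dH _ ha, PW.d1 dH _ hb,
    PW.d1 dH _ hc, wc]
  ring

theorem pa : Spec_PA := by
  obtain ⟨c, C, c0, c1, C1, U⟩ := levels2
  have t0 : 0 < 8 / c := by positivity
  refine ⟨8 / c + 1, 48 * C, by linarith, fun R => ⟨|R| + 8 / c, fun r c₀ κ θ H Q Y K S hκ => ?_⟩⟩
  obtain ⟨P₀, U⟩ := U r c₀ κ θ H Q Y K S hκ (|R| + 8 / c) (by positivity)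
  refine ⟨max P₀ (4 * |R|), fun p P m y hp hP hm L => ?_⟩
  obtain ⟨Z, z1, z2⟩ := U p P m y hp ((le_max_left _ _).trans hP) ((le_max_left _ _).trans hm) L
  have m0 := L.m0
  have mc : (m : ℂ) ≠ 0 := Complex.ofReal_ne_zero.2 m0.ne'
  have hy : m * |R| ≤ y.im := by nlinarith [L.PT, (le_max_right _ _).trans hP]
  set β : ℝ := Complex.arg (deriv θ y) with hβ
  have eP := Real.exp_pos P
  have ec : ((Real.exp P : ℝ) : ℂ) ≠ 0 := Complex.ofReal_ne_zero.2 eP.ne'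
  set φ : ℂ × ℂ → ℂ × ℂ := fun q => (y + m * (β + q.1), q.2 / (Real.exp P : ℝ)) with hφ
  have low : ∀ q ∈ Low R (8 / c + 1), -q.1.im ≤ |R| ∧ |(φ q).1.im| = y.im + m * q.1.im ∧
      ‖(φ q).2‖ = ‖q.2‖ / Real.exp P := fun q hq => by
    have h1 : -q.1.im ≤ |R| :=
      (neg_le_abs _).trans ((Complex.abs_im_le_norm _).trans (hq.1.le.trans (le_abs_self R)))
    have h2 : (φ q).1.im = y.im + m * q.1.im := by simp [hφ]
    refine ⟨h1, ?_, ?_⟩
    · rw [h2, abs_of_nonneg (by nlinarith)]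
    · simp only [hφ, norm_div, Complex.norm_real, Real.norm_eq_abs, abs_of_pos eP]
  have mem : ∀ q ∈ Low R (8 / c + 1), ∀ t : ℝ, 8 / c ≤ t → t ≤ -q.1.im - 1 →
      φ q ∈ Om (y.im - m * t) (c / (2 * m * Real.exp (P - t / 2))) := fun q hq t a b => by
    obtain ⟨-, h2, h3⟩ := low q hq
    show ‖(φ q).2‖ < _ * (_ - |(φ q).1.im|)
    rw [h2, h3, Real.exp_sub]
    have h4 := sq_le_exp (t0.le.trans a)
    have h5 : 8 ≤ c * Real.exp (t / 2) := by
      rw [div_le_iff₀' c0] at a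
      nlinarith
    have h6 : c / (2 * m * (Real.exp P / Real.exp (t / 2))) * (y.im - m * t - (y.im + m * q.1.im)) =
        c * Real.exp (t / 2) * (-q.1.im - t) / 2 / Real.exp P := by
      field_simp
      ring
    rw [h6]
    refine div_lt_div_of_pos_right ?_ eP
    nlinarith [hq.2.2]
  have i0 : 8 / c ∈ Icc 0 (|R| + 8 / c) := ⟨t0.le, by linarith [abs_nonneg R]⟩
  have mem0 := fun q hq => mem q hq (8 / c) le_rfl (by linarith [hq.2.1])
  have B := z1 _ i0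
  refine ⟨fun q => (Z (8 / c) (φ q) - y) / m - β, ?_, fun q hq => ?_, fun q hq => ?_,
    fun X W h1 h2 h3 => ?_⟩
  · simp only [div_eq_mul_inv (_ - y)]
    exact (((B.bl.d.comp (f := φ) (by simp only [hφ, div_eq_mul_inv]; fun_prop) mem0).sub_const
      y).mul_const _).sub_const _
  · have := B.bl.ev _ (mem0 q hq)
    simp only [hφ, neg_div] at this ⊢
    rw [this]
  · obtain ⟨h1, h2, h3⟩ := low q hq
    have a : 8 / c ≤ -q.1.im - 1 := by linarith [hq.2.1]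
    have i1 : -q.1.im - 1 ∈ Icc 0 (|R| + 8 / c) := ⟨t0.le.trans a, by linarith⟩
    have k := mem q hq _ a le_rfl
    have b := (z1 _ i1).bl.bd _ k
    rw [← z2 _ i0 _ i1 _ (mem0 q hq) k, h2, h3] at b
    have e : (Z (8 / c) (φ q) - y) / m - β - q.1 = (Z (8 / c) (φ q) - (φ q).1) / m := by
      simp only [hφ]
      field_simp
      ring
    show ‖(Z (8 / c) (φ q) - y) / m - β - q.1‖ ≤ _
    rw [e, norm_div, Complex.norm_real, Real.norm_eq_abs, abs_of_pos m0, div_le_iff₀ m0]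
    refine b.trans ?_
    have e1 : Real.exp (P - (-q.1.im - 1) / 2) ^ 2 =
        Real.exp P ^ 2 * (Real.exp 1 * Real.exp q.1.im) := by
      rw [← Real.exp_nat_mul, ← Real.exp_nat_mul, ← Real.exp_add, ← Real.exp_add]
      congr 1
      push_cast
      ring
    have e2 : C * (2 * m * Real.exp (P - (-q.1.im - 1) / 2)) ^ 2 * (‖q.2‖ / Real.exp P) ^ 2 /
        (y.im - m * (-q.1.im - 1) - (y.im + m * q.1.im)) =
        (Real.exp 1 * ‖q.2‖ ^ 2) * (4 * C * Real.exp q.1.im * m) := by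
      rw [mul_pow, e1, show y.im - m * (-q.1.im - 1) - (y.im + m * q.1.im) = m by ring]
      field_simp
      ring
    rw [e2, show 48 * C * Real.exp q.1.im * m = 12 * (4 * C * Real.exp q.1.im * m) by ring]
    refine mul_le_mul_of_nonneg_right ?_ (by positivity)
    have h4 : ‖q.2‖ ^ 2 ≤ 2 ^ 2 := pow_le_pow_left₀ (norm_nonneg _) hq.2.2.le 2
    nlinarith [Real.exp_one_lt_d9, sq_nonneg ‖q.2‖, Real.exp_pos 1]
  · have e : ∀ u : ℂ, y + m * (β + ((u - y) / m - β)) = u := fun u => by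
      field_simp
      ring
    have e1 : φ (X - ((m * Real.exp P)⁻¹ : ℝ) * W, W) =
        ((φ (X, W)).1 - (φ (X, W)).2, (φ (X, W)).2) := by
      simp only [hφ, Prod.mk.injEq, and_true]
      push_cast at ec ⊢
      field_simp
      ring
    have e2 : φ (X + ((m * Real.exp P)⁻¹ : ℝ) * W, W) =
        ((φ (X, W)).1 + (φ (X, W)).2, (φ (X, W)).2) := by
      simp only [hφ, Prod.mk.injEq, and_true]
      push_cast at ec ⊢
      field_simp
      ring
    have k1 := mem0 _ h1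
    have k3 := mem0 _ h3
    rw [e1] at k1
    rw [e2] at k3
    have s1 : St (y.im - m * (8 / c)) ⊆ St r :=
      BlR.st_mono (by nlinarith [L.top, L.p16, mul_pos m0 t0])
    have mm : ∀ q ∈ Low R (8 / c + 1),
        (Z (8 / c) (φ q) - y) / m - β ∈ PW.xc (deriv θ) m y ⁻¹' St r := fun q hq => by
      show y + m * (β + ((Z (8 / c) (φ q) - y) / m - β)) ∈ St r
      rw [e]
      exact s1 (BlR.bl_mem B.bl (mem0 q hq))
    rw [wc_ee2 m y K.dθ K.dH (mm _ h1) (mm _ h2) (mm _ h3), ← hβ, e, e, e, e1, e2,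
      B.law _ _ k1 (mem0 _ h2) k3, mul_zero]

end Vale.Agent.P097E
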