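import Vale.Agent.P097E.PolyB1

/-!
# P097E: levels in a finite strip
-/

set_option linter.all false

noncomputable section

namespace Vale.Agent.P097E

namespace PB

open Filter Topology Set Metric Complex ComplexConjugate Vale.Agent.P097T

variable {f q : ℂ → ℂ} {r : ℝ}

/-- the asymptotics near the maximum point -/
theorem wv {R : ℝ} (df : DifferentiableOn ℂ f (Strip R)) {P G m : ℝ} {y : ℂ} (hP : 16 ≤ P)
    (m0 : 0 < m) (top : y.im + P * m ≤ R) (PT : m * P ≤ 4 * y.im) (hy : ‖f y‖ = Real.exp G)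
    (hb : ∀ (z : ℂ) (t : ℝ), |z.im| ≤ y.im + m * t → t < P → ‖f z‖ ≤ Real.exp (G - P + P ^ 2 / (P - t)))
    (s : ℂ) (r : ℝ) (hs : ‖s‖ ≤ r) (hr : 16 * r ^ 2 ≤ P) :
    ‖f (y + m * s) * exp (s * I) / f y - 1‖ ≤ 64 * r ^ 2 / P := by
  have P0 : 0 < P := by linarith
  have f0 : f y ≠ 0 := norm_pos_iff.1 (by rw [hy]; exact Real.exp_pos _)
  rcases ((norm_nonneg s).trans hs).eq_or_lt with r0 | r0
  · have : s = 0 := norm_le_zero_iff.1 (r0 ▸ hs)
    rw [this]
    simp [f0]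
    positivity
  have r1 : 8 * r ≤ P := by nlinarith
  have key := borelCaratheodory_zero (f := fun s => f (y + m * s) * exp (s * I) / f y - 1)
    (M := 16 * r ^ 2 / P) (R := 2 * r) (z := s) (by positivity)
    ((((df.comp (by fun_prop) fun u hu => show |(y + m * u).im| < R by
      have u1 := mul_lt_mul_of_pos_left ((abs_im_le_norm u).trans_lt (mem_ball_zero_iff.1 hu)) m0
      have u2 := abs_add_le y.im (m * u.im)
      rw [abs_mul, abs_of_pos m0, abs_of_nonneg (show 0 ≤ y.im by nlinarith)] at u2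
      rw [show (y + m * u).im = y.im + m * u.im by simp]
      nlinarith).mul (by fun_prop)).div_const _).sub_const _)
    (fun u hu => by
      have u1 : |u.im| ≤ 2 * r := (abs_im_le_norm u).trans (mem_ball_zero_iff.1 hu).le
      obtain ⟨u2, u3⟩ := abs_le.1 u1
      have e : (y + m * u).im = y.im + m * u.im := by simp
      have k1 := hb (y + m * u) u.im (by
        rw [e, abs_of_nonneg]
        nlinarith [mul_le_mul_of_nonneg_left u2 m0.le, mul_le_mul_of_nonneg_left r1 m0.le])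
        (by linarith)
      have k2 := k1.trans (Real.exp_le_exp.2 (add_le_add_right (bd_up P0 (by linarith)) _))
      have k3 : ‖f (y + m * u) * exp (u * I) / f y‖ ≤ Real.exp (8 * r ^ 2 / P) := by
        rw [norm_div, norm_mul, norm_exp, hy, div_le_iff₀ (Real.exp_pos _)]
        refine (mul_le_mul_of_nonneg_right k2 (Real.exp_pos _).le).trans ?_
        rw [← Real.exp_add, ← Real.exp_add, Real.exp_le_exp]
        have k4 : 2 * u.im ^ 2 / P ≤ 8 * r ^ 2 / P :=
          div_le_div_of_nonneg_right (by nlinarith [sq_le_sq' u2 u3]) P0.le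
        simp only [mul_re, I_re, I_im, mul_zero, mul_one, zero_sub]
        linarith
      have x0 : 0 ≤ 8 * r ^ 2 / P := by positivity
      have x1 : 8 * r ^ 2 / P ≤ 1 / 2 := by
        rw [div_le_iff₀ P0]
        linarith
      have k5 : Real.exp (8 * r ^ 2 / P) ≤ 1 + 2 * (8 * r ^ 2 / P) := by
        refine (Real.exp_bound_div_one_sub_of_interval x0 (by linarith)).trans ?_
        rw [div_le_iff₀ (by linarith)]
        nlinarith [mul_nonneg x0 (sub_nonneg.2 x1)]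
      have k6 := re_le_norm (f (y + m * u) * exp (u * I) / f y)
      show (f (y + m * u) * exp (u * I) / f y - 1).re ≤ 16 * r ^ 2 / P
      rw [sub_re, one_re, show 16 * r ^ 2 / P = 2 * (8 * r ^ 2 / P) by ring]
      linarith)
    (by linarith) (mem_ball_zero_iff.2 (by linarith)) (by simp [f0])
  refine key.trans ?_
  rw [div_le_iff₀ (by linarith), show 64 * r ^ 2 / P = 4 * (16 * r ^ 2 / P) by ring]
  have x0 : 0 ≤ 16 * r ^ 2 / P := by positivity
  nlinarith [mul_le_mul_of_nonneg_left hs x0, mul_nonneg x0 r0.le]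

/-- no Galilean window -/
theorem gal (E : Fn f q r) (p : ℝ) : ∃ P₁ : ℝ, ∀ (P m : ℝ) (y : ℂ), P₁ ≤ P → 0 < m →
    Real.exp (-(P / 2)) ≤ (p * m) ^ 2 → 0 ≤ y.im → y.im + m ≤ r → ‖q y‖ = Real.exp P ^ 2 →
    (∀ z : ℂ, |z.im| ≤ y.im + m → ‖f z‖ ≤ 8 * Real.exp P ∧ ‖q z‖ ≤ 64 * Real.exp P ^ 2) →
    False := by
  have r0 := E.r0
  have s0 : {z : ℂ | |z.im| ≤ 0} ⊆ Strip r := fun z hz => lt_of_le_of_lt hz r0
  obtain ⟨x₀, k0, hx⟩ := max_strip (g := fun z => -‖f z‖) le_rfl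
    (E.df.continuousOn.mono s0).norm.neg fun z hz => by rw [E.perf z (s0 hz)]
  have c0 : 0 < ‖f x₀‖ := by
    have e : x₀ = (x₀.re : ℂ) :=
      Complex.ext (by simp) (by rw [ofReal_im]; exact abs_nonpos_iff.1 k0)
    rw [e]
    exact (E.pos _).trans_le (re_le_norm _)
  obtain ⟨B, hB⟩ : ∃ B, B = p ^ 2 * (1040 * (260 + r)) := ⟨_, rfl⟩
  have B0 : 0 ≤ B := by rw [hB]; positivity
  refine ⟨max (8 * B + 1) (Real.log (12 / ‖f x₀‖)), fun P m y hP m0 h1 y0 yr hy hb => ?_⟩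
  have P1 := le_of_max_le_left hP
  have P2 := le_of_max_le_right hP
  have P0 : 0 < P := by linarith
  have G0 := Real.exp_pos P
  obtain ⟨K, hK⟩ : ∃ K : ℕ, K = ⌈260 / m⌉₊ := ⟨_, rfl⟩
  have K1 : 260 / m ≤ K := hK ▸ Nat.le_ceil _
  have K2 : (K : ℝ) * m ≤ 260 + r := by
    have := Nat.ceil_lt_add_one (show 0 ≤ 260 / m by positivity)
    rw [← hK] at this
    have := mul_le_mul_of_nonneg_right this.le m0.le
    rw [add_mul, div_mul_cancel₀ _ m0.ne'] at this
    linarith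
  have K0 : 0 < K := by
    rw [hK]
    exact Nat.ceil_pos.2 (by positivity)
  have ib : ∀ w ∈ ball y m, |w.im| < y.im + m := fun w hw => by
    have k1 := abs_im_le_norm (w - y)
    rw [mem_ball, dist_eq_norm] at hw
    rw [sub_im] at k1
    have k2 := abs_add_le (w.im - y.im) y.im
    rw [sub_add_cancel, abs_of_nonneg y0] at k2
    linarith
  have key := spread E (y := y) (A := 12 * Real.exp P) (ρ := m / 260)
    (η := Real.exp (-(Real.exp P * (m / 260) / 2))) K0
    (by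
      rw [div_le_iff₀ m0] at K1
      linarith)
    y0 (by linarith) (by positivity) (Real.exp_pos _).le c0.le
    (fun z hz => by linarith [(hb z (by linarith)).1])
    (fun z hz => small E G0 m0 (fun w hw => (ib w hw).trans_le yr) hy
      (fun w hw => hb w (ib w hw).le) hz)
    (fun x => by linarith [hx x (by simp)])
  have e1 : 12 * Real.exp P ≤ ‖f x₀‖ * Real.exp (2 * P) := by
    have k1 := Real.exp_le_exp.2 P2
    rw [Real.exp_log (by positivity), div_le_iff₀ c0] at k1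
    rw [two_mul, Real.exp_add]
    nlinarith
  have e2 := key.trans (mul_le_mul_of_nonneg_right
    (pow_le_pow_left₀ (by positivity) e1 K) (Real.exp_pos _).le)
  rw [mul_pow, mul_assoc, le_mul_iff_one_le_right (by positivity), ← Real.exp_nat_mul,
    ← Real.exp_add, Real.one_le_exp_iff] at e2
  have e3 : Real.exp P * m ^ 2 ≤ 1040 * (260 + r) * P := by
    have k1 := mul_le_mul_of_nonneg_right K2 P0.le
    have k2 := mul_nonneg e2 m0.le
    nlinarith
  have e4 : Real.exp (P / 2) ≤ B * P := by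
    have k1 := mul_le_mul_of_nonneg_left h1 G0.le
    rw [← Real.exp_add, show P + -(P / 2) = P / 2 by ring] at k1
    have k2 := mul_le_mul_of_nonneg_left e3 (sq_nonneg p)
    rw [hB]
    nlinarith
  have e5 := Real.pow_div_factorial_le_exp (P / 2) (by linarith) 2
  norm_num [Nat.factorial] at e5
  nlinarith

theorem pw1 {p : ℕ} {t : ℝ} (h0 : (0 : ℝ) < p) (ht : t < p) :
    (p / (p - t)) ^ p ≤ Real.exp (-p + p ^ 2 / (p - t)) := by
  have h1 : 0 < p - t := by linarith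
  have h2 := Real.add_one_le_exp (t / (p - t))
  rw [show t / (p - t) + 1 = p / (p - t) by field_simp; ring] at h2
  refine (pow_le_pow_left₀ (by positivity) h2 p).trans_eq ?_
  rw [← Real.exp_nat_mul]
  congr 1
  field_simp
  ring

theorem pw2 {p : ℕ} {t s : ℝ} (h0 : (0 : ℝ) < p) (t0 : 0 ≤ t) (ht : t ≤ p) (s0 : 0 ≤ s) :
    (p / (p - -(t + s))) ^ p * s ≤ 2 * Real.exp (-(t / 2)) := by
  have h1 := (pw1 h0 (show -t < p by linarith)).trans
    (Real.exp_le_exp.2 (add_le_add_right (bd_low h0 t0 ht) _))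
  rw [show -(p : ℝ) + (p - t / 2) = -(t / 2) by ring] at h1
  have h2 := one_add_mul_le_pow (show -2 ≤ s / (p + t) by
    linarith [div_nonneg s0 (show 0 ≤ p + t by linarith)]) p
  have h3 : s / 2 ≤ p * (s / (p + t)) := by
    rw [← mul_div_assoc, div_le_div_iff₀ two_pos (by linarith)]
    nlinarith
  have h4 : (p / (p - -(t + s))) ^ p * (1 + s / (p + t)) ^ p = (p / (p - -t)) ^ p := by
    rw [← mul_pow]
    congr 1
    rw [sub_neg_eq_add, sub_neg_eq_add]
    field_simp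
    ring
  have h5 : 0 ≤ (p / (p - -(t + s))) ^ p := pow_nonneg (div_nonneg h0.le (by linarith)) _
  nlinarith [mul_le_mul_of_nonneg_left (show s / 2 ≤ (1 + s / (p + t)) ^ p by linarith) h5]

/-- selection of a level -/
theorem sel {L : ℂ → ℝ} (Lc : ContinuousOn L (Strip r)) (L0 : ∀ z, 0 ≤ L z)
    (Lp : ∀ z ∈ Strip r, L (z + 1) = L z) (Lj : ∀ z ∈ Strip r, L (conj z) = L z) {p : ℕ}
    (p0 : (0 : ℝ) < p) {Λ : ℝ} (Λ0 : 0 < Λ) {z₁ : ℂ} (h1 : z₁ ∈ Strip r)
    (h2 : 2 ^ p * Λ ≤ L z₁ * (r - |z₁.im|) ^ p) : ∃ (m : ℝ) (y : ℂ), 0 < m ∧ 0 ≤ y.im ∧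
      y.im + p * m < r ∧ Λ ≤ L y * (p * m) ^ p ∧
      ∀ (z : ℂ) (t : ℝ), |z.im| ≤ y.im + m * t → t < p → L z ≤ L y * (p / (p - t)) ^ p := by
  have h1' : |z₁.im| < r := h1
  obtain ⟨S, hS⟩ : ∃ S, S = (|z₁.im| + r) / 2 := ⟨_, rfl⟩
  have a0 := abs_nonneg z₁.im
  have s0 : {z : ℂ | |z.im| ≤ S} ⊆ Strip r := fun z hz => lt_of_le_of_lt hz (by linarith : S < r)
  obtain ⟨y₀, k0, hy₀⟩ := max_strip (g := fun z => L z * (S - |z.im|) ^ p) (S := S) (by linarith)
    ((Lc.mono s0).mul (by fun_prop)) fun z hz => by simp [Lp z (s0 hz)]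
  obtain ⟨y, y0, e1, e2⟩ : ∃ y : ℂ, 0 ≤ y.im ∧ L y = L y₀ ∧ y.im = |y₀.im| := by
    rcases le_total 0 y₀.im with k | k
    · exact ⟨y₀, k, rfl, (abs_of_nonneg k).symm⟩
    · exact ⟨conj y₀, by simpa using k, Lj _ (s0 k0), by rw [conj_im, abs_of_nonpos k]⟩
  rw [← e1, ← e2] at hy₀
  rw [← e2] at k0
  have k1 : Λ ≤ L y * (S - y.im) ^ p := by
    refine le_trans ?_ (hy₀ z₁ (by linarith))
    rw [show r - |z₁.im| = 2 * (S - |z₁.im|) by linarith, mul_pow, mul_left_comm] at h2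
    exact le_of_mul_le_mul_left h2 (by positivity)
  have D0 : 0 < S - y.im := (sub_nonneg.2 k0).lt_of_ne fun e => by
    rw [← e, zero_pow (by rintro rfl; simp at p0), mul_zero] at k1
    linarith
  have eD : p * ((S - y.im) / p) = S - y.im := by field_simp
  refine ⟨(S - y.im) / p, y, by positivity, y0, by linarith, by rwa [eD], fun z t hz ht => ?_⟩
  generalize (S - y.im) / p = m at *
  have m0 : 0 < m := by nlinarith
  have d0 : 0 < p - t := by linarith
  have k2 := hy₀ z (by nlinarith)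
  have k3 : (m * (p - t)) ^ p ≤ (S - |z.im|) ^ p :=
    pow_le_pow_left₀ (by positivity) (by nlinarith) p
  have k4 := (mul_le_mul_of_nonneg_left k3 (L0 z)).trans k2
  rw [← eD, mul_pow, mul_pow, mul_comm (m ^ p), ← mul_assoc, ← mul_assoc] at k4
  rw [div_pow, ← mul_div_assoc, le_div_iff₀ (by positivity)]
  exact le_of_mul_le_mul_right k4 (by positivity)

end PB

open PB Filter Topology Set Metric Complex Vale.Agent.P097T in
theorem pb : Spec_PB := by
  intro r c θ H q C p p16 n Λ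
  have E := fn_of_cur C
  unfold Pol P097Top.dp at n
  generalize deriv θ = f at E n ⊢
  have r0 := E.r0
  have p1 : (16 : ℝ) ≤ p := by exact_mod_cast p16
  have p0 : (0 : ℝ) < p := by linarith
  obtain ⟨P₁, hP₁⟩ := gal E p
  have s0 : {z : ℂ | |z.im| ≤ 0} ⊆ Strip r := fun z hz => lt_of_le_of_lt hz r0
  obtain ⟨x₀, -, hx⟩ := max_strip (g := fun z => ‖f z‖) le_rfl
    (E.df.continuousOn.mono s0).norm fun z hz => by rw [E.perf z (s0 hz)]
  obtain ⟨L, hL⟩ : ∃ L : ℂ → ℝ, L = fun z => max ‖f z‖ √‖q z‖ := ⟨_, rfl⟩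
  have L1 : ∀ z, ‖f z‖ ≤ L z ∧ √‖q z‖ ≤ L z := fun z => by
    rw [hL]
    exact ⟨le_max_left _ _, le_max_right _ _⟩
  have L0 : ∀ z, 0 ≤ L z := fun z => (norm_nonneg _).trans (L1 z).1
  have L2 : ∀ z, ‖q z‖ ≤ L z ^ 2 := fun z => (Real.sqrt_le_iff.1 (L1 z).2).2
  obtain ⟨P₂, hP₂⟩ : ∃ P₂, P₂ = max (max Λ P₁) (max (p : ℝ) (2 * ‖f x₀‖)) := ⟨_, rfl⟩
  obtain ⟨k, rfl⟩ : ∃ k, p = k + 1 := ⟨p - 1, by omega⟩
  generalize hp : k + 1 = p at *
  obtain ⟨Λ₁, a1, a2, a3⟩ : ∃ Λ₁ : ℝ, 1 ≤ Λ₁ ∧ Real.exp P₂ * r ^ p ≤ Λ₁ ∧ |Λ| * p * r ^ k ≤ Λ₁ := by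
    have : 0 ≤ Real.exp P₂ * r ^ p := by positivity
    have : 0 ≤ |Λ| * p * r ^ k := by positivity
    exact ⟨1 + Real.exp P₂ * r ^ p + |Λ| * p * r ^ k, by linarith, by linarith, by linarith⟩
  obtain ⟨z₁, h1, h2⟩ : ∃ z₁ ∈ Strip r, 2 ^ p * Λ₁ ≤ L z₁ * (r - |z₁.im|) ^ p := by
    by_contra h
    push Not at h
    refine n ⟨max (2 ^ p * Λ₁) ((2 ^ p * Λ₁) ^ 2), fun y hy => ?_⟩
    have d0 : 0 ≤ (r - |y.im|) ^ p := pow_nonneg (sub_nonneg.2 (le_of_lt hy)) _
    refine ⟨le_max_of_le_left ((mul_le_mul_of_nonneg_right (L1 y).1 d0).trans (h y hy).le),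
      le_max_of_le_right ?_⟩
    rw [pow_mul']
    refine (mul_le_mul_of_nonneg_right (L2 y) (sq_nonneg _)).trans ?_
    rw [← mul_pow]
    exact pow_le_pow_left₀ (mul_nonneg (L0 y) d0) (h y hy).le 2
  obtain ⟨m, y, m0, y0, top, big, hb⟩ := sel (L := L)
    (hL ▸ E.df.continuousOn.norm.sup E.dq.continuousOn.norm.sqrt) L0
    (fun z hz => by simp only [hL, E.perf z hz, E.perq z hz])
    (fun z hz => by simp only [hL, E.cjf z hz, E.cjq z hz, Complex.norm_conj]) p0
    (by linarith) h1 h2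
  have D0 : 0 < p * m := by positivity
  have D1 : p * m ≤ r := by linarith
  have G0 : 0 < L y := (L0 y).lt_of_ne fun e => by
    rw [← e, zero_mul] at big
    linarith
  have eL := Real.exp_log G0
  generalize Real.log (L y) = P at eL
  rw [← eL] at big hb
  have eP := Real.exp_pos P
  have k1 : P₂ ≤ P := by
    have := (a2.trans big).trans (mul_le_mul_of_nonneg_left (pow_le_pow_left₀ D0.le D1 p) eP.le)
    exact Real.exp_le_exp.1 (le_of_mul_le_mul_right this (by positivity))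
  rw [hP₂] at k1
  have q0 : Λ ≤ P := le_of_max_le_left (le_of_max_le_left k1)
  have q1 : P₁ ≤ P := le_of_max_le_right (le_of_max_le_left k1)
  have q2 : p ≤ P := le_of_max_le_left (le_of_max_le_right k1)
  have q3 : 2 * ‖f x₀‖ ≤ P := le_of_max_le_right (le_of_max_le_right k1)
  have k2 : Λ ≤ m * Real.exp P := by
    have h3 : (p * m) ^ p ≤ r ^ k * (p * m) := by
      rw [← hp, pow_succ, hp]
      exact mul_le_mul_of_nonneg_right (pow_le_pow_left₀ D0.le D1 k) D0.le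
    have h4 := (a3.trans big).trans (mul_le_mul_of_nonneg_left h3 eP.le)
    refine (le_abs_self Λ).trans (le_of_mul_le_mul_right ?_ (show 0 < p * r ^ k by positivity))
    linarith
  have k3 : Real.exp (-(P / 2)) ≤ (p * m) ^ 2 := by
    by_contra h
    push Not at h
    rw [show -(P / 2) = (2 : ℕ) * -(P / 4) by push_cast; ring, Real.exp_nat_mul] at h
    have h3 := pow_lt_pow_left₀ (lt_of_pow_lt_pow_left₀ 2 (Real.exp_pos _).le h) D0.le
      (show p ≠ 0 by omega)
    have h4 := mul_lt_mul_of_pos_left h3 eP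
    rw [← Real.exp_nat_mul, ← Real.exp_add] at h4
    have h5 := Real.one_lt_exp_iff.1 ((a1.trans big).trans_lt h4)
    nlinarith
  have b0 : ∀ (z : ℂ) (t : ℝ), |z.im| ≤ y.im + m * t → t < p →
      L z ≤ Real.exp (P - p + p ^ 2 / (p - t)) := fun z t a b => by
    refine (hb z t a b).trans ((mul_le_mul_of_nonneg_left (pw1 p0 b) eP.le).trans_eq ?_)
    rw [← Real.exp_add]
    congr 1
    ring
  have b2 : ∀ z : ℂ, |z.im| ≤ y.im + m → L z ≤ Real.exp (P + 2) := fun z hz => by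
    refine (b0 z 1 (by rwa [mul_one]) (by linarith)).trans (Real.exp_le_exp.2 ?_)
    have : (p : ℝ) ^ 2 / (p - 1) ≤ p + 2 := by
      rw [div_le_iff₀ (by linarith)]
      nlinarith
    linarith
  have b8 : Real.exp (P + 2) ≤ 8 * Real.exp P := by
    have e : Real.exp 2 = Real.exp 1 * Real.exp 1 := by rw [← Real.exp_add]; norm_num
    have := Real.exp_one_lt_d9
    rw [Real.exp_add, mul_comm]
    exact mul_le_mul_of_nonneg_right (by nlinarith [Real.exp_pos 1]) (Real.exp_pos _).le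
  have yr : y.im + m < r := by nlinarith
  have val : ‖f y‖ = Real.exp P := by
    replace eL : Real.exp P = max ‖f y‖ √‖q y‖ := by rw [eL, hL]
    rcases max_choice ‖f y‖ √‖q y‖ with b | b
    · rw [eL, b]
    · refine (hP₁ P m y q1 m0 k3 y0 yr.le ?_ fun z hz => ?_).elim
      · rw [eL, b, Real.sq_sqrt (norm_nonneg _)]
      · refine ⟨(L1 z).1.trans ((b2 z hz).trans b8), (L2 z).trans ?_⟩
        have := pow_le_pow_left₀ (L0 z) ((b2 z hz).trans b8) 2
        linarith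
  have PT : m * P ≤ 4 * y.im := high E.df m0 y0 yr q3 (by linarith)
    (fun z hz => by
      have := hx z (by rw [hz, abs_zero])
      linarith [Real.add_one_le_exp ‖f x₀‖])
    val fun z hz => (L1 z).1.trans (b2 z hz)
  refine ⟨P, m, y, q0, k2, p1, q2, m0, top.le, PT, val, fun t t0 t1 z hz => ?_,
    fun z t hz t0 t1 => ?_, wv E.df p1 m0 top.le (by nlinarith) val
      fun z t a b => (L1 z).1.trans (b0 z t a b)⟩
  · obtain ⟨s, hs⟩ : ∃ s, y.im - m * t - |z.im| = m * s := ⟨_, (mul_div_cancel₀ _ m0.ne').symm⟩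
    have s0 : 0 ≤ s := by
      by_contra k
      nlinarith
    have h3 := hb z (-(t + s)) (by linarith) (by linarith)
    have h4 := mul_le_mul_of_nonneg_left (pw2 p0 t0 t1 s0) eP.le
    have h5 : L z * (m * s) ≤ 2 * m * Real.exp (P - t / 2) := by
      rw [sub_eq_add_neg, Real.exp_add]
      nlinarith [mul_le_mul_of_nonneg_right h3 s0]
    rw [hs]
    refine ⟨(mul_le_mul_of_nonneg_right (L1 z).1 (by positivity)).trans h5,
      (mul_le_mul_of_nonneg_right (L2 z) (sq_nonneg _)).trans ?_⟩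
    rw [← mul_pow]
    exact pow_le_pow_left₀ (mul_nonneg (L0 z) (by positivity)) h5 2
  · have h3 := (b0 z (-t) (by linarith) (by linarith)).trans (Real.exp_le_exp.2
      (show _ ≤ P - t / 2 by linarith [bd_low p0 t0 t1]))
    exact ⟨(L1 z).1.trans h3, (L2 z).trans (pow_le_pow_left₀ (L0 z) h3 2)⟩

end Vale.Agent.P097E
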