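import Vale.Agent.P097E.N1
import Vale.Agent.P097E.PolyA2
import Vale.Agent.P097E.PolyB

/-!
# P097E: polynomial growth with a universal exponent
-/

namespace Vale.Agent.P097E

theorem poly : Spec_POLY := poly_of win pb pa pw gb

end Vale.Agent.P097E
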