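import Vale.Agent.P097E.PolyDefs
import Vale.Agent.P097N.Bl

/-!
# P097E: tools for levels in a finite strip
-/

set_option linter.all false

noncomputable section

namespace Vale.Agent.P097E.PB

open Filter Topology Set Metric Complex ComplexConjugate Vale.Agent.P097T

variable {f q : ℂ → ℂ} {r : ℝ}

theorem op (r : ℝ) : IsOpen (Strip r) := isOpen_lt (by fun_prop) continuous_const

theorem shift {z : ℂ} (h : z ∈ Strip r) (x : ℝ) : z + x ∈ Strip r := by simpa [Strip] using h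

theorem cjm {z : ℂ} (h : z ∈ Strip r) : conj z ∈ Strip r := by simpa [Strip] using h

theorem perZ {E : Type*} {g : ℂ → E} {S : Set ℂ} (hS : ∀ (z : ℂ) (x : ℝ), z ∈ S → z + x ∈ S)
    (h : ∀ z ∈ S, g (z + 1) = g z) {z : ℂ} (hz : z ∈ S) (n : ℤ) : g (z + n) = g z := by
  induction n using Int.induction_on with
  | zero => simp
  | succ n ih =>
    rw [← ih, ← h _ (by simpa using hS z n hz : z + ((n : ℤ) : ℂ) ∈ S)]
    congr 1
    push_cast
    ring
  | pred n ih =>
    rw [← ih, ← h _ (by simpa using hS z (-n - 1) hz : z + ((-n - 1 : ℤ) : ℂ) ∈ S)]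
    congr 1
    push_cast
    ring

theorem max_strip {g : ℂ → ℝ} {S : ℝ} (hS : 0 ≤ S) (hc : ContinuousOn g {z | |z.im| ≤ S})
    (hp : ∀ z ∈ {z : ℂ | |z.im| ≤ S}, g (z + 1) = g z) :
    ∃ y : ℂ, |y.im| ≤ S ∧ ∀ z : ℂ, |z.im| ≤ S → g z ≤ g y := by
  let K : Set ℂ := {z | |z.re| ≤ 1} ∩ {z | |z.im| ≤ S}
  have hK : IsCompact K := Metric.isCompact_of_isClosed_isBounded
    ((isClosed_le (by fun_prop) continuous_const).inter (isClosed_le (by fun_prop) continuous_const))
    (isBounded_iff_forall_norm_le.2 ⟨1 + S, fun z hz =>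
      (Complex.norm_le_abs_re_add_abs_im z).trans (add_le_add hz.1 hz.2)⟩)
  obtain ⟨y, hy, hm⟩ := hK.exists_isMaxOn ⟨0, by simp [K, hS]⟩ (hc.mono inter_subset_right)
  refine ⟨y, hy.2, fun z hz => ?_⟩
  rw [← perZ (fun z x h => by simpa using h) hp hz (-⌊z.re⌋)]
  refine hm ⟨?_, by simpa using hz⟩
  have := Int.floor_le z.re
  have := Int.lt_floor_add_one z.re
  simp only [Set.mem_setOf_eq, Complex.add_re, Complex.intCast_re, abs_le, Int.cast_neg,
    Complex.neg_re]
  constructor <;> linarith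

theorem pl {F : ℂ → ℂ} {a b B C : ℝ} (hF : DifferentiableOn ℂ F (Strip r)) (h3 : -r < a)
    (h4 : b < r) (hB : ∀ z : ℂ, a < z.im → z.im < b → ‖F z‖ ≤ B)
    (ha : ∀ z : ℂ, z.im = a → ‖F z‖ ≤ C) (hb : ∀ z : ℂ, z.im = b → ‖F z‖ ≤ C) {z : ℂ}
    (h1 : a ≤ z.im) (h2 : z.im ≤ b) : ‖F z‖ ≤ C := by
  rcases (h1.trans h2).eq_or_lt with e | e
  · exact ha z (le_antisymm (e ▸ h2) h1)
  refine PhragmenLindelof.horizontal_strip (hF.mono ((closure_minimal
    (preimage_mono Ioo_subset_Icc_self) (isClosed_Icc.preimage continuous_im)).trans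
      fun w hw => abs_lt.2 ⟨h3.trans_le hw.1, hw.2.trans_lt h4⟩)).diffContOnCl
    ⟨0, div_pos Real.pi_pos (sub_pos.2 e), 0, Asymptotics.IsBigO.of_bound B ?_⟩ ha hb h1 h2
  refine mem_inf_of_right (mem_principal.2 fun w hw => ?_)
  simpa using hB w hw.1 hw.2

/-- the data on the strip -/
structure Fn (f q : ℂ → ℂ) (r : ℝ) : Prop where
  r0 : 0 < r
  df : DifferentiableOn ℂ f (Strip r)
  dq : DifferentiableOn ℂ q (Strip r)
  perf : ∀ z ∈ Strip r, f (z + 1) = f z
  perq : ∀ z ∈ Strip r, q (z + 1) = q z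
  cjf : ∀ z ∈ Strip r, f (conj z) = conj (f z)
  cjq : ∀ z ∈ Strip r, q (conj z) = conj (q z)
  ode : ∀ z ∈ Strip r, deriv (deriv f) z = q z * f z
  pos : ∀ x : ℝ, 0 < (f x).re

theorem ident (r0 : 0 < r) {F G : ℂ → ℂ} (hF : DifferentiableOn ℂ F (Strip r))
    (hG : DifferentiableOn ℂ G (Strip r)) (h : ∀ x : ℝ, F x = G x) : EqOn F G (Strip r) := by
  refine (hF.analyticOnNhd (op r)).eqOn_of_preconnected_of_frequently_eq (hG.analyticOnNhd (op r))
    (P097N.BlR.st_convex r).isPreconnected (z₀ := ((0 : ℝ) : ℂ)) (by simpa [Strip] using r0) ?_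
  have t : Tendsto ofReal (𝓝[≠] 0) (𝓝[≠] ((0 : ℝ) : ℂ)) :=
    tendsto_nhdsWithin_iff.2 ⟨(continuous_ofReal.tendsto 0).mono_left nhdsWithin_le_nhds,
      eventually_mem_nhdsWithin.mono fun w hw => ofReal_injective.ne hw⟩
  exact t.frequently (Eventually.frequently (Eventually.of_forall h))

theorem cj (r0 : 0 < r) {F : ℂ → ℂ} (hF : DifferentiableOn ℂ F (Strip r))
    (h : ∀ x : ℝ, (F x).im = 0) (z : ℂ) (hz : z ∈ Strip r) : F (conj z) = conj (F z) := by
  have := ident r0 (F := conj ∘ F ∘ conj) (fun z hz => (differentiableAt_conj_conj_iff.2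
    (hF.differentiableAt ((op r).mem_nhds (cjm hz)))).differentiableWithinAt) hF
    (fun x => by simp only [Function.comp_apply, conj_ofReal]; exact conj_eq_iff_im.2 (h x)) hz
  rw [← this]
  simp

theorem cj_deriv {F : ℂ → ℂ} (h : ∀ z ∈ Strip r, F (conj z) = conj (F z)) (z : ℂ)
    (hz : z ∈ Strip r) : deriv F (conj z) = conj (deriv F z) := by
  have e : conj ∘ F ∘ conj =ᶠ[𝓝 z] F := by
    filter_upwards [(op r).mem_nhds hz] with w hw
    simp [h w hw]
  rw [← e.deriv_eq, deriv_conj_conj]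
  simp

theorem per_deriv {F : ℂ → ℂ} {a : ℂ} (h : ∀ z ∈ Strip r, F (z + 1) = F z + a) (z : ℂ)
    (hz : z ∈ Strip r) : deriv F (z + 1) = deriv F z := by
  have e : (fun w => F (w + 1)) =ᶠ[𝓝 z] fun w => F w + a := by
    filter_upwards [(op r).mem_nhds hz] with w hw using h w hw
  rw [← deriv_comp_add_const, e.deriv_eq, deriv_add_const]

theorem fn_of_cur {c : ℝ} {θ H Q : ℂ → ℂ} (C : P097Top.Cur r c θ H Q) : Fn (deriv θ) Q r := by
  have r0 := C.rpos
  have p1 := per_deriv C.perθ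
  have p2 := per_deriv (a := 0) fun z hz => (p1 z hz).trans (add_zero _).symm
  have p3 := per_deriv (a := 0) fun z hz => (p2 z hz).trans (add_zero _).symm
  have j1 := cj_deriv (cj r0 C.dθ C.reθ)
  have j3 := cj_deriv (cj_deriv j1)
  have n0 : ∀ x : ℝ, deriv θ x ≠ 0 := fun x e => by
    have := C.pos x
    rw [e, zero_re] at this
    exact lt_irrefl _ this
  have re : ∀ x : ℝ, (x : ℂ) ∈ Strip r := fun x => by simpa [Strip] using r0
  have s1 : ∀ z ∈ Strip r, z + 1 ∈ Strip r := fun z hz => by simpa using shift hz 1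
  refine ⟨r0, C.dθ.deriv (op r), C.dQ, p1, fun z hz => ident r0 (F := fun z => Q (z + 1))
    (C.dQ.comp (differentiableOn_id.add_const 1) s1) C.dQ (fun x => ?_) hz, j1,
    cj r0 C.dQ fun x => conj_eq_iff_im.1 ?_, C.ode, C.pos⟩
  · refine mul_right_cancel₀ (n0 x) ?_
    rw [← C.ode _ (re x), ← p3 _ (re x), C.ode _ (s1 _ (re x)), p1 _ (re x)]
  · refine mul_right_cancel₀ (n0 x) ?_
    have k1 := j1 x (re x)
    have k3 := j3 x (re x)
    rw [conj_ofReal] at k1 k3
    rw [← C.ode _ (re x), k3, C.ode _ (re x), map_mul, ← k1]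

/-- the maximum principle in one variable -/
theorem maxp {v v₁ v₂ : ℝ → ℝ} {a b : ℝ} (h1 : ∀ t ∈ Icc a b, HasDerivAt v (v₁ t) t)
    (h2 : ∀ t ∈ Icc a b, HasDerivAt v₁ (v₂ t) t)
    (h3 : ∀ t ∈ Icc a b, 0 < v t → 0 < v₂ t) (ha : v a ≤ 0)
    (hb : v b ≤ 0) : ∀ t ∈ Icc a b, v t ≤ 0 := by
  intro t ht
  by_contra hlt
  push Not at hlt
  obtain ⟨s, hs, hm⟩ := isCompact_Icc.exists_isMaxOn ⟨t, ht⟩
    fun t ht => (h1 t ht).continuousAt.continuousWithinAt
  have s0 : 0 < v s := hlt.trans_le (hm ht)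
  have k1 : a < s := hs.1.lt_of_ne fun e => by rw [← e] at s0; linarith
  have k2 : s < b := hs.2.lt_of_ne fun e => by rw [e] at s0; linarith
  have lm : IsLocalMax v s := hm.isLocalMax (Icc_mem_nhds k1 k2)
  have e1 : deriv v =ᶠ[𝓝 s] v₁ := by
    filter_upwards [Icc_mem_nhds k1 k2] with u hu using (h1 u hu).deriv
  have e2 : deriv (deriv v) s = v₂ s := e1.deriv_eq.trans (h2 s hs).deriv
  have ln : IsLocalMin v s :=
    isLocalMin_of_deriv_deriv_pos (by rw [e2]; exact h3 s hs s0) lm.deriv_eq_zero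
      (h1 s hs).continuousAt
  have e3 : v =ᶠ[𝓝 s] fun _ => v s := by
    filter_upwards [lm, ln] with u u1 u2 using le_antisymm u1 u2
  have e4 := e3.deriv.deriv_eq
  rw [e2] at e4
  have := h3 s hs s0
  simp [e4] at this

theorem line {g : ℂ → ℂ} {z e : ℂ} {t : ℝ} (hg : DifferentiableAt ℂ g (z + t * e)) :
    HasDerivAt (fun t : ℝ => g (z + t * e)) (deriv g (z + t * e) * e) t := by
  have h := hg.hasDerivAt.comp (t : ℂ)
    (((hasDerivAt_id (t : ℂ)).mul_const e).const_add z)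
  rw [one_mul] at h
  exact h.comp_ofReal

/-- exponential decay in the middle of a chord -/
theorem chord {f q : ℂ → ℂ} {z e : ℂ} {k l B : ℝ}
    (df : ∀ t ∈ Icc (-l) l, AnalyticAt ℂ f (z + t * e) ∧
      deriv (deriv f) (z + t * e) = q (z + t * e) * f (z + t * e)) (hk : 0 < k) (hl : 0 < l)
    (hq : ∀ t ∈ Icc (-l) l, k ^ 2 ≤ 2 * (q (z + t * e) * e ^ 2).re)
    (h1 : ∀ t ∈ Icc (-l) l, ‖f (z + t * e)‖ ≤ B) : ‖f z‖ ^ 2 ≤ 2 * B ^ 2 * Real.exp (-(k * l)) := by
  have d1 := fun t ht => line (df t ht).1.differentiableAt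
  have d2 : ∀ t ∈ Icc (-l) l, HasDerivAt (fun t : ℝ => deriv f (z + t * e) * e)
      (q (z + t * e) * e ^ 2 * f (z + t * e)) t := fun t ht =>
    ((line (df t ht).1.deriv.differentiableAt).mul_const e).congr_deriv (by rw [(df t ht).2]; ring)
  have r1 := fun t ht => reCLM.hasFDerivAt.comp_hasDerivAt t (d1 t ht)
  have r2 := fun t ht => reCLM.hasFDerivAt.comp_hasDerivAt t (d2 t ht)
  have i1 := fun t ht => imCLM.hasFDerivAt.comp_hasDerivAt t (d1 t ht)
  have i2 := fun t ht => imCLM.hasFDerivAt.comp_hasDerivAt t (d2 t ht)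
  obtain ⟨D, hD⟩ : ∃ D : ℝ, D = B ^ 2 / Real.cosh (k * l) := ⟨_, rfl⟩
  have c0 := Real.cosh_pos (k * l)
  have c1 : ∀ t : ℝ, HasDerivAt (fun t => D * Real.cosh (k * t)) (D * (Real.sinh (k * t) * k)) t :=
    fun t => by simpa using ((hasDerivAt_id t).const_mul k).cosh.const_mul D
  have c2 : ∀ t : ℝ, HasDerivAt (fun t => D * (Real.sinh (k * t) * k))
      (D * (Real.cosh (k * t) * k * k)) t :=
    fun t => by simpa using (((hasDerivAt_id t).const_mul k).sinh.mul_const k).const_mul D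
  have n2 : ∀ w : ℂ, w.re * w.re + w.im * w.im = ‖w‖ ^ 2 := fun w => by
    rw [Complex.sq_norm, normSq_apply]
  have bd : ∀ t ∈ Icc (-l) l, Real.cosh (k * t) = Real.cosh (k * l) →
      (f (z + t * e)).re * (f (z + t * e)).re + (f (z + t * e)).im * (f (z + t * e)).im -
        D * Real.cosh (k * t) ≤ 0 := fun t ht hc => by
    rw [n2, hc, hD, div_mul_cancel₀ _ c0.ne', sub_nonpos]
    exact pow_le_pow_left₀ (norm_nonneg _) (h1 t ht) 2
  have key := maxp (a := -l) (b := l)
    (fun t ht => (((r1 t ht).mul (r1 t ht)).add ((i1 t ht).mul (i1 t ht))).sub (c1 t))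
    (fun t ht => ((((r2 t ht).mul (r1 t ht)).add ((r1 t ht).mul (r2 t ht))).add
      (((i2 t ht).mul (i1 t ht)).add ((i1 t ht).mul (i2 t ht)))).sub (c2 t))
    (fun t ht hv => by
      have k1 := hq t ht
      simp only [Pi.sub_apply, Pi.add_apply, Pi.mul_apply, Function.comp_apply, reCLM_apply,
        imCLM_apply] at hv ⊢
      generalize q (z + t * e) * e ^ 2 = κ at k1 ⊢
      generalize deriv f (z + t * e) * e = w₁
      generalize f (z + t * e) = w at hv ⊢
      rw [mul_re, mul_im]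
      have k2 := mul_le_mul_of_nonneg_right k1 (add_nonneg (mul_self_nonneg w.re) (mul_self_nonneg w.im))
      have k3 := mul_pos (pow_pos hk 2) hv
      nlinarith [mul_self_nonneg w₁.re, mul_self_nonneg w₁.im])
    (bd (-l) ⟨le_rfl, by linarith⟩ (by rw [mul_neg, Real.cosh_neg]))
    (bd l ⟨by linarith, le_rfl⟩ rfl) 0 ⟨by linarith, hl.le⟩
  simp only [Pi.sub_apply, Pi.add_apply, Pi.mul_apply, Function.comp_apply, reCLM_apply,
    imCLM_apply, ofReal_zero, zero_mul, add_zero, mul_zero, Real.cosh_zero, mul_one] at key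
  rw [n2, sub_nonpos, hD] at key
  refine key.trans ?_
  rw [div_le_iff₀ c0, Real.cosh_eq]
  have e1 : Real.exp (-(k * l)) * Real.exp (k * l) = 1 := by rw [← Real.exp_add]; simp
  nlinarith [mul_nonneg (sq_nonneg B) (mul_self_nonneg (Real.exp (-(k * l))))]

/-- the function is small on a disc where `q` is large -/
theorem small (E : Fn f q r) {y : ℂ} {G μ : ℝ} (hG : 0 < G) (hμ : 0 < μ)
    (sb : ball y μ ⊆ Strip r) (hy : ‖q y‖ = G ^ 2)
    (hb : ∀ z ∈ ball y μ, ‖f z‖ ≤ 8 * G ∧ ‖q z‖ ≤ 64 * G ^ 2) {z : ℂ} (hz : ‖z - y‖ ≤ μ / 260) :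
    ‖f z‖ ≤ 12 * G * Real.exp (-(G * (μ / 260) / 2)) := by
  have q0 : q y ≠ 0 := norm_pos_iff.1 (by rw [hy]; positivity)
  obtain ⟨e, he⟩ := IsAlgClosed.exists_pow_nat_eq (((G ^ 2 : ℝ) : ℂ) / q y) two_pos
  have e2 : ‖e‖ ^ 2 = 1 := by
    rw [← norm_pow, he, norm_div, hy, Complex.norm_real, Real.norm_of_nonneg (sq_nonneg G),
      div_self (by positivity)]
  have e1 : ‖e‖ = 1 := (pow_eq_one_iff_of_nonneg (norm_nonneg e) two_ne_zero).1 e2
  have near : ∀ t ∈ Icc (-(μ / 260)) (μ / 260), ‖z + t * e - y‖ ≤ μ / 130 := fun t ht => by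
    have h1 : ‖(t : ℂ) * e‖ ≤ μ / 260 := by
      rw [norm_mul, e1, mul_one, Complex.norm_real, Real.norm_eq_abs]
      exact abs_le.2 ht
    have h2 := norm_add_le (z - y) (t * e)
    rw [show z + t * e - y = z - y + t * e by ring]
    linarith
  have inb : ∀ t ∈ Icc (-(μ / 260)) (μ / 260), z + t * e ∈ ball y μ := fun t ht => by
    rw [mem_ball, dist_eq_norm]
    linarith [near t ht]
  have key := chord (q := q) (z := z) (e := e) (B := 8 * G)
    (fun t ht => ⟨E.df.analyticAt ((op r).mem_nhds (sb (inb t ht))), E.ode _ (sb (inb t ht))⟩) hG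
    (show 0 < μ / 260 by positivity)
    (fun t ht => by
      have h1 := dist_le_div_mul_dist_of_mapsTo_ball (R₂ := 65 * G ^ 2) (E.dq.mono sb)
        (fun w hw => by
          rw [mem_closedBall, dist_eq_norm]
          linarith [norm_sub_le (q w) (q y), (hb w hw).2]) (inb t ht)
      rw [dist_eq_norm, dist_eq_norm] at h1
      have h2 : 65 * G ^ 2 / μ * ‖z + t * e - y‖ ≤ 65 * G ^ 2 / μ * (μ / 130) :=
        mul_le_mul_of_nonneg_left (near t ht) (by positivity)
      have h3 : 65 * G ^ 2 / μ * (μ / 130) = G ^ 2 / 2 := by field_simp; ring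
      have h4 : q (z + t * e) * e ^ 2 = (G ^ 2 : ℝ) + (q (z + t * e) - q y) * e ^ 2 := by
        rw [he]
        field_simp
        ring
      have h5 := abs_re_le_norm ((q (z + t * e) - q y) * e ^ 2)
      rw [norm_mul, norm_pow, e2, mul_one] at h5
      rw [h4, add_re, ofReal_re]
      linarith [(abs_le.1 h5).1])
    (fun t ht => (hb _ (inb t ht)).1)
  refine (pow_le_pow_iff_left₀ (norm_nonneg _) (by positivity) two_ne_zero).1 (key.trans ?_)
  have e3 : Real.exp (-(G * (μ / 260) / 2)) ^ 2 = Real.exp (-(G * (μ / 260))) := by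
    rw [← Real.exp_nat_mul]
    congr 1
    push_cast
    ring
  rw [mul_pow (12 * G), e3]
  exact mul_le_mul_of_nonneg_right (by nlinarith [sq_nonneg G]) (Real.exp_pos _).le

/-- propagation of smallness to the real line -/
theorem spread (E : Fn f q r) {y : ℂ} {A η ρ c : ℝ} {K : ℕ} (hK : 0 < K) (hρ : 1 ≤ K * ρ)
    (y0 : 0 ≤ y.im) (yr : y.im < r) (hA : 0 ≤ A) (hη : 0 ≤ η) (hc : 0 ≤ c) (h1 : ∀ z : ℂ, |z.im| ≤ y.im → ‖f z‖ ≤ A)
    (h2 : ∀ z : ℂ, ‖z - y‖ ≤ ρ → ‖f z‖ ≤ A * η) (h3 : ∀ x : ℝ, c ≤ ‖f x‖) : c ^ K ≤ A ^ K * η := by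
  have K0 : (0 : ℝ) < K := Nat.cast_pos.2 hK
  have K0' : (K : ℂ) ≠ 0 := Nat.cast_ne_zero.2 hK.ne'
  have cj : ∀ j : ℕ, (j : ℂ) / K = ((j / K : ℝ) : ℂ) := fun j => by push_cast; rfl
  have im1 : ∀ (z : ℂ) (j : ℕ), (z + j / K).im = z.im := fun z j => by
    rw [cj, add_im, ofReal_im, add_zero]
  have top : ∀ z : ℂ, z.im = y.im → ‖∏ j ∈ Finset.range K, f (z + j / K)‖ ≤ A ^ K * η := by
    intro z hz
    obtain ⟨n, hn⟩ : ∃ n : ℤ, n = ⌊K * (y.re - z.re)⌋ := ⟨_, rfl⟩
    have n1 := Int.floor_le (K * (y.re - z.re))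
    have n2 := Int.lt_floor_add_one (K * (y.re - z.re))
    rw [← hn] at n1 n2
    have Kz : (0 : ℤ) < K := by exact_mod_cast hK
    obtain ⟨k, hk⟩ := Int.eq_ofNat_of_zero_le (Int.emod_nonneg n Kz.ne')
    have k1 : k < K := by
      have := Int.emod_lt_of_pos n Kz
      omega
    have k2 : (n : ℂ) = K * ((n / K : ℤ) : ℂ) + k := by
      have := Int.mul_ediv_add_emod n K
      rw [hk] at this
      exact_mod_cast this.symm
    have k3 : ‖f (z + k / K)‖ ≤ A * η := by
      rw [← perZ (fun z x h => shift h x) E.perf (z := z + k / K) (show |_| < r by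
        rwa [im1, hz, abs_of_nonneg y0]) (n / K), show z + k / K + ((n / K : ℤ) : ℂ) = z + n / K by
        rw [k2]; field_simp; ring]
      refine h2 _ ?_
      have e : z + n / K - y = ((z.re + n / K - y.re : ℝ) : ℂ) := by
        apply Complex.ext
        · rw [show (n : ℂ) / K = ((n / K : ℝ) : ℂ) by push_cast; rfl]
          simp only [sub_re, add_re, ofReal_re]
        · rw [show (n : ℂ) / K = ((n / K : ℝ) : ℂ) by push_cast; rfl]
          simp only [sub_im, add_im, ofReal_im, hz, add_zero, sub_self]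
      rw [e, Complex.norm_real, Real.norm_eq_abs, show z.re + n / K - y.re =
        (n - K * (y.re - z.re)) / K by field_simp; ring, abs_div, abs_of_pos K0, div_le_iff₀ K0,
        abs_le]
      constructor <;> linarith
    rw [norm_prod]
    calc ∏ j ∈ Finset.range K, ‖f (z + j / K)‖
        ≤ ∏ j ∈ Finset.range K, A * if j = k then η else 1 :=
          Finset.prod_le_prod (fun _ _ => norm_nonneg _) fun j _ => by
            split_ifs with h
            · rw [h]
              exact k3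
            · rw [mul_one]
              exact h1 _ (by rw [im1, hz, abs_of_nonneg y0])
      _ = A ^ K * η := by
          rw [Finset.prod_mul_distrib, Finset.prod_const, Finset.card_range, Finset.prod_ite_eq',
            if_pos (Finset.mem_range.2 k1)]
  have key := pl (F := fun z => ∏ j ∈ Finset.range K, f (z + j / K)) (a := -y.im) (b := y.im)
    (B := A ^ K) (C := A ^ K * η) (z := 0)
    (DifferentiableOn.fun_finset_prod fun j _ => E.df.comp (differentiableOn_id.add_const _)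
      fun z hz => show |(z + j / K).im| < r by rwa [im1]) (by linarith) yr
    (fun z k1 k2 => by
      rw [norm_prod]
      refine (Finset.prod_le_prod (fun _ _ => norm_nonneg _) fun j _ =>
        h1 _ (by rw [im1]; exact abs_le.2 ⟨k1.le, k2.le⟩)).trans_eq ?_
      rw [Finset.prod_const, Finset.card_range])
    (fun z hz => by
      have := top (conj z) (by rw [conj_im, hz, neg_neg])
      rw [norm_prod] at this ⊢
      refine (Finset.prod_congr rfl fun j _ => ?_).trans_le this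
      rw [← Complex.norm_conj, ← E.cjf _ (show |_| < r by rwa [im1, hz, abs_neg, abs_of_nonneg y0]),
        map_add, cj, conj_ofReal])
    top (by simpa using y0) (by simpa using y0)
  rw [norm_prod] at key
  refine le_trans ?_ key
  rw [← Finset.card_range K, ← Finset.prod_const, Finset.card_range]
  exact Finset.prod_le_prod (fun _ _ => hc) fun j _ => by rw [zero_add, cj]; exact h3 _

/-- the level is high in the scale `m` -/
theorem high (df : DifferentiableOn ℂ f (Strip r)) {P m c : ℝ} {y : ℂ} (m0 : 0 < m)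
    (y0 : 0 ≤ y.im) (yr : y.im + m < r)
    (hc : 2 * c ≤ P) (P0 : 0 ≤ P) (h0 : ∀ z : ℂ, z.im = 0 → ‖f z‖ ≤ Real.exp c)
    (hy : ‖f y‖ = Real.exp P) (hb : ∀ z : ℂ, |z.im| ≤ y.im + m → ‖f z‖ ≤ Real.exp (P + 2)) :
    m * P ≤ 4 * y.im := by
  have T0 : 0 < y.im + m := by linarith
  obtain ⟨a, ha⟩ : ∃ a : ℝ, a = (P + 2 - c) / (y.im + m) := ⟨_, rfl⟩
  have a0 : 0 ≤ a := by rw [ha]; exact div_nonneg (by linarith) T0.le
  have a1 : a * (y.im + m) = P + 2 - c := by rw [ha, div_mul_cancel₀ _ T0.ne']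
  have n : ∀ z : ℂ, ‖f z * exp (a * z * I)‖ = ‖f z‖ * Real.exp (-(a * z.im)) := fun z => by
    rw [norm_mul, norm_exp]
    simp
  have key := pl (F := fun z => f z * exp (a * z * I)) (a := 0) (b := y.im + m)
    (B := Real.exp (P + 2)) (C := Real.exp c) (z := y) (df.mul (by fun_prop)) (by linarith) yr
    (fun z k1 k2 => by
      rw [n]
      refine (mul_le_of_le_one_right (norm_nonneg _) ?_).trans
        (hb z (by rw [abs_of_pos k1]; exact k2.le))
      rw [Real.exp_le_one_iff]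
      linarith [mul_nonneg a0 k1.le])
    (fun z hz => by
      rw [n, hz, mul_zero, neg_zero, Real.exp_zero, mul_one]
      exact h0 z hz)
    (fun z hz => by
      rw [n, hz, a1]
      refine (mul_le_mul_of_nonneg_right (hb z (by rw [hz, abs_of_pos T0]))
        (Real.exp_pos _).le).trans_eq ?_
      rw [← Real.exp_add]
      congr 1
      ring)
    y0 (by linarith)
  rw [n, hy, ← Real.exp_add, Real.exp_le_exp] at key
  have k1 := mul_le_mul_of_nonneg_right key T0.le
  have k2 : a * y.im * (y.im + m) = (P + 2 - c) * y.im := by rw [← a1]; ring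
  nlinarith [mul_le_mul_of_nonneg_left hc m0.le]

end Vale.Agent.P097E.PB
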