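import Vale.Agent.P097E.GlueDefs

/-!
# P097E: polynomial growth on a finite strip (definitions and statements)
-/

set_option linter.all false

noncomputable section

namespace Vale.Agent.P097E

open Filter Topology Set Metric Complex Cs Vale.Agent.P097N

/-- A level of exponent `p` in the strip of half width `r`: size `exp P`, scale `m`. -/
structure Lvp (f q : ℂ → ℂ) (r p P m : ℝ) (y : ℂ) : Prop where
  p16 : 16 ≤ p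
  pP : p ≤ P
  m0 : 0 < m
  top : y.im + p * m ≤ r
  PT : m * P ≤ 4 * y.im
  val : ‖f y‖ = Real.exp P
  gr : ∀ t : ℝ, 0 ≤ t → t ≤ p → ∀ z : ℂ, |z.im| < y.im - m * t →
    ‖f z‖ * (y.im - m * t - |z.im|) ≤ 2 * m * Real.exp (P - t / 2) ∧
    ‖q z‖ * (y.im - m * t - |z.im|) ^ 2 ≤ (2 * m * Real.exp (P - t / 2)) ^ 2
  low : ∀ (z : ℂ) (t : ℝ), |z.im| ≤ y.im - m * t → 0 ≤ t → t ≤ p →
    ‖f z‖ ≤ Real.exp (P - t / 2) ∧ ‖q z‖ ≤ Real.exp (P - t / 2) ^ 2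
  wv : ∀ (s : ℂ) (ρ : ℝ), ‖s‖ ≤ ρ → 16 * ρ ^ 2 ≤ p →
    ‖f (y + m * s) * exp (s * I) / f y - 1‖ ≤ 64 * ρ ^ 2 / p

/-- growth of exponent at most `p` -/
def Pol (r : ℝ) (p : ℕ) (θ Q : ℂ → ℂ) : Prop := ∃ C : ℝ, ∀ y ∈ P097T.Strip r,
  ‖deriv θ y‖ * P097Top.dp r y ^ p ≤ C ∧ ‖Q y‖ * P097Top.dp r y ^ (2 * p) ≤ C

/-- faster growth gives levels -/
def Spec_PB : Prop := ∀ (r c : ℝ) (θ H Q : ℂ → ℂ), P097Top.Cur r c θ H Q → ∀ p : ℕ, 16 ≤ p →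
  ¬ Pol r p θ Q → ∀ Λ : ℝ, ∃ (P m : ℝ) (y : ℂ), Λ ≤ P ∧ Λ ≤ m * Real.exp P ∧
    Lvp (deriv θ) Q r p P m y

/-- the vertex map -/
def Spec_PA : Prop := ∃ L M : ℝ, 0 ≤ M ∧ ∀ R : ℝ, ∃ p₀ : ℝ,
  ∀ (r c κ : ℝ) (θ H Q : ℂ → ℂ) (Y : ℂ × ℂ → ℂ), P097Top.Cur r c θ H Q → P097Top.Sol0 θ H κ Y →
    2 * κ ≤ r → ∃ Λ : ℝ, ∀ (p P m : ℝ) (y : ℂ), p₀ ≤ p → Λ ≤ P → Λ ≤ m * Real.exp P →
      Lvp (deriv θ) Q r p P m y →
      ∃ Z : ℂ × ℂ → ℂ, Lv (wc (deriv θ) m y θ) (wc (deriv θ) m y H) (m * Real.exp P)⁻¹ R L M Z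

/-- the window and the chord function -/
def Spec_PW : Prop := ∃ L M : ℝ, 0 ≤ M ∧ ∀ R η₀ : ℝ, 0 < η₀ → ∃ p₀ : ℝ,
  ∀ (r c p P m : ℝ) (θ H Q : ℂ → ℂ) (y : ℂ), P097Top.Cur r c θ H Q → p₀ ≤ p →
    100 ≤ m * Real.exp P → Lvp (deriv θ) Q r p P m y →
      Wn (wc (deriv θ) m y θ) (wc (deriv θ) m y H) (m ^ 3 * c) (m * Real.exp P)⁻¹ R η₀ ∧
      Pv (wc (deriv θ) m y θ) (wc (deriv θ) m y H) (m * Real.exp P)⁻¹ R L M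

/-- one exponent bounds the growth for all integrable tables -/
def Spec_POLY : Prop := ∃ p : ℕ, ∀ (r c κ : ℝ) (θ H Q : ℂ → ℂ) (Y : ℂ × ℂ → ℂ),
  P097Top.Cur r c θ H Q → P097Top.Sol0 θ H κ Y → 2 * κ ≤ r → Pol r p θ Q

theorem poly_of (win : Spec_WIN) (pb : Spec_PB) (pa : Spec_PA) (pw : Spec_PW) (gb : Spec_GB) :
    Spec_POLY := by
  obtain ⟨L₁, M₁, m1, h1⟩ := pa
  obtain ⟨L₂, M₂, m2, h2⟩ := pw
  obtain ⟨L, M, h3⟩ := gb (max L₁ L₂) (max M₁ M₂) (le_max_of_le_left m1)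
  obtain ⟨R, ε₀, η₀, e0, k0, w⟩ := win L M
  obtain ⟨p₁, h1⟩ := h1 (R + 3)
  obtain ⟨p₂, h2⟩ := h2 (R + 3) (min η₀ (1 / 8)) (by positivity)
  obtain ⟨p, hp⟩ := exists_nat_ge (max 16 (max p₁ p₂))
  refine ⟨p, fun r c κ θ H Q Y C S hκ => by_contra fun n => ?_⟩
  obtain ⟨Λ, h1⟩ := h1 r c κ θ H Q Y C S hκ
  obtain ⟨P, m, y, a, b, l⟩ := pb r c θ H Q C p (by exact_mod_cast le_of_max_le_left hp) n
    (max Λ (max 100 ε₀⁻¹))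
  have b1 := le_of_max_le_left (le_of_max_le_right b)
  obtain ⟨Z, hZ⟩ := h1 p P m y (le_of_max_le_left (le_of_max_le_right hp)) (le_of_max_le_left a)
    (le_of_max_le_left b) l
  obtain ⟨W, v⟩ := h2 r c p P m θ H Q y C (le_of_max_le_right (le_of_max_le_right hp)) b1 l
  have e : 0 < (m * Real.exp P)⁻¹ := by have := l.m0; positivity
  obtain ⟨Z', hZ'⟩ := h3 _ _ _ _ R Z (Wn_mono W le_rfl (min_le_right _ _)) e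
    (by rw [one_div]; exact inv_anti₀ (by norm_num) b1)
    (hZ.mono (le_max_left _ _) (le_max_left _ _)) (v.mono (le_max_right _ _) (le_max_right _ _))
  exact w _ _ _ _ Z' (Wn_mono W (by linarith) (min_le_left _ _)) e
    (inv_le_of_inv_le₀ e0 (le_of_max_le_right (le_of_max_le_right b))) hZ'

end Vale.Agent.P097E
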