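import Vale.Agent.P097E.Defs

/-!
# P097E: tools for the shadowing block (admissible set, initial errors, Lipschitz bound)
-/

set_option linter.all false

noncomputable section

namespace Vale.Agent.P097E.Sh

open Filter Topology Set Metric Complex Cs

theorem n_mul {u v : ℂ} {a b : ℝ} (hu : ‖u - 1‖ ≤ a) (hv : ‖v - 1‖ ≤ b) (ha : a ≤ 1) :
    ‖u * v - 1‖ ≤ a + 2 * b := by
  have e : u * v - 1 = (u - 1) + ((u - 1) + 1) * (v - 1) := by ring
  have h1 : ‖(u - 1) + 1‖ ≤ 2 := by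
    have := norm_add_le (u - 1) 1
    rw [norm_one] at this
    linarith
  have h2 : ‖((u - 1) + 1) * (v - 1)‖ ≤ 2 * b := by
    rw [norm_mul]
    exact mul_le_mul h1 hv (norm_nonneg _) (by norm_num)
  rw [e]
  exact (norm_add_le _ _).trans (by linarith)

theorem n_low {u : ℂ} {a : ℝ} (hu : ‖u - 1‖ ≤ a) : 1 - a ≤ ‖u‖ := by
  have := norm_sub_le u (u - 1)
  rw [sub_sub_cancel, norm_one] at this
  linarith

theorem n_up {u : ℂ} {a : ℝ} (hu : ‖u - 1‖ ≤ a) : ‖u‖ ≤ 1 + a := by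
  have := norm_add_le (u - 1) 1
  rw [sub_add_cancel, norm_one] at this
  linarith

theorem n_inv {u : ℂ} {a : ℝ} (hu : ‖u - 1‖ ≤ a) (ha : a ≤ 1 / 2) : ‖u⁻¹ - 1‖ ≤ 2 * a := by
  have h1 := n_low hu
  have h0 : 0 < ‖u‖ := by linarith
  have n : u ≠ 0 := norm_pos_iff.1 h0
  have e : u⁻¹ - 1 = -((u - 1) / u) := by field_simp; ring
  rw [e, norm_neg, norm_div, div_le_iff₀ h0]
  have a0 : 0 ≤ a := (norm_nonneg _).trans hu
  nlinarith

theorem n_div {a b : ℂ} {w : ℝ} (hb : b ≠ 0) (h : ‖a - b‖ ≤ w * ‖b‖) : ‖a / b - 1‖ ≤ w := by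
  have e : a / b - 1 = (a - b) / b := by field_simp
  rw [e, norm_div, div_le_iff₀ (norm_pos_iff.2 hb)]
  exact h

theorem n_sub {a b : ℂ} {w : ℝ} (hw : w < 1) (h : ‖a / b - 1‖ ≤ w) : ‖a - b‖ ≤ w * ‖b‖ := by
  have hb : b ≠ 0 := fun e => by
    rw [e, div_zero, zero_sub, norm_neg, norm_one] at h
    linarith
  have e : a - b = (a / b - 1) * b := by field_simp
  rw [e, norm_mul]
  exact mul_le_mul_of_nonneg_right h (norm_nonneg _)

/-- the compact set of admissible values -/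
def KK (zs β c₁ : ℝ) : Set ℂ := {ζ | c₁ ≤ ‖ζ‖ ∧ ‖ζ‖ ≤ zs * Real.exp (11 * β) ∧
  (‖ζ‖ ≤ zs * Real.exp (-β) ∨ 30 * β * ‖ζ‖ ≤ |ζ.im|)}

theorem KK_cpt (zs β c₁ : ℝ) : IsCompact (KK zs β c₁) := by
  refine (isCompact_closedBall (0 : ℂ) (zs * Real.exp (11 * β))).of_isClosed_subset ?_
    fun ζ h => mem_closedBall_zero_iff.2 h.2.1
  have k : IsClosed {ζ : ℂ | 30 * β * ‖ζ‖ ≤ |ζ.im|} := isClosed_le (by fun_prop) (by fun_prop)
  exact (isClosed_le continuous_const continuous_norm).inter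
    ((isClosed_le continuous_norm continuous_const).inter
      ((isClosed_le continuous_norm continuous_const).union k))

theorem KK_adm {zs β c₁ : ℝ} (hz : 0 < zs) (hβ : 0 < β) {ζ : ℂ} (h : ζ ∈ Adm zs β)
    (hc : c₁ ≤ ‖ζ‖) : ζ ∈ KK zs β c₁ := by
  obtain ⟨l, h1, h2⟩ := h
  have n : ‖ζ‖ = zs * Real.exp l.re := by
    rcases h1 with e | e <;> simp [e, norm_exp, abs_of_pos hz]
  have i : |ζ.im| = zs * Real.exp l.re * |Real.sin l.im| := by
    have p := Real.exp_pos l.re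
    rcases h1 with e | e <;> simp [e, exp_im, abs_mul, abs_of_pos hz, abs_of_pos p, mul_assoc]
  refine ⟨hc, ?_, ?_⟩
  · rw [n]
    refine mul_le_mul_of_nonneg_left (Real.exp_le_exp.2 ?_) hz.le
    rcases h2 with e | e
    · linarith
    · exact e.1
  · rcases h2 with e | e
    · left
      rw [n]
      exact mul_le_mul_of_nonneg_left (Real.exp_le_exp.2 e) hz.le
    · right
      rw [i, n, mul_comm]
      refine mul_le_mul_of_nonneg_left ?_ (by positivity)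
      have x0 : 0 < |l.im| := by linarith [e.2.1]
      have s := Real.sin_gt_sub_cube x0
      have s2 : Real.sin |l.im| ≤ |Real.sin l.im| := by
        rcases abs_choice l.im with k | k <;> rw [k]
        · exact le_abs_self _
        · rw [Real.sin_neg]; exact neg_le_abs _
      have : |l.im| ^ 3 ≤ |l.im| := by
        have := pow_le_pow_of_le_one x0.le e.2.2 (show 1 ≤ 3 by norm_num)
        simpa using this
      linarith [e.2.1]

theorem KK_off {zs β c₁ η : ℝ} (hz : 0 < zs) (hβ : 0 < β) (hβ' : β ≤ 1 / 300) (hc : 0 < c₁)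
    (hη : η ≤ β / 2) : ∀ ζ ∈ KK zs β c₁, ∀ ν : ℂ, ‖ν - 1‖ ≤ η → ζ * ν ∉ Fb zs := by
  intro ζ h ν hν hF
  obtain ⟨h1, h2, h3⟩ := h
  have η0 : 0 ≤ η := (norm_nonneg _).trans hν
  have z0 : 0 < ‖ζ‖ := hc.trans_le h1
  have u := n_up hν
  have l := n_low hν
  have n0 : 0 < ‖ν‖ := by linarith
  have p : 0 < ‖ζ * ν‖ := by rw [norm_mul]; positivity
  have key : ∀ a : ℝ, ‖ζ‖ ≤ zs * Real.exp a → Real.log (‖ζ * ν‖ / zs) ≤ a + η := fun a ha => by
    rw [Real.log_le_iff_le_exp (by positivity), div_le_iff₀ hz, Real.exp_add, norm_mul]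
    have := Real.add_one_le_exp η
    calc ‖ζ‖ * ‖ν‖ ≤ zs * Real.exp a * Real.exp η :=
          mul_le_mul ha (by linarith) n0.le (by positivity)
      _ = _ := by ring
  have hF : |(ζ * ν).im| ≤ 2 * ‖ζ * ν‖ * Real.log (‖ζ * ν‖ / zs) := hF
  rcases h3 with h3 | h3
  · have := key _ h3
    have k : 2 * ‖ζ * ν‖ * Real.log (‖ζ * ν‖ / zs) < 0 :=
      mul_neg_of_pos_of_neg (by positivity) (by linarith)
    linarith [abs_nonneg (ζ * ν).im]
  · have k := key _ h2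
    have e : ζ = ζ * ν - ζ * (ν - 1) := by ring
    have i1 : |ζ.im| ≤ |(ζ * ν).im| + ‖ζ‖ * η := by
      have e2 : ζ.im = (ζ * ν).im - (ζ * (ν - 1)).im := by rw [← sub_im, ← e]
      have := abs_sub (ζ * ν).im (ζ * (ν - 1)).im
      have b := abs_im_le_norm (ζ * (ν - 1))
      rw [norm_mul] at b
      have := mul_le_mul_of_nonneg_left hν z0.le
      rw [e2]
      linarith
    have i2 : 2 * ‖ζ * ν‖ * Real.log (‖ζ * ν‖ / zs) ≤ 2 * (‖ζ‖ * (1 + η)) * (12 * β) := by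
      refine (mul_le_mul_of_nonneg_left (show _ ≤ 12 * β by linarith) (by positivity)).trans ?_
      rw [norm_mul]
      gcongr
    have i3 : ‖ζ‖ * η ≤ ‖ζ‖ * β := by gcongr; linarith
    have i4 : 2 * (‖ζ‖ * (1 + η)) * (12 * β) ≤ 2 * (‖ζ‖ * (1 + 1 / 24)) * (12 * β) := by
      gcongr; linarith
    have : 0 < ‖ζ‖ * β := by positivity
    nlinarith

/-- the initial errors -/
theorem bc {sg Zm : ℂ → ℂ} (p0 : MP0 sg Zm) (M : ℝ) (M0 : 0 ≤ M) : ∃ A : ℝ, 1 ≤ A ∧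
    ∀ (X W y δ g : ℂ) (x η : ℝ), W ≠ 0 → ‖W‖ ≤ 2 → A * (x + η) ≤ 1 → Real.exp X.im ≤ x →
      ‖y - X‖ ≤ M * x → ‖2 * δ - W * g‖ ≤ M * x * ‖W * g‖ → ‖g * exp (y * I) - 1‖ ≤ η →
      ‖δ‖ ≤ 1 → ‖W * exp (-(I * y)) / sg δ - 1‖ ≤ A * (x + η) ∧
        ‖Zm δ / (W * exp (-(I * X))) - 1‖ ≤ A * (x + η) := by
  obtain ⟨C, hC⟩ := p0
  refine ⟨20 * (1 + 2 * M + 6 * |C|), by nlinarith [abs_nonneg C], ?_⟩
  intro X W y δ g x η W0 W2 hA hx hy hd hg d1
  have x0 : 0 < x := (Real.exp_pos _).trans_le hx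
  have η0 : 0 ≤ η := (norm_nonneg _).trans hg
  have C0 := abs_nonneg C
  set w := (1 + 2 * M + 6 * |C|) * (x + η) with hw
  have w1 : w ≤ 1 / 20 := by rw [hw]; linarith
  have a1 : η ≤ w := by rw [hw]; nlinarith [mul_nonneg M0 x0.le, mul_nonneg M0 η0, mul_nonneg C0 x0.le, mul_nonneg C0 η0]
  have a2 : 2 * (M * x) ≤ w := by rw [hw]; nlinarith [mul_nonneg M0 x0.le, mul_nonneg M0 η0, mul_nonneg C0 x0.le, mul_nonneg C0 η0]
  have a3 : 6 * (|C| * x) ≤ w := by rw [hw]; nlinarith [mul_nonneg M0 x0.le, mul_nonneg M0 η0, mul_nonneg C0 x0.le, mul_nonneg C0 η0]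
  have Mx : 0 ≤ M * x := mul_nonneg M0 x0.le
  have h1 : ‖g * exp (y * I) - 1‖ ≤ w := hg.trans a1
  have g0 : g ≠ 0 := fun e => by
    rw [e, zero_mul, zero_sub, norm_neg, norm_one] at h1
    linarith
  have Wg : W * g ≠ 0 := mul_ne_zero W0 g0
  have h2 : ‖2 * δ / (W * g) - 1‖ ≤ w := (n_div Wg hd).trans (by linarith)
  have d0 : δ ≠ 0 := fun e => by
    rw [e, mul_zero, zero_div, zero_sub, norm_neg, norm_one] at h2
    linarith
  have h5 : ‖exp (-(I * (y - X))) - 1‖ ≤ w := by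
    have n : ‖-(I * (y - X))‖ ≤ M * x := by rwa [norm_neg, norm_mul, norm_I, one_mul]
    exact (norm_exp_sub_one_le (n.trans (by linarith))).trans (by linarith)
  have eX := exp_ne_zero (-(I * X))
  have ey := exp_ne_zero (y * I)
  have e1 : exp (-(I * y)) = (exp (y * I))⁻¹ := by rw [← exp_neg, mul_comm]
  have e5 : exp (-(I * (y - X))) = (exp (y * I))⁻¹ / exp (-(I * X)) := by
    rw [← e1, ← exp_sub]; congr 1; ring
  have nX : ‖exp (-(I * X))‖ ≤ x := by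
    rw [norm_exp]
    simpa using hx
  have e2 : 2 * δ = W * exp (-(I * X)) * (exp (-(I * (y - X))) * (g * exp (y * I)) *
      (2 * δ / (W * g))) := by
    rw [e5]; field_simp
  have h6 := n_mul (n_mul h5 h1 (by linarith)) h2 (by linarith)
  have nd : ‖δ‖ ≤ 2 * x := by
    have k := congrArg norm e2
    rw [norm_mul, norm_mul, norm_mul] at k
    have k2 := n_up h6
    have : ‖W‖ * ‖exp (-(I * X))‖ * ‖exp (-(I * (y - X))) * (g * exp (y * I)) *
        (2 * δ / (W * g))‖ ≤ 2 * x * 2 :=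
      mul_le_mul (mul_le_mul W2 nX (norm_nonneg _) (by norm_num)) (by linarith) (norm_nonneg _)
        (by linarith)
    simp only [Complex.norm_ofNat] at k
    linarith
  have d2 : (2 : ℂ) * δ ≠ 0 := mul_ne_zero two_ne_zero d0
  have cb : C * ‖δ‖ ^ 3 ≤ w * ‖2 * δ‖ := by
    have n := norm_nonneg δ
    rw [norm_mul]
    simp only [Complex.norm_ofNat]
    have k1 : ‖δ‖ ^ 2 ≤ 2 * x := by nlinarith
    have k2 : C * ‖δ‖ ^ 2 ≤ |C| * (2 * x) := mul_le_mul (le_abs_self C) k1 (by positivity) C0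
    have k3 : C * ‖δ‖ ^ 2 ≤ w * 2 := by nlinarith [mul_nonneg C0 x0.le]
    calc C * ‖δ‖ ^ 3 = C * ‖δ‖ ^ 2 * ‖δ‖ := by ring
      _ ≤ w * 2 * ‖δ‖ := mul_le_mul_of_nonneg_right k3 n
      _ = _ := by ring
  have h3 : ‖sg δ / (2 * δ) - 1‖ ≤ w := n_div d2 ((hC δ d1).1.trans cb)
  have h4 : ‖Zm δ / (2 * δ) - 1‖ ≤ w := n_div d2 ((hC δ d1).2.trans cb)
  have s0 : sg δ ≠ 0 := fun e => by
    rw [e, zero_div, zero_sub, norm_neg, norm_one] at h3
    linarith
  have w0 : 0 ≤ w := η0.trans a1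
  have eA : 20 * (1 + 2 * M + 6 * |C|) * (x + η) = 20 * w := by rw [hw]; ring
  rw [eA]
  constructor
  · have k := n_inv (n_mul (n_mul h1 h2 (by linarith)) h3 (by linarith)) (by linarith)
    have e : W * exp (-(I * y)) / sg δ =
        (g * exp (y * I) * (2 * δ / (W * g)) * (sg δ / (2 * δ)))⁻¹ := by
      rw [e1]; field_simp
    rw [e]
    linarith
  · have k := n_mul h6 h4 (by linarith)
    have e : Zm δ / (W * exp (-(I * X))) = exp (-(I * (y - X))) * (g * exp (y * I)) *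
        (2 * δ / (W * g)) * (Zm δ / (2 * δ)) := by
      rw [e5]; field_simp
    rw [e]
    linarith

/-- the baseline is Lipschitz in the first variable -/
theorem lipZ {θ H : ℂ → ℂ} {ε R L M : ℝ} {Z : ℂ × ℂ → ℂ × ℂ} (b : Bas θ H ε R L M Z) {X X' W : ℂ}
    (h1 : ‖X‖ + 1 ≤ R) (h2 : X.im ≤ -L - 1) (h3 : ‖W‖ < 2) (h4 : ‖X' - X‖ < 1) :
    ‖Z (X', W) - Z (X, W)‖ ≤ (2 * M + 3) * ‖X' - X‖ := by
  have lo : ∀ x ∈ ball X 1, (x, W) ∈ Low R L := fun x hx => by
    rw [mem_ball_iff_norm] at hx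
    have k1 := norm_add_le X (x - X)
    rw [add_sub_cancel] at k1
    have k2 := (le_abs_self _).trans (abs_im_le_norm (x - X))
    rw [sub_im] at k2
    exact ⟨by show ‖x‖ < R; linarith, by show x.im < -L; linarith, h3⟩
  have bd : ∀ x ∈ ball X 1, ‖Z (x, W) - (x, 0)‖ ≤ M + 1 := fun x hx => by
    have q := lo x hx
    have k1 := b.bY _ q
    have k2 := b.sm _ q
    have k3 : Real.exp x.im ≤ 1 := Real.exp_le_one_iff.2 (by have := q.2.1; have := b.L3; simp only at *; linarith)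
    have k4 := mul_le_mul_of_nonneg_left k3 b.M0
    have := b.M0
    rw [Prod.norm_def]
    refine max_le ?_ ?_
    · simp only [Prod.fst_sub] at *; linarith
    · simp only [Prod.snd_sub, sub_zero]; linarith
  have df : DifferentiableOn ℂ (fun x : ℂ => Z (x, W) - (x, 0)) (ball X 1) := fun x hx => by
    have a : AnalyticAt ℂ (fun x : ℂ => Z (x, W)) x :=
      (b.an _ (lo x hx)).comp_of_eq (analyticAt_id.prod analyticAt_const) rfl
    exact (a.sub (analyticAt_id.prod analyticAt_const)).differentiableAt.differentiableWithinAt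
  have k := Complex.dist_le_div_mul_dist_of_mapsTo_ball (R₂ := 2 * (M + 1)) df
    (fun x hx => by
      rw [mem_closedBall_iff_norm]
      exact (norm_sub_le _ _).trans (by
        linarith [bd x hx, bd X (mem_ball_self one_pos)]))
    (mem_ball_iff_norm.2 h4)
  rw [dist_eq_norm, dist_eq_norm, div_one] at k
  have e : Z (X', W) - Z (X, W) =
      (Z (X', W) - (X', 0) - (Z (X, W) - (X, 0))) + (X' - X, 0) := by
    ext
    · simp only [Prod.fst_sub, Prod.fst_add]; ring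
    · simp
  have n : ‖((X' - X, 0) : ℂ × ℂ)‖ = ‖X' - X‖ := by simp [Prod.norm_def]
  rw [e]
  refine (norm_add_le _ _).trans ?_
  rw [n]
  linarith

/-- the depth of the starting points -/
theorem depth {κ A D : ℝ} (hκ : 0 < κ) (hA : 0 < A) :
    ∃ L₀ : ℝ, 0 ≤ L₀ ∧ D < κ * L₀ ∧ (2 + L₀) * Real.exp (-(κ * L₀)) ≤ A := by
  have t0 : Tendsto (fun x : ℝ => κ * x) atTop atTop := tendsto_id.const_mul_atTop hκ
  have t1 := (Real.tendsto_pow_mul_exp_neg_atTop_nhds_zero 0).comp t0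
  have t2 := (Real.tendsto_pow_mul_exp_neg_atTop_nhds_zero 1).comp t0
  have t3 := (t1.const_mul 2).add (t2.const_mul κ⁻¹)
  simp only [mul_zero, add_zero] at t3
  obtain ⟨x, h1, h2, h3⟩ := ((eventually_ge_atTop 0).and ((t0.eventually_gt_atTop D).and
    (t3.eventually (ge_mem_nhds hA)))).exists
  refine ⟨x, h1, h2, le_trans (le_of_eq ?_) h3⟩
  simp only [Function.comp, pow_zero, pow_one]
  field_simp

/-- a bound for `sg` where `Zm` is bounded -/
theorem sg_bd {sg Zm : ℂ → ℂ} {zs : ℝ} (m : Mod sg Zm zs) (R : ℝ) : ∃ S : ℝ, 1 ≤ S ∧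
    ∀ δ : ℂ, |δ.re| ≤ Real.pi → ‖Zm δ‖ ≤ R → ‖sg δ‖ ≤ S := by
  obtain ⟨M, hM⟩ := m.p2 R
  refine ⟨max 1 (24 * ((1 + (4 + M)) * Real.exp (4 + M))), le_max_left _ _, fun δ h1 h2 => ?_⟩
  have p := Real.pi_lt_d2
  have n : ‖δ‖ ≤ 4 + M := (norm_le_abs_re_add_abs_im δ).trans (by linarith [hM δ h1 h2])
  have c := congrArg norm (m.cube δ (show |δ.re| < 7 / 2 by linarith))
  rw [norm_pow, norm_mul] at c
  simp only [Complex.norm_ofNat] at c
  have s : ‖Sm δ‖ ≤ _ := nSS n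
  rcases le_total ‖sg δ‖ 1 with k | k
  · exact k.trans (le_max_left _ _)
  · refine le_trans ?_ (le_max_right _ _)
    have := pow_le_pow_right₀ k (show 1 ≤ 3 by norm_num)
    rw [pow_one] at this
    linarith

end Vale.Agent.P097E.Sh
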